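import Vale.Agent.P284.H731.Grp
import Mathlib.GroupTheory.GroupAction.ConjAct
import Mathlib.LinearAlgebra.FiniteDimensional.Basic
import Mathlib.LinearAlgebra.FiniteDimensional.Lemmas
import Mathlib.LinearAlgebra.Matrix.GeneralLinearGroup.Defs
import Mathlib.LinearAlgebra.Matrix.ToLin
import Mathlib.LinearAlgebra.GeneralLinearGroup.Basic

/-!
# P284, theorem T, row T10 (helper10): abstract part

For a group `S`, `AA S` is the space of the functions `b : S → ℝ` which lie in a finite-dimensional space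
of functions invariant under left translations and for which `t ↦ b (t s) - b t` is bounded for each `s`;
`BB S` is the subspace of the bounded ones.  The automorphism group of `S` acts on `AA S / BB S`, and the
inner automorphism given by `s` acts as the left translation by `s`.
-/

open Function

noncomputable section

namespace Vale.Agent.P284.H10.T

open Vale.Agent.P284.H894.V Vale.Agent.P284.H731

/-- The group has a solvable subgroup of finite index. -/
def VSol (Q : Type*) [Group Q] : Prop :=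
  ∃ H : Subgroup Q, H.FiniteIndex ∧ Group.IsSolvable H

/-- The space of functions is invariant under left translations. -/
def LInv {S : Type*} [Group S] (W : Submodule ℝ (S → ℝ)) : Prop :=
  ∀ s : S, ∀ f ∈ W, (fun t => f (s⁻¹ * t)) ∈ W

theorem LInv.sup {S : Type*} [Group S] {W₁ W₂ : Submodule ℝ (S → ℝ)} (h₁ : LInv W₁) (h₂ : LInv W₂) :
    LInv (W₁ ⊔ W₂) := by
  intro s f hf
  obtain ⟨f₁, hf₁, f₂, hf₂, rfl⟩ := Submodule.mem_sup.1 hf
  exact Submodule.mem_sup.2 ⟨_, h₁ s f₁ hf₁, _, h₂ s f₂ hf₂, rfl⟩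

/-- The space of the functions `b` of finite type for the left translations, such that `b (t s) - b t` is
bounded in `t`. -/
def AA (S : Type*) [Group S] : Submodule ℝ (S → ℝ) where
  carrier := {b | (∃ W : Submodule ℝ (S → ℝ), FiniteDimensional ℝ W ∧ LInv W ∧ b ∈ W) ∧
    ∀ s : S, ∃ C : ℝ, ∀ t : S, |b (t * s) - b t| ≤ C}
  zero_mem' := by
    refine ⟨⟨⊥, inferInstance, ?_, Submodule.zero_mem _⟩, fun s => ⟨0, fun t => ?_⟩⟩
    · intro s f hf
      rw [Submodule.mem_bot] at hf ⊢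
      subst hf
      rfl
    · simp
  add_mem' := by
    rintro a b ⟨⟨W₁, hf₁, hi₁, ha⟩, ha'⟩ ⟨⟨W₂, hf₂, hi₂, hb⟩, hb'⟩
    refine ⟨⟨W₁ ⊔ W₂, Submodule.finiteDimensional_sup _ _, hi₁.sup hi₂,
      Submodule.mem_sup.2 ⟨_, ha, _, hb, rfl⟩⟩, fun s => ?_⟩
    obtain ⟨C₁, h₁⟩ := ha' s
    obtain ⟨C₂, h₂⟩ := hb' s
    refine ⟨C₁ + C₂, fun t => ?_⟩
    have h3 : (a + b) (t * s) - (a + b) t = (a (t * s) - a t) + (b (t * s) - b t) := by
      simp only [Pi.add_apply]; ring
    rw [h3]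
    exact (abs_add_le _ _).trans (add_le_add (h₁ t) (h₂ t))
  smul_mem' := by
    rintro c b ⟨⟨W, hf, hi, hb⟩, hb'⟩
    refine ⟨⟨W, hf, hi, W.smul_mem _ hb⟩, fun s => ?_⟩
    obtain ⟨C, h⟩ := hb' s
    refine ⟨|c| * C, fun t => ?_⟩
    have h3 : (c • b) (t * s) - (c • b) t = c * (b (t * s) - b t) := by
      simp only [Pi.smul_apply, smul_eq_mul]; ring
    rw [h3, abs_mul]
    exact mul_le_mul_of_nonneg_left (h t) (abs_nonneg _)

/-- The bounded elements of `AA S`. -/
def BB (S : Type*) [Group S] : Submodule ℝ (AA S) where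
  carrier := {b | ∃ C : ℝ, ∀ t : S, |b.1 t| ≤ C}
  zero_mem' := ⟨0, fun t => by simp⟩
  add_mem' := by
    rintro a b ⟨C₁, h₁⟩ ⟨C₂, h₂⟩
    exact ⟨C₁ + C₂, fun t => (abs_add_le _ _).trans (add_le_add (h₁ t) (h₂ t))⟩
  smul_mem' := by
    rintro c b ⟨C, h⟩
    refine ⟨|c| * C, fun t => ?_⟩
    have h3 : (c • b).1 t = c * b.1 t := rfl
    rw [h3, abs_mul]
    exact mul_le_mul_of_nonneg_left (h t) (abs_nonneg _)

theorem mem_BB {S : Type*} [Group S] {b : AA S} : b ∈ BB S ↔ ∃ C : ℝ, ∀ t : S, |b.1 t| ≤ C :=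
  Iff.rfl

/-- `AA S` is invariant under automorphisms. -/
theorem aut_mem {S : Type*} [Group S] (φ : MulAut S) {b : S → ℝ} (hb : b ∈ AA S) :
    (fun t => b (φ⁻¹ t)) ∈ AA S := by
  obtain ⟨⟨W, hf, hi, hW⟩, hb'⟩ := hb
  let e : (S → ℝ) →ₗ[ℝ] (S → ℝ) := LinearMap.funLeft ℝ ℝ (fun t => φ⁻¹ t)
  have he : ∀ f t, e f t = f (φ⁻¹ t) := fun f t => rfl
  refine ⟨⟨W.map e, inferInstance, ?_, Submodule.mem_map.2 ⟨b, hW, rfl⟩⟩, fun s => ?_⟩
  · intro s g hg
    obtain ⟨f, hf', rfl⟩ := Submodule.mem_map.1 hg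
    refine Submodule.mem_map.2 ⟨_, hi (φ⁻¹ s) f hf', ?_⟩
    funext t
    rw [he, he, map_mul, map_inv]
  · obtain ⟨C, h⟩ := hb' (φ⁻¹ s)
    refine ⟨C, fun t => ?_⟩
    have := h (φ⁻¹ t)
    rwa [← map_mul] at this

/-- The action of an automorphism on `AA S`. -/
def autAA {S : Type*} [Group S] (φ : MulAut S) : AA S →ₗ[ℝ] AA S where
  toFun b := ⟨fun t => b.1 (φ⁻¹ t), aut_mem φ b.2⟩
  map_add' _ _ := rfl
  map_smul' _ _ := rfl

theorem autAA_apply {S : Type*} [Group S] (φ : MulAut S) (b : AA S) (t : S) :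
    (autAA φ b).1 t = b.1 (φ⁻¹ t) := rfl

theorem autAA_BB {S : Type*} [Group S] (φ : MulAut S) : BB S ≤ (BB S).comap (autAA φ) := by
  rintro b ⟨C, h⟩
  exact ⟨C, fun t => h _⟩

/-- The quotient `AA S / BB S`. -/
abbrev QQ (S : Type*) [Group S] : Type _ := AA S ⧸ BB S

/-- The representation of the automorphism group on `AA S / BB S`. -/
def Rep (S : Type*) [Group S] : MulAut S →* (QQ S →ₗ[ℝ] QQ S) where
  toFun φ := (BB S).mapQ (BB S) (autAA φ) (autAA_BB φ)
  map_one' := by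
    apply Submodule.linearMap_qext
    apply LinearMap.ext
    intro b
    rfl
  map_mul' φ ψ := by
    apply Submodule.linearMap_qext
    apply LinearMap.ext
    intro b
    show Submodule.Quotient.mk (autAA (φ * ψ) b) = Submodule.Quotient.mk (autAA φ (autAA ψ b))
    congr 1

theorem Rep_mk {S : Type*} [Group S] (φ : MulAut S) (b : AA S) :
    Rep S φ (Submodule.Quotient.mk b) = Submodule.Quotient.mk (autAA φ b) := rfl

/-! ### Kernels of maps with virtually solvable image -/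

theorem vsol_ker {G L : Type*} [Group G] [Group L] (f : G →* L) (h : VSol f.range) :
    ∃ H : Subgroup G, H.FiniteIndex ∧ ∃ n, ∀ g ∈ derivedSeries H n, f (g : G) = 1 := by
  obtain ⟨K, hK, hs⟩ := h
  obtain ⟨n, hn⟩ := hs.solvable
  refine ⟨K.comap f.rangeRestrict, ⟨?_⟩, n, fun g hg => ?_⟩
  · rw [Subgroup.index_comap_of_surjective K f.rangeRestrict_surjective]
    exact hK.index_ne_zero
  · have h1 := map_derivedSeries_le_derivedSeries (f.rangeRestrict.subgroupComap K) n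
    have h2 : f.rangeRestrict.subgroupComap K g ∈ derivedSeries K n :=
      h1 (Subgroup.mem_map_of_mem _ hg)
    rw [hn, Subgroup.mem_bot] at h2
    have h3 := congrArg (fun x : K => ((x : f.range) : L)) h2
    exact h3

theorem ker_restrict {G L : Type*} [Group G] [Group L] (f : G →* L) (S : Subgroup G)
    (h : ∃ H : Subgroup G, H.FiniteIndex ∧ ∃ n, ∀ g ∈ derivedSeries H n, f (g : G) = 1) :
    ∃ H : Subgroup S, H.FiniteIndex ∧ ∃ n, ∀ g ∈ derivedSeries H n, f ((g : S) : G) = 1 := by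
  obtain ⟨H, hH, n, hn⟩ := h
  refine ⟨H.subgroupOf S, inferInstance, n, fun g hg => ?_⟩
  let j : H.subgroupOf S →* H := S.subtype.subgroupComap H
  have h1 := map_derivedSeries_le_derivedSeries j n
  have h2 : j g ∈ derivedSeries H n := h1 (Subgroup.mem_map_of_mem _ hg)
  exact hn _ h2

/-- The abstract theorem: `S` acts on the finite-dimensional space `E`, trivially on `K₀`, and `E` is mapped
`S`-equivariantly to functions on `S`. -/
theorem t10_abs {G : Type*} [Group G] (S : Subgroup G) [S.Normal] (hfg : Group.FG S)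
    {E : Type*} [AddCommGroup E] [Module ℝ E] [FiniteDimensional ℝ E]
    (ρ : S →* (E →ₗ[ℝ] E)) (ev : E →ₗ[ℝ] (S → ℝ))
    (hev : ∀ (s : S) (u : E) (t : S), ev (ρ s u) t = ev u (s⁻¹ * t))
    (K₀ : Submodule ℝ E) (hK₀ : ∀ (s : S), ∀ u ∈ K₀, ρ s u = u)
    (h2 : ∀ u : E, (∃ C : ℝ, ∀ t, |ev u t| ≤ C) → u ∈ K₀)
    (h4 : ∀ b ∈ AA S, ∃ u : E, ∃ C : ℝ, ∀ t, |b t - ev u t| ≤ C)
    (h5 : ∀ (u : E) (s : S), ∃ C : ℝ, ∀ t, |ev u (t * s) - ev u t| ≤ C)
    (h6 : ∀ H : Subgroup S, H.FiniteIndex → ¬ ∀ s ∈ H, ∀ u, ρ s u = u) :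
    VirtIndicable S ∨ ∃ (d : ℕ) (R : G →* Matrix.GeneralLinearGroup (Fin d) ℝ), ¬ VSol R.range := by
  classical
  -- the map `ι : E → AA / BB`
  have hmem : ∀ u : E, ev u ∈ AA S := by
    intro u
    refine ⟨⟨LinearMap.range ev, inferInstance, ?_, ⟨u, rfl⟩⟩, h5 u⟩
    rintro s _ ⟨v, rfl⟩
    exact ⟨ρ s v, funext fun t => hev s v t⟩
  let ι : E →ₗ[ℝ] QQ S := (BB S).mkQ.comp (ev.codRestrict (AA S) hmem)
  have hι : ∀ u, ι u = Submodule.Quotient.mk ⟨ev u, hmem u⟩ := fun u => rfl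
  have hιker : ∀ u, ι u = 0 → u ∈ K₀ := by
    intro u hu
    rw [hι, Submodule.Quotient.mk_eq_zero] at hu
    exact h2 u hu
  have hιsurj : Surjective ι := by
    intro q
    obtain ⟨b, rfl⟩ := Submodule.Quotient.mk_surjective _ q
    obtain ⟨u, C, hu⟩ := h4 b.1 b.2
    refine ⟨u, ?_⟩
    rw [hι, Submodule.Quotient.eq, mem_BB]
    refine ⟨C, fun t => ?_⟩
    have h7 : ((⟨ev u, hmem u⟩ - b : AA S)).1 t = ev u t - b.1 t := rfl
    rw [h7, abs_sub_comm]
    exact hu t
  have hfd : FiniteDimensional ℝ (QQ S) := Module.Finite.of_surjective ι hιsurj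
  -- the representation of `G`
  let R₀ : G →* (QQ S →ₗ[ℝ] QQ S) := (Rep S).comp MulAut.conjNormal
  let d := Module.finrank ℝ (QQ S)
  let bs : Module.Basis (Fin d) ℝ (QQ S) := Module.finBasis ℝ (QQ S)
  let M : (QQ S →ₗ[ℝ] QQ S) →* Matrix (Fin d) (Fin d) ℝ :=
    (LinearMap.toMatrixAlgEquiv bs).toRingEquiv.toRingHom.toMonoidHom
  let R : G →* Matrix.GeneralLinearGroup (Fin d) ℝ := (M.comp R₀).toHomUnits
  have hR : ∀ g : G, R g = 1 → R₀ g = 1 := by
    intro g hg
    have h7 : M (R₀ g) = 1 := congrArg Units.val hg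
    have h8 : (LinearMap.toMatrixAlgEquiv bs) (R₀ g) = (LinearMap.toMatrixAlgEquiv bs) 1 := by
      rw [map_one]; exact h7
    exact (LinearMap.toMatrixAlgEquiv bs).injective h8
  by_cases hV : VSol R.range
  swap
  · exact Or.inr ⟨d, R, hV⟩
  left
  obtain ⟨H, hH, m, hm⟩ := ker_restrict R S (vsol_ker R hV)
  -- `R₀ s` on `ι u`
  have hequi : ∀ (s : S) (u : E), R₀ (s : G) (ι u) = ι (ρ s u) := by
    intro s u
    show Rep S (MulAut.conjNormal (s : G)) (ι u) = ι (ρ s u)
    rw [hι, Rep_mk, hι, Submodule.Quotient.eq, mem_BB]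
    obtain ⟨C, hC⟩ := h5 u s
    refine ⟨C, fun t => ?_⟩
    have h7 : (autAA (MulAut.conjNormal (s : G)) ⟨ev u, hmem u⟩ - ⟨ev (ρ s u), hmem (ρ s u)⟩ : AA S).1 t
        = ev u ((s⁻¹ * t) * s) - ev u (s⁻¹ * t) := by
      have h8 : (autAA (MulAut.conjNormal (s : G)) ⟨ev u, hmem u⟩ -
          ⟨ev (ρ s u), hmem (ρ s u)⟩ : AA S).1 t
          = ev u ((MulAut.conjNormal (s : G))⁻¹ t) - ev (ρ s u) t := rfl
      have h9 : (MulAut.conjNormal (s : G))⁻¹ t = s⁻¹ * t * s := by
        apply Subtype.ext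
        rw [MulAut.conjNormal_inv_apply]
        rfl
      rw [h8, hev, h9]
    rw [h7]
    exact hC _
  -- elements of `ker R` act unipotently
  have hunip : ∀ s : S, R (s : G) = 1 → ∀ u, ρ s u - u ∈ K₀ := by
    intro s hs u
    apply hιker
    rw [map_sub, ← hequi s u, hR _ hs]
    exact sub_self _
  have hcomm : ∀ s t : S, R (s : G) = 1 → R (t : G) = 1 → ρ s * ρ t = ρ t * ρ s := by
    intro s t hs ht
    apply LinearMap.ext
    intro u
    show ρ s (ρ t u) = ρ t (ρ s u)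
    have h7 : ρ s (ρ t u - u) = ρ t u - u := hK₀ s _ (hunip t ht u)
    have h8 : ρ t (ρ s u - u) = ρ s u - u := hK₀ t _ (hunip s hs u)
    rw [map_sub] at h7 h8
    have h9 : ρ s (ρ t u) = ρ t u - u + ρ s u := by rw [← h7]; abel
    have h10 : ρ t (ρ s u) = ρ s u - u + ρ t u := by rw [← h8]; abel
    rw [h9, h10]; abel
  -- the image of `H` in `GL(E)`
  let σ : H →* (E →ₗ[ℝ] E)ˣ := (ρ.comp H.subtype).toHomUnits
  have hσ : ∀ h : H, σ h = 1 ↔ ∀ u, ρ (h : S) u = u := by
    intro h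
    constructor
    · intro h7 u
      have h8 : ρ (h : S) = 1 := congrArg Units.val h7
      rw [h8]; rfl
    · intro h7
      apply Units.ext
      apply LinearMap.ext
      intro u
      exact h7 u
  have hder : ∀ h ∈ derivedSeries H (m + 1), σ h = 1 := by
    have h7 : derivedSeries H (m + 1) ≤ σ.ker := by
      rw [derivedSeries_succ, Subgroup.commutator_le]
      intro a ha b hb
      have ha' := hm a ha
      have hb' := hm b hb
      rw [MonoidHom.mem_ker, map_commutatorElement, commutatorElement_eq_one_iff_commute]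
      apply Units.ext
      exact hcomm (a : S) (b : S) ha' hb'
    intro h hh
    exact h7 hh
  have hsolv : Group.IsSolvable σ.range := by
    refine ⟨m + 1, ?_⟩
    rw [← map_derivedSeries_eq σ.rangeRestrict_surjective, eq_bot_iff]
    rintro _ ⟨h, hh, rfl⟩
    rw [Subgroup.mem_bot]
    apply Subtype.ext
    exact hder h hh
  have hHfg : Group.FG H := by
    have := hfg
    exact inferInstance
  have hfgr : Group.FG σ.range := Group.fg_of_surjective σ.rangeRestrict_surjective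
  have hinf : Infinite σ.range := by
    by_contra hcon
    rw [not_infinite_iff_finite] at hcon
    have hk : σ.ker.FiniteIndex := by
      have : Finite (H ⧸ σ.ker) := Finite.of_equiv _ (QuotientGroup.quotientKerEquivRange σ).symm.toEquiv
      exact Subgroup.finiteIndex_of_finite_quotient
    refine h6 (σ.ker.map H.subtype) ⟨?_⟩ ?_
    · rw [Subgroup.index_map_subtype]
      exact mul_ne_zero hk.index_ne_zero hH.index_ne_zero
    · rintro s hs u
      obtain ⟨h, hh, rfl⟩ := Subgroup.mem_map.1 hs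
      exact (hσ h).1 hh u
  exact VirtIndicable.of_sub H hH (VirtIndicable.of_surj σ.rangeRestrict σ.rangeRestrict_surjective
    (virtIndicable_of_solvable _ hfgr hinf hsolv))

end Vale.Agent.P284.H10.T
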