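import Vale.Agent.P272.K.QN.H327.Frame
import Mathlib.LinearAlgebra.Lagrange
import Mathlib.Algebra.Polynomial.Derivative

/-!
# P284, theorem K, row K4 (helper10): mixed discriminants by interpolation
-/

open scoped ComplexConjugate ComplexOrder
open Matrix Polynomial

noncomputable section

namespace Vale.Agent.P284.H10.K

/-! ### Coefficients by interpolation -/

theorem exists_coef (n : ℕ) : ∃ c : ℕ → Fin (n + 1) → ℝ, ∀ p : ℝ[X], p.natDegree ≤ n →
    ∀ k, p.coeff k = ∑ m, c k m * p.eval ((m : ℕ) : ℝ) := by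
  refine ⟨fun k m => (Lagrange.basis Finset.univ (fun m : Fin (n + 1) => ((m : ℕ) : ℝ)) m).coeff k,
    fun p hp k => ?_⟩
  have h1 : Set.InjOn (fun m : Fin (n + 1) => ((m : ℕ) : ℝ)) (Finset.univ : Finset (Fin (n + 1))) := by
    intro a _ b _ h
    exact Fin.ext (Nat.cast_injective h)
  have h2 : p.degree < (Finset.univ : Finset (Fin (n + 1))).card := by
    rw [Finset.card_univ, Fintype.card_fin]
    exact (Polynomial.degree_le_natDegree).trans_lt (by exact_mod_cast Nat.lt_succ_of_le hp)
  have h3 := Lagrange.eq_interpolate h1 h2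
  rw [Lagrange.interpolate_apply] at h3
  conv_lhs => rw [h3]
  rw [Polynomial.finsetSum_coeff]
  refine Finset.sum_congr rfl fun m _ => ?_
  rw [Polynomial.coeff_C_mul]
  ring

/-! ### The polynomials `∏ (1 + λ_j X)` -/

variable {n : ℕ}

/-- `∏ (1 + λ_j X)` -/
def pp (s : Finset (Fin n)) (η : Fin n → ℝ) : ℝ[X] := ∏ j ∈ s, (1 + C (η j) * X)

theorem pp_eval (s : Finset (Fin n)) (η : Fin n → ℝ) (t : ℝ) :
    (pp s η).eval t = ∏ j ∈ s, (1 + t * η j) := by
  unfold pp
  rw [Polynomial.eval_prod]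
  refine Finset.prod_congr rfl fun j _ => ?_
  rw [Polynomial.eval_add, Polynomial.eval_one, Polynomial.eval_mul, Polynomial.eval_C,
    Polynomial.eval_X, mul_comm]

theorem pp_coeff_nonneg (s : Finset (Fin n)) {η : Fin n → ℝ} (hη : ∀ j, 0 ≤ η j) (k : ℕ) :
    0 ≤ (pp s η).coeff k := by
  classical
  induction s using Finset.induction_on generalizing k with
  | empty =>
    unfold pp
    rw [Finset.prod_empty, Polynomial.coeff_one]
    split_ifs <;> norm_num
  | insert a s ha ih =>
    have h1 : pp (insert a s) η = pp s η + C (η a) * (X * pp s η) := by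
      unfold pp
      rw [Finset.prod_insert ha]; ring
    rw [h1, Polynomial.coeff_add, Polynomial.coeff_C_mul]
    refine add_nonneg (ih k) (mul_nonneg (hη a) ?_)
    cases k with
    | zero => simp
    | succ k => rw [Polynomial.coeff_X_mul]; exact ih k

theorem pp_natDegree (s : Finset (Fin n)) (η : Fin n → ℝ) : (pp s η).natDegree ≤ s.card := by
  unfold pp
  refine (Polynomial.natDegree_prod_le _ _).trans ?_
  rw [Finset.card_eq_sum_ones]
  refine Finset.sum_le_sum fun j _ => ?_
  refine (Polynomial.natDegree_add_le _ _).trans (max_le (by simp) ?_)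
  exact (Polynomial.natDegree_C_mul_le _ _).trans (by simp)

theorem pp_natDegree' (s : Finset (Fin n)) (η : Fin n → ℝ) : (pp s η).natDegree ≤ n :=
  (pp_natDegree s η).trans ((Finset.card_le_univ _).trans (by simp))

theorem pp_coeff_card (s : Finset (Fin n)) (η : Fin n → ℝ) :
    (pp s η).coeff s.card = ∏ j ∈ s, η j := by
  classical
  induction s using Finset.induction_on with
  | empty => simp [pp]
  | insert a s ha ih =>
    have h1 : pp (insert a s) η = pp s η + C (η a) * (X * pp s η) := by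
      unfold pp
      rw [Finset.prod_insert ha]; ring
    rw [h1, Finset.card_insert_of_notMem ha, Polynomial.coeff_add, Polynomial.coeff_C_mul,
      Polynomial.coeff_X_mul, ih, Finset.prod_insert ha,
      Polynomial.coeff_eq_zero_of_natDegree_lt (Nat.lt_succ_of_le (pp_natDegree s η)), zero_add]

theorem pp_erase_le {η : Fin n → ℝ} (hη : ∀ j, 0 ≤ η j) (i : Fin n) (k : ℕ) :
    (pp (Finset.univ.erase i) η).coeff k ≤ (pp Finset.univ η).coeff k := by
  have h1 : pp Finset.univ η = pp (Finset.univ.erase i) η +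
      C (η i) * (X * pp (Finset.univ.erase i) η) := by
    unfold pp
    rw [← Finset.mul_prod_erase Finset.univ _ (Finset.mem_univ i)]; ring
  rw [h1, Polynomial.coeff_add, Polynomial.coeff_C_mul]
  refine le_add_of_nonneg_right (mul_nonneg (hη i) ?_)
  cases k with
  | zero => simp
  | succ k => rw [Polynomial.coeff_X_mul]; exact pp_coeff_nonneg _ hη k

theorem pp_deriv (η : Fin n → ℝ) (k : ℕ) :
    ∑ i, η i * (pp (Finset.univ.erase i) η).coeff k = (k + 1) * (pp Finset.univ η).coeff (k + 1) := by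
  have h1 : (Polynomial.derivative (pp Finset.univ η)).coeff k =
      ∑ i, η i * (pp (Finset.univ.erase i) η).coeff k := by
    unfold pp
    rw [Polynomial.derivative_prod_finset, Polynomial.finsetSum_coeff]
    refine Finset.sum_congr rfl fun i _ => ?_
    have h2 : Polynomial.derivative (1 + C (η i) * X : ℝ[X]) = C (η i) := by simp
    rw [h2, Polynomial.coeff_mul_C]
    ring
  rw [← h1, Polynomial.coeff_derivative]
  ring

/-! ### Mixed discriminants -/

/-- the coefficient functional applied to `det (w + τ W)` -/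
def PD (c : ℕ → Fin (n + 1) → ℝ) (k : ℕ) (w W : Matrix (Fin n) (Fin n) ℂ) : ℝ :=
  ∑ m, c k m * (w + (((m : ℕ) : ℝ) : ℂ) • W).det.re

/-- the coefficient functional applied to `tr (adj (w + τ W) S)` -/
def TD (c : ℕ → Fin (n + 1) → ℝ) (k : ℕ) (w W S : Matrix (Fin n) (Fin n) ℂ) : ℝ :=
  ∑ m, c k m * ((w + (((m : ℕ) : ℝ) : ℂ) • W).adjugate * S).trace.re

theorem TD_add (c : ℕ → Fin (n + 1) → ℝ) (k : ℕ) (w W S S' : Matrix (Fin n) (Fin n) ℂ) :
    TD c k w W (S + S') = TD c k w W S + TD c k w W S' := by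
  unfold TD
  rw [← Finset.sum_add_distrib]
  refine Finset.sum_congr rfl fun m _ => ?_
  rw [Matrix.mul_add, Matrix.trace_add, Complex.add_re]
  ring

theorem TD_smul (c : ℕ → Fin (n + 1) → ℝ) (k : ℕ) (w W S : Matrix (Fin n) (Fin n) ℂ) (r : ℝ) :
    TD c k w W ((r : ℂ) • S) = r * TD c k w W S := by
  unfold TD
  rw [Finset.mul_sum]
  refine Finset.sum_congr rfl fun m _ => ?_
  rw [Matrix.mul_smul, Matrix.trace_smul, smul_eq_mul, Complex.re_ofReal_mul]
  ring

/-- the facts about mixed discriminants of positive definite matrices -/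
theorem mixed {c : ℕ → Fin (n + 1) → ℝ} (hc : ∀ p : ℝ[X], p.natDegree ≤ n →
    ∀ k, p.coeff k = ∑ m, c k m * p.eval ((m : ℕ) : ℝ)) {w W : Matrix (Fin n) (Fin n) ℂ}
    (hw : w.PosDef) (hW : W.PosSemidef) (k : ℕ) :
    0 ≤ PD c k w W ∧ (∀ S : Matrix (Fin n) (Fin n) ℂ, S.PosSemidef → 0 ≤ TD c k w W S) ∧
      TD c k w W w ≤ n * PD c k w W ∧ TD c k w W W = (k + 1) * PD c (k + 1) w W ∧
      PD c 0 w W = w.det.re ∧ PD c n w W = W.det.re := by
  classical
  obtain ⟨T, U, η, hη, hUT, hTU, hwT, hWT⟩ := Vale.Agent.P272.K.QN.H327.exists_frame hw hW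
  set δ : ℝ := Complex.normSq T.det with hδ
  have hδ0 : 0 ≤ δ := Complex.normSq_nonneg _
  have hsum : ∀ t : ℝ, w + (t : ℂ) • W =
      T * Matrix.diagonal (fun j => ((1 + t * η j : ℝ) : ℂ)) * Tᴴ := by
    intro t
    have h1 : Matrix.diagonal (fun j => ((1 + t * η j : ℝ) : ℂ)) =
        1 + (t : ℂ) • Matrix.diagonal (fun k => ((η k : ℝ) : ℂ)) := by
      ext i j
      by_cases h : i = j
      · subst h
        simp
      · simp [Matrix.diagonal_apply_ne _ h, Matrix.one_apply_ne h]
    rw [h1, Matrix.mul_add, Matrix.add_mul, Matrix.mul_one, ← hwT, Matrix.mul_smul,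
      Matrix.smul_mul, ← hWT]
  have hTT : T.det * (Tᴴ).det = ((δ : ℝ) : ℂ) := by
    rw [Matrix.det_conjTranspose, hδ, ← Complex.mul_conj]
    rfl
  have hdet : ∀ t : ℝ, (w + (t : ℂ) • W).det.re = δ * (pp Finset.univ η).eval t := by
    intro t
    rw [hsum, Matrix.det_mul, Matrix.det_mul, Matrix.det_diagonal, pp_eval]
    have h1 : T.det * (∏ j, ((1 + t * η j : ℝ) : ℂ)) * (Tᴴ).det =
        ((δ * ∏ j, (1 + t * η j) : ℝ) : ℂ) := by
      rw [mul_right_comm, hTT]
      push_cast
      ring
    rw [h1, Complex.ofReal_re]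
  have hPD : ∀ k, PD c k w W = δ * (pp Finset.univ η).coeff k := by
    intro k
    unfold PD
    rw [hc _ (pp_natDegree' _ _) k, Finset.mul_sum]
    refine Finset.sum_congr rfl fun m _ => ?_
    rw [hdet]
    ring
  set q : Matrix (Fin n) (Fin n) ℂ → Fin n → ℝ := fun S i =>
    ((T.adjugate * S * (T.adjugate)ᴴ) i i).re with hq
  have hTD : ∀ k S, TD c k w W S = ∑ i, q S i * (pp (Finset.univ.erase i) η).coeff k := by
    intro k S
    have h1 : ∀ t : ℝ, ((w + (t : ℂ) • W).adjugate * S).trace.re =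
        ∑ i, q S i * (pp (Finset.univ.erase i) η).eval t := by
      intro t
      rw [hsum, Matrix.adjugate_mul_distrib, Matrix.adjugate_mul_distrib, Matrix.adjugate_diagonal,
        ← Matrix.adjugate_conjTranspose]
      have h2 : (T.adjugateᴴ * (Matrix.diagonal (fun i => ∏ j ∈ Finset.univ.erase i,
          ((1 + t * η j : ℝ) : ℂ)) * T.adjugate) * S).trace =
          (Matrix.diagonal (fun i => ∏ j ∈ Finset.univ.erase i, ((1 + t * η j : ℝ) : ℂ)) *
            (T.adjugate * S * T.adjugateᴴ)).trace := by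
        rw [Matrix.mul_assoc, Matrix.trace_mul_comm]
        simp only [Matrix.mul_assoc]
      rw [h2, Matrix.trace, Complex.re_sum]
      refine Finset.sum_congr rfl fun i _ => ?_
      rw [Matrix.diag_apply, Matrix.diagonal_mul, pp_eval]
      have h3 : (∏ j ∈ Finset.univ.erase i, ((1 + t * η j : ℝ) : ℂ)) =
          ((∏ j ∈ Finset.univ.erase i, (1 + t * η j) : ℝ) : ℂ) := by push_cast; rfl
      rw [h3, Complex.re_ofReal_mul, mul_comm]
    unfold TD
    simp only [h1, Finset.mul_sum]
    rw [Finset.sum_comm]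
    refine Finset.sum_congr rfl fun i _ => ?_
    rw [hc _ (pp_natDegree' _ _) k, Finset.mul_sum]
    refine Finset.sum_congr rfl fun m _ => ?_
    ring
  have hadj : T.adjugate * T = T.det • (1 : Matrix (Fin n) (Fin n) ℂ) := Matrix.adjugate_mul T
  have hadjH : Tᴴ * T.adjugateᴴ = (starRingEnd ℂ T.det) • (1 : Matrix (Fin n) (Fin n) ℂ) := by
    rw [← Matrix.conjTranspose_mul, hadj, Matrix.conjTranspose_smul, Matrix.conjTranspose_one]
    rfl
  have hqw : ∀ i, q w i = δ := by
    intro i
    simp only [hq]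
    have h1 : T.adjugate * w * T.adjugateᴴ = ((δ : ℝ) : ℂ) • (1 : Matrix (Fin n) (Fin n) ℂ) := by
      rw [hwT]
      calc T.adjugate * (T * Tᴴ) * T.adjugateᴴ = (T.adjugate * T) * (Tᴴ * T.adjugateᴴ) := by
            simp only [Matrix.mul_assoc]
        _ = _ := by
            rw [hadj, hadjH, Matrix.smul_mul, Matrix.one_mul, smul_smul, Complex.mul_conj, hδ]
    rw [h1]
    simp
  have hqW : ∀ i, q W i = δ * η i := by
    intro i
    simp only [hq]
    have h1 : T.adjugate * W * T.adjugateᴴ =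
        ((δ : ℝ) : ℂ) • Matrix.diagonal (fun k => ((η k : ℝ) : ℂ)) := by
      rw [hWT]
      calc T.adjugate * (T * Matrix.diagonal (fun k => ((η k : ℝ) : ℂ)) * Tᴴ) * T.adjugateᴴ
          = (T.adjugate * T) * Matrix.diagonal (fun k => ((η k : ℝ) : ℂ)) *
              (Tᴴ * T.adjugateᴴ) := by
            simp only [Matrix.mul_assoc]
        _ = _ := by
            rw [hadj, hadjH, Matrix.smul_mul, Matrix.one_mul, Matrix.mul_smul, Matrix.mul_one,
              smul_smul, mul_comm, Complex.mul_conj, hδ]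
    rw [h1]
    simp
  refine ⟨?_, ?_, ?_, ?_, ?_, ?_⟩
  · rw [hPD]
    exact mul_nonneg hδ0 (pp_coeff_nonneg _ hη _)
  · intro S hS
    rw [hTD]
    refine Finset.sum_nonneg fun i _ => mul_nonneg ?_ (pp_coeff_nonneg _ hη _)
    have h1 := hS.mul_mul_conjTranspose_same T.adjugate
    have h2 := h1.diag_nonneg (i := i)
    exact (Complex.le_def.1 h2).1
  · rw [hTD, hPD]
    have h1 : ∀ i ∈ (Finset.univ : Finset (Fin n)), q w i * (pp (Finset.univ.erase i) η).coeff k ≤
        δ * (pp Finset.univ η).coeff k := by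
      intro i _
      rw [hqw]
      exact mul_le_mul_of_nonneg_left (pp_erase_le hη i k) hδ0
    refine (Finset.sum_le_sum h1).trans ?_
    rw [Finset.sum_const, Finset.card_univ, Fintype.card_fin, nsmul_eq_mul]
  · rw [hTD, hPD]
    have h1 : ∑ i, q W i * (pp (Finset.univ.erase i) η).coeff k =
        δ * ∑ i, η i * (pp (Finset.univ.erase i) η).coeff k := by
      rw [Finset.mul_sum]
      refine Finset.sum_congr rfl fun i _ => ?_
      rw [hqW]; ring
    rw [h1, pp_deriv]
    ring
  · rw [hPD]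
    have h1 := hdet 0
    rw [Complex.ofReal_zero, zero_smul, add_zero] at h1
    rw [h1, Polynomial.coeff_zero_eq_eval_zero]
  · rw [hPD]
    have h1 : (pp Finset.univ η).coeff n = ∏ j, η j := by
      have := pp_coeff_card Finset.univ η
      rwa [Finset.card_univ, Fintype.card_fin] at this
    have h2 : W.det = ((δ * ∏ j, η j : ℝ) : ℂ) := by
      rw [hWT, Matrix.det_mul, Matrix.det_mul, Matrix.det_diagonal, mul_right_comm, hTT]
      push_cast
      ring
    rw [h1, h2, Complex.ofReal_re]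

end Vale.Agent.P284.H10.K
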