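import Vale.Agent.P284.H409.K.Spec
import Mathlib.Analysis.Calculus.BumpFunction.FiniteDimension

/-!
# P284, theorem K, row KA (helper10): estimates with a constant independent of the finite quotient
-/

open scoped Manifold ContDiff Topology Pointwise ComplexConjugate ComplexOrder
open Filter Set Metric MeasureTheory

noncomputable section

namespace Vale.Agent.P284.H10.K

open Vale.Agent.P272.K Vale.Agent.P284.H248 Vale.Agent.P284.H894 Vale.Agent.P284.H894.G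
  Vale.Agent.P284.H894.V Vale.Agent.P284.H894.W Vale.Agent.P284.H913.V Vale.Agent.P284.H409.A
  Vale.Agent.P284.H409.K

variable {n : ℕ} {Γ : Type} [Group Γ]

theorem Int_congr' {C : Coc n Γ} (P : PU C) (K : KM C) {G H : Γ → C.I → Cm n → ℝ}
    (h : ∀ γ a, ∀ z ∈ C.V a, G γ a z = H γ a z) : V.Int P K G = V.Int P K H := by
  unfold V.Int
  refine tsum_congr fun γ => Finset.sum_congr rfl fun a _ => ?_
  refine setIntegral_congr_fun measurableSet_ball fun z hz => ?_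
  simp only [h γ a z hz]

/-- continuous functions on the pieces of a finite covering -/
theorem fam_of [Finite Γ] {C : Coc n Γ} {G : Γ → C.I → Cm n → ℝ}
    (hc : ∀ γ a, ContinuousOn (G γ a) (C.Ω a))
    (hcomp : ∀ γ a b, ∀ z ∈ C.O a b, G γ a z = G (γ * C.κ a b z) b (C.T a b z)) : Fam C G :=
  ⟨hc, hcomp, Set.toFinite _⟩

theorem SmF.contOn {C : Coc n Γ} {φ : Γ → C.I → Cm n → ℝ} (h : SmF C φ) (γ : Γ) (a : C.I) :
    ContinuousOn (φ γ a) (C.Ω a) := fun z hz => (h.smooth γ a z hz).continuousAt.continuousWithinAt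

/-- the estimates on a finite covering -/
theorem ka_core (hK2 : K2Stmt) (hK3 : K3Stmt) (hV3 : V3Stmt) (hV4 : V4Stmt) [Finite Γ]
    (C : Coc n Γ) (P : PU C) (K : KM C) (a₀ : C.I) (z₀ : Cm n) (ρ : ℝ) (hρ : 0 < ρ)
    (hball : ball z₀ (4 * ρ) ⊆ C.V a₀) (B₄ B₅ : ℝ) (hB₄ : 1 ≤ B₄)
    (hCLN : ∀ A : ℝ, 1 ≤ A → ∀ φ : Cm n → ℝ,
      (∀ z ∈ ball z₀ (4 * ρ), ContDiffAt ℝ ∞ φ z) → (∀ z ∈ ball z₀ (4 * ρ), -A ≤ φ z ∧ φ z ≤ 0) →
      (∀ z ∈ ball z₀ (4 * ρ), (K.w a₀ z + cHess φ z).PosDef) →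
      ∫ z in ball z₀ (7 / 2 * ρ), (K.w a₀ z + cHess φ z).det.re ≤ B₄ * A ^ n)
    (hJ : ∀ φ : Cm n → ℝ,
      (∀ z ∈ ball z₀ (4 * ρ), ContDiffAt ℝ ∞ φ z) → (∀ z ∈ ball z₀ (4 * ρ), φ z ≤ 0) →
      (∀ z ∈ ball z₀ (4 * ρ), (K.w a₀ z + cHess φ z).PosDef) →
      ∀ M : ℝ, 0 < M → ∫ z in ball z₀ (2 * ρ), Real.exp (φ z) * vol (K.w a₀) z ≤ M →
      ∀ z ∈ ball z₀ ρ, φ z ≤ Real.log M + B₅)
    (B : ℝ) (hB : B = 1 + B₄ / ((1 - Real.exp (-1)) * K.lam * (volume (ball z₀ ρ)).toReal) + n +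
      |Real.log B₄ + B₅|) :
    ∃ F, SmF C F ∧ ∀ A : ℝ, 1 ≤ A → ∀ φ, MAF C K (fun γ a z => A * F γ a z) φ →
      (∀ γ a, ∀ z ∈ C.Ω a, φ γ a z ≤ 0) ∧
      (Set.ncard {γ : Γ | ∀ z ∈ ball z₀ ρ, φ γ a₀ z ≤ -1} : ℝ) ≤ B * A ^ n ∧
      ∀ z ∈ ball z₀ ρ, φ 1 a₀ z ≤ -A + B * (1 + Real.log A) := by
  classical
  have hVΩ : ∀ a, C.V a ⊆ C.Ω a := fun a => Vale.Agent.P284.H913.V.V_sub C a
  have h24 : ball z₀ (2 * ρ) ⊆ ball z₀ (4 * ρ) := ball_subset_ball (by linarith)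
  -- the bump function
  let bf : ContDiffBump z₀ := ⟨2 * ρ, 3 * ρ, by positivity, by linarith⟩
  have hbt : tsupport (bf : Cm n → ℝ) = closedBall z₀ (3 * ρ) := bf.tsupport_eq
  have h3V : closedBall z₀ (3 * ρ) ⊆ C.V a₀ :=
    (closedBall_subset_ball (by linarith)).trans hball
  have hTU : TU (C.V a₀) (bf : Cm n → ℝ) :=
    { smooth := bf.contDiff
      compact := by
        rw [HasCompactSupport, hbt]
        exact isCompact_closedBall _ _
      supp := by rw [hbt]; exact h3V }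
  -- constants
  set v₀ : ℝ := (volume (ball z₀ ρ)).toReal with hv₀
  have hv₀p : 0 < v₀ := ENNReal.toReal_pos (measure_ball_pos volume _ hρ).ne' measure_ball_lt_top.ne
  set κ : ℝ := (1 - Real.exp (-1)) * K.lam * v₀ with hκ
  have he1 : 0 < 1 - Real.exp (-1) := by
    have : Real.exp (-1) < Real.exp 0 := Real.exp_lt_exp.2 (by norm_num)
    rw [Real.exp_zero] at this
    linarith
  have hκp : 0 < κ := mul_pos (mul_pos he1 K.lam_pos) hv₀p
  have hB₄0 : 0 < B₄ := lt_of_lt_of_le one_pos hB₄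
  have hq0 : 0 ≤ B₄ / κ := by positivity
  have hB1 : 1 ≤ B := by
    rw [hB]
    have := abs_nonneg (Real.log B₄ + B₅)
    have h2 : (0 : ℝ) ≤ n := Nat.cast_nonneg n
    linarith
  obtain ⟨f, hf1, hf2, hf3, hf4⟩ := hV4 n Γ C 1 a₀ (bf : Cm n → ℝ) hTU
  have hFS : SmF C f := ⟨hf1.smooth, hf1.compat⟩
  have hF01 : ∀ γ a, ∀ z ∈ C.Ω a, 0 ≤ f γ a z ∧ f γ a z ≤ 1 := by
    intro γ a z hz
    by_cases h0 : f γ a z = 0
    · rw [h0]; exact ⟨le_rfl, zero_le_one⟩
    · obtain ⟨h1, h2, h3⟩ := hf2 γ a z h0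
      have h4 := hf1.compat γ a a₀ z h1
      rw [h2, hf3 _ (C.O_sub _ _ (C.T_mem a a₀ z h1))] at h4
      rw [h4]
      exact ⟨bf.nonneg, bf.le_one⟩
  refine ⟨f, hFS, fun A hA φ hφ => ?_⟩
  have hA0 : 0 < A := lt_of_lt_of_le one_pos hA
  have hmax := hK2 n Γ C K (fun γ a z => A * f γ a z) φ hφ A (by
    intro γ a z hz
    obtain ⟨h1, h2⟩ := hF01 γ a z hz
    exact ⟨mul_nonneg hA0.le h1, by nlinarith⟩)
  have hneg : ∀ γ a, ∀ z ∈ C.Ω a, φ γ a z ≤ 0 := fun γ a z hz => (hmax γ a z hz).2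
  have hge : ∀ γ a, ∀ z ∈ C.Ω a, -A ≤ φ γ a z := fun γ a z hz => (hmax γ a z hz).1
  -- the equation
  have hdet : ∀ γ a, ∀ z ∈ C.Ω a, (K.w a z + cHess (φ γ a) z).det.re =
      Real.exp (φ γ a z + A * f γ a z) * vol (K.w a) z := by
    intro γ a z hz
    have h1 := hφ.eq γ a z hz
    have h2 : 0 < (K.w a z + cHess (φ γ a) z).det.re :=
      (Complex.lt_def.1 (hφ.pos γ a z hz).det_pos).1
    have h3 : 0 < (K.w a z).det.re := (Complex.lt_def.1 ((K.ku a).pos z hz).det_pos).1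
    have h4 : Real.log (K.w a z + cHess (φ γ a) z).det.re =
        φ γ a z + A * f γ a z + Real.log (K.w a z).det.re := by
      have h5 : Real.log (K.w a z + cHess (φ γ a) z).det.re - Real.log (K.w a z).det.re =
        φ γ a z + A * f γ a z := h1
      linarith
    rw [← Real.exp_log h2, h4, Real.exp_add, Real.exp_log h3]
    rfl
  have hvolp : ∀ a, ∀ z ∈ C.Ω a, 0 < vol (K.w a) z := fun a z hz =>
    (Complex.lt_def.1 ((K.ku a).pos z hz).det_pos).1
  -- families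
  have hφS : SmF C φ := hφ.toSmF
  have hφc := SmF.contOn hφS
  have hfc := SmF.contOn hFS
  have fE : Fam C (fun γ a z => Real.exp (φ γ a z + A * f γ a z)) := by
    refine fam_of (fun γ a => ?_) (fun γ a b z hz => ?_)
    · exact Real.continuous_exp.comp_continuousOn ((hφc γ a).add ((hfc γ a).const_mul _))
    · rw [hφS.compat γ a b z hz, hFS.compat γ a b z hz]
  have fe : Fam C (fun γ a z => Real.exp (φ γ a z)) := by
    refine fam_of (fun γ a => ?_) (fun γ a b z hz => ?_)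
    · exact Real.continuous_exp.comp_continuousOn (hφc γ a)
    · rw [hφS.compat γ a b z hz]
  have f1 : Fam C (fun _ _ _ => (1 : ℝ)) :=
    fam_of (fun γ a => continuousOn_const) (fun γ a b z hz => rfl)
  have fD : Fam C (fun γ a z => Real.exp (φ γ a z + A * f γ a z) - Real.exp (φ γ a z)) := by
    refine fam_of (fun γ a => (fE.cont γ a).sub (fe.cont γ a)) (fun γ a b z hz => ?_)
    rw [hφS.compat γ a b z hz, hFS.compat γ a b z hz]
  have f1e : Fam C (fun γ a z => 1 - Real.exp (φ γ a z)) := by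
    refine fam_of (fun γ a => (f1.cont γ a).sub (fe.cont γ a)) (fun γ a b z hz => ?_)
    rw [hφS.compat γ a b z hz]
  -- the mass
  have hmass : V.Int P K (fun γ a z => Real.exp (φ γ a z + A * f γ a z)) =
      V.Int P K (fun _ _ _ => 1) := by
    rw [← hK3 n Γ C P K φ hφS]
    refine Int_congr' _ _ fun γ a z hz => ?_
    have hz' : z ∈ C.Ω a := hVΩ a hz
    have h1 := hdet γ a z hz'
    have h2 := hvolp a z hz'
    show _ = (K.w a z + cHess (φ γ a) z).det.re / vol (K.w a) z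
    rw [h1, mul_div_cancel_right₀ _ h2.ne']
  have e1 : V.Int P K (fun γ a z => Real.exp (φ γ a z + A * f γ a z) -
      Real.exp (φ γ a z)) = V.Int P K (fun γ a z => 1 - Real.exp (φ γ a z)) := by
    have h1 := hV3.lin C P K _ _ 1 (-1) fE fe
    have h2 := hV3.lin C P K _ _ 1 (-1) f1 fe
    have h3 : V.Int P K (fun γ a z => Real.exp (φ γ a z + A * f γ a z) -
        Real.exp (φ γ a z)) = V.Int P K (fun γ a z =>
        1 * Real.exp (φ γ a z + A * f γ a z) + -1 * Real.exp (φ γ a z)) :=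
      Int_congr' _ _ fun γ a z _ => by ring
    have h4 : V.Int P K (fun γ a z => 1 - Real.exp (φ γ a z)) =
        V.Int P K (fun γ a z => 1 * 1 + -1 * Real.exp (φ γ a z)) :=
      Int_congr' _ _ fun γ a z _ => by ring
    rw [h3, h4, h1, h2, hmass]
  -- upper bound
  have hi4 : IntegrableOn (fun z => (K.w a₀ z + cHess (φ 1 a₀) z).det.re)
      (ball z₀ (7 / 2 * ρ)) := by
    have hc : ContinuousOn (fun z => Real.exp (φ 1 a₀ z + A * f 1 a₀ z) * vol (K.w a₀) z)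
        (C.Ω a₀) := (fE.cont 1 a₀).mul (Vale.Agent.P284.H913.V.vol_cont K a₀)
    have h1 : IntegrableOn (fun z => Real.exp (φ 1 a₀ z + A * f 1 a₀ z) * vol (K.w a₀) z)
        (C.V a₀) := Vale.Agent.P284.H913.V.intV hc
    have h2 : ball z₀ (7 / 2 * ρ) ⊆ C.V a₀ := (ball_subset_ball (by linarith)).trans hball
    refine (h1.mono_set h2).congr_fun (fun z hz => ?_) measurableSet_ball
    exact (hdet 1 a₀ z (hVΩ a₀ (h2 hz))).symm
  have h7V : ball z₀ (7 / 2 * ρ) ⊆ C.V a₀ := (ball_subset_ball (by linarith)).trans hball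
  have hcln : ∫ z in ball z₀ (7 / 2 * ρ), (K.w a₀ z + cHess (φ 1 a₀) z).det.re ≤ B₄ * A ^ n := by
    refine hCLN A hA (φ 1 a₀) (fun z hz => hφS.smooth 1 a₀ z (hVΩ a₀ (hball hz))) (fun z hz => ?_)
      (fun z hz => hφ.pos 1 a₀ z (hVΩ a₀ (hball hz)))
    exact hmax 1 a₀ z (hVΩ a₀ (hball hz))
  have hup : V.Int P K (fun γ a z => Real.exp (φ γ a z + A * f γ a z) -
      Real.exp (φ γ a z)) ≤ B₄ * A ^ n := by
    have h1 := hV3.piece C P K _ a₀ (closedBall z₀ (3 * ρ)) fD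
      (isCompact_closedBall _ _) h3V (by
        intro γ a z hz hne
        have hf0 : f γ a z ≠ 0 := by
          intro h0
          apply hne
          simp only [h0, mul_zero, add_zero, sub_self]
        obtain ⟨h1, h2, h3⟩ := hf2 γ a z hf0
        rw [hbt] at h3
        exact ⟨h1, h3⟩)
    rw [h1, tsum_eq_single (1 : Γ)]
    · have h2 : ∫ z in C.V a₀, (Real.exp (φ 1 a₀ z + A * f 1 a₀ z) - Real.exp (φ 1 a₀ z)) *
          vol (K.w a₀) z = ∫ z in ball z₀ (7 / 2 * ρ), (Real.exp (φ 1 a₀ z + A * f 1 a₀ z) -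
          Real.exp (φ 1 a₀ z)) * vol (K.w a₀) z := by
        refine setIntegral_eq_of_subset_of_forall_sdiff_eq_zero measurableSet_ball h7V ?_
        rintro z ⟨hz1, hz2⟩
        have h3 : f 1 a₀ z = 0 := by
          rw [hf3 z (hVΩ a₀ hz1)]
          by_contra hne
          have h4 : z ∈ tsupport (bf : Cm n → ℝ) := subset_tsupport _ hne
          rw [hbt] at h4
          exact hz2 (closedBall_subset_ball (by linarith) h4)
        rw [h3, mul_zero, add_zero, sub_self, zero_mul]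
      show ∫ z in C.V a₀, (Real.exp (φ 1 a₀ z + A * f 1 a₀ z) - Real.exp (φ 1 a₀ z)) *
          vol (K.w a₀) z ≤ _
      rw [h2]
      refine le_trans ?_ hcln
      have hiD : IntegrableOn (fun z => (Real.exp (φ 1 a₀ z + A * f 1 a₀ z) -
          Real.exp (φ 1 a₀ z)) * vol (K.w a₀) z) (ball z₀ (7 / 2 * ρ)) :=
        (Vale.Agent.P284.H913.V.intV ((fD.cont 1 a₀).mul
          (Vale.Agent.P284.H913.V.vol_cont K a₀))).mono_set h7V
      refine setIntegral_mono_on hiD hi4 measurableSet_ball fun z hz => ?_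
      have hz' := hVΩ a₀ (h7V hz)
      rw [hdet 1 a₀ z hz']
      refine mul_le_mul_of_nonneg_right ?_ (hvolp a₀ z hz').le
      have := Real.exp_pos (φ 1 a₀ z)
      linarith
    · intro γ hγ
      have h2 : ∀ z ∈ C.V a₀, (Real.exp (φ γ a₀ z + A * f γ a₀ z) - Real.exp (φ γ a₀ z)) *
          vol (K.w a₀) z = 0 := by
        intro z hz
        rw [hf4 γ hγ z (hVΩ a₀ hz), mul_zero, add_zero, sub_self, zero_mul]
      show ∫ z in C.V a₀, (Real.exp (φ γ a₀ z + A * f γ a₀ z) - Real.exp (φ γ a₀ z)) *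
          vol (K.w a₀) z = 0
      exact setIntegral_eq_zero_of_forall_eq_zero h2
  have hpn : ∀ γ a, ∀ z ∈ C.Ω a, 0 ≤ 1 - Real.exp (φ γ a z) := by
    intro γ a z hz
    have := Real.exp_le_one_iff.2 (hneg γ a z hz)
    linarith
  have hlow := hV3.le C P K _ f1e hpn a₀
  rw [← e1] at hlow
  have hlow2 := hlow.trans hup
  refine ⟨hneg, ?_, ?_⟩
  · -- counting
    set S₁ : Set (Γ) := {γ | ∀ z ∈ ball z₀ ρ, φ γ a₀ z ≤ -1} with hS₁
    have hS₁f : S₁.Finite := Set.toFinite _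
    have h1V : ball z₀ ρ ⊆ C.V a₀ := (ball_subset_ball (by linarith)).trans hball
    have hterm0 : ∀ γ : Γ, 0 ≤ ∫ z in C.V a₀, (1 - Real.exp (φ γ a₀ z)) * vol (K.w a₀) z :=
      fun γ => setIntegral_nonneg measurableSet_ball fun z hz =>
        mul_nonneg (hpn γ a₀ z (hVΩ a₀ hz)) (hvolp a₀ z (hVΩ a₀ hz)).le
    have hiT : ∀ γ : Γ, IntegrableOn (fun z => (1 - Real.exp (φ γ a₀ z)) * vol (K.w a₀) z)
        (C.V a₀) := fun γ => Vale.Agent.P284.H913.V.intV ((f1e.cont γ a₀).mul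
          (Vale.Agent.P284.H913.V.vol_cont K a₀))
    have hterm : ∀ γ ∈ S₁, κ ≤ ∫ z in C.V a₀, (1 - Real.exp (φ γ a₀ z)) * vol (K.w a₀) z := by
      intro γ hγ
      have h1 : ∫ z in ball z₀ ρ, (1 - Real.exp (-1)) * K.lam ≤
          ∫ z in ball z₀ ρ, (1 - Real.exp (φ γ a₀ z)) * vol (K.w a₀) z := by
        refine setIntegral_mono_on (integrableOn_const measure_ball_lt_top.ne)
          ((hiT γ).mono_set h1V) measurableSet_ball fun z hz => ?_
        have h2 : Real.exp (φ γ a₀ z) ≤ Real.exp (-1) := Real.exp_le_exp.2 (hγ z hz)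
        have h3 := K.vol_low a₀ z (hVΩ a₀ (h1V hz))
        exact mul_le_mul (by linarith) h3 K.lam_pos.le (by linarith)
      rw [setIntegral_const, measureReal_def, smul_eq_mul] at h1
      have h2 : ∫ z in ball z₀ ρ, (1 - Real.exp (φ γ a₀ z)) * vol (K.w a₀) z ≤
          ∫ z in C.V a₀, (1 - Real.exp (φ γ a₀ z)) * vol (K.w a₀) z := by
        refine setIntegral_mono_set (hiT γ) ?_ (LE.le.eventuallyLE h1V)
        refine (ae_restrict_iff' measurableSet_ball).2 (Eventually.of_forall fun z hz => ?_)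
        exact mul_nonneg (hpn γ a₀ z (hVΩ a₀ hz)) (hvolp a₀ z (hVΩ a₀ hz)).le
      have h3 : κ = v₀ * ((1 - Real.exp (-1)) * K.lam) := by rw [hκ]; ring
      rw [h3]
      exact h1.trans h2
    have : Fintype (Γ) := Fintype.ofFinite _
    have h4 : ∑' γ : Γ, ∫ z in C.V a₀, (1 - Real.exp (φ γ a₀ z)) * vol (K.w a₀) z ≤
        B₄ * A ^ n := hlow2
    rw [tsum_fintype] at h4
    have h5 : (hS₁f.toFinset.card : ℝ) * κ ≤
        ∑ γ : Γ, ∫ z in C.V a₀, (1 - Real.exp (φ γ a₀ z)) * vol (K.w a₀) z := by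
      calc (hS₁f.toFinset.card : ℝ) * κ = ∑ _γ ∈ hS₁f.toFinset, κ := by
            rw [Finset.sum_const, nsmul_eq_mul]
        _ ≤ ∑ γ ∈ hS₁f.toFinset, ∫ z in C.V a₀, (1 - Real.exp (φ γ a₀ z)) * vol (K.w a₀) z :=
            Finset.sum_le_sum fun γ hγ => hterm γ (hS₁f.mem_toFinset.1 hγ)
        _ ≤ _ := Finset.sum_le_sum_of_subset_of_nonneg (Finset.subset_univ _)
            fun γ _ _ => hterm0 γ
    rw [Set.ncard_eq_toFinset_card S₁ hS₁f]
    have h6 : (hS₁f.toFinset.card : ℝ) ≤ B₄ / κ * A ^ n := by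
      rw [div_mul_eq_mul_div, le_div_iff₀ hκp]
      exact h5.trans h4
    refine h6.trans (mul_le_mul_of_nonneg_right ?_ (by positivity))
    have := abs_nonneg (Real.log B₄ + B₅)
    have h2 : (0 : ℝ) ≤ n := Nat.cast_nonneg n
    linarith
  · -- Jensen
    intro z hz
    have h2V : ball z₀ (2 * ρ) ⊆ C.V a₀ := h24.trans hball
    have hM : 0 < Real.exp (-A) * (B₄ * A ^ n) := by positivity
    have h1 : ∫ z in ball z₀ (2 * ρ), Real.exp (φ 1 a₀ z) * vol (K.w a₀) z ≤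
        Real.exp (-A) * (B₄ * A ^ n) := by
      have h2 : ∫ z in ball z₀ (2 * ρ), Real.exp (φ 1 a₀ z) * vol (K.w a₀) z =
          Real.exp (-A) * ∫ z in ball z₀ (2 * ρ), (K.w a₀ z + cHess (φ 1 a₀) z).det.re := by
        rw [← integral_const_mul]
        refine setIntegral_congr_fun measurableSet_ball fun y hy => ?_
        have hy' := hVΩ a₀ (h2V hy)
        have h3 : f 1 a₀ y = 1 := by
          rw [hf3 y hy']
          exact bf.one_of_mem_closedBall (ball_subset_closedBall hy)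
        show Real.exp (φ 1 a₀ y) * vol (K.w a₀) y =
          Real.exp (-A) * (K.w a₀ y + cHess (φ 1 a₀) y).det.re
        rw [hdet 1 a₀ y hy', h3, mul_one, ← mul_assoc, ← Real.exp_add]
        congr 2
        ring
      rw [h2]
      refine mul_le_mul_of_nonneg_left (le_trans ?_ hcln) (Real.exp_pos _).le
      refine setIntegral_mono_set hi4 ?_
        (LE.le.eventuallyLE (ball_subset_ball (by linarith)))
      refine (ae_restrict_iff' measurableSet_ball).2 (Eventually.of_forall fun y hy => ?_)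
      exact (Complex.lt_def.1 (hφ.pos 1 a₀ y (hVΩ a₀ (h7V hy))).det_pos).1.le
    have h2 := hJ (φ 1 a₀) (fun y hy => hφS.smooth 1 a₀ y (hVΩ a₀ (hball hy)))
      (fun y hy => hneg 1 a₀ y (hVΩ a₀ (hball hy))) (fun y hy => hφ.pos 1 a₀ y (hVΩ a₀ (hball hy)))
      _ hM h1 z hz
    refine h2.trans ?_
    rw [Real.log_mul (Real.exp_pos _).ne' (by positivity), Real.log_exp,
      Real.log_mul hB₄0.ne' (by positivity), Real.log_pow]
    have hlA : 0 ≤ Real.log A := Real.log_nonneg hA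
    have h3 := le_abs_self (Real.log B₄ + B₅)
    have h4 : (0 : ℝ) ≤ n := Nat.cast_nonneg n
    have h5 : 0 ≤ (1 + B₄ / κ + |Real.log B₄ + B₅|) * Real.log A := by positivity
    nlinarith

/-- **KA** -/
theorem kAStmt : KAStmt := by
  intro hK2 hK3 hK4 hK5 hV3 hV4 n Γ _ C P K a₀ z₀ ρ hρ hball
  have hVΩ : ∀ a, C.V a ⊆ C.Ω a := fun a => Vale.Agent.P284.H913.V.V_sub C a
  have hku4 : KU (ball z₀ (4 * ρ)) (K.w a₀) :=
    { isOpen := isOpen_ball
      smooth := fun z hz => (K.ku a₀).smooth z (hVΩ a₀ (hball hz))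
      pos := fun z hz => (K.ku a₀).pos z (hVΩ a₀ (hball hz))
      closed := fun z hz => (K.ku a₀).closed z (hVΩ a₀ (hball hz)) }
  obtain ⟨B₄, hB₄, hCLN⟩ := hK4 n z₀ (7 / 2 * ρ) (4 * ρ) (by positivity) (by linarith) (K.w a₀) hku4
  obtain ⟨B₅, hJ⟩ := hK5 n z₀ ρ (2 * ρ) (4 * ρ) hρ (by linarith) (by linarith) (K.w a₀) hku4
  have hv₀p : 0 < (volume (ball z₀ ρ)).toReal :=
    ENNReal.toReal_pos (measure_ball_pos volume _ hρ).ne' measure_ball_lt_top.ne
  have he1 : 0 < 1 - Real.exp (-1) := by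
    have : Real.exp (-1) < Real.exp 0 := Real.exp_lt_exp.2 (by norm_num)
    rw [Real.exp_zero] at this
    linarith
  have hB₄0 : 0 < B₄ := lt_of_lt_of_le one_pos hB₄
  refine ⟨1 + B₄ / ((1 - Real.exp (-1)) * K.lam * (volume (ball z₀ ρ)).toReal) + n +
    |Real.log B₄ + B₅|, ?_, fun N _ hN => ?_⟩
  · have h1 : 0 ≤ B₄ / ((1 - Real.exp (-1)) * K.lam * (volume (ball z₀ ρ)).toReal) :=
      div_nonneg hB₄0.le (mul_pos (mul_pos he1 K.lam_pos) hv₀p).le
    have h2 := abs_nonneg (Real.log B₄ + B₅)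
    have h3 : (0 : ℝ) ≤ n := Nat.cast_nonneg n
    linarith
  · have hfinG : Finite (Γ ⧸ N) := Subgroup.finite_quotient_of_finiteIndex
    exact ka_core hK2 hK3 hV3 hV4 (qC C N) (qP P N) (qK K N) a₀ z₀ ρ hρ hball B₄ B₅ hB₄ hCLN hJ _ rfl

end Vale.Agent.P284.H10.K
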