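import Vale.Agent.P284.H10.Uni
import Vale.Agent.P284.H409.Grp
import Vale.Agent.P284.H66.S7bLoc
import Mathlib.Analysis.RCLike.Extend

/-!
# P284 (helper10), theorem A, row AU: the pluriharmonic function with periods `log |χ|`
-/

open scoped Manifold ContDiff Topology ComplexConjugate ENNReal
open Filter Set Metric MeasureTheory

noncomputable section

namespace Vale.Agent.P284.H10

open Vale.Agent.P272.K Vale.Agent.P284.H894 Vale.Agent.P284.H894.W Vale.Agent.P284.H894.G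
  Vale.Agent.P284.H894.V

/-- real parts of holomorphic functions are pluriharmonic -/
theorem cHess_re {n : ℕ} {H : Cm n → ℂ} {z : Cm n} (h : Vale.Agent.P284.H66.S7.Hol H z) :
    cHess (fun y => (H y).re) z = 0 := by
  ext j k
  rw [cHess_apply]
  have h1 : dzb k (fun y => (((H y).re : ℝ) : ℂ)) =ᶠ[𝓝 z] fun y => (1 / 2 : ℂ) * cj (dz k H y) := by
    filter_upwards [h.ev] with y hy
    have hd : DifferentiableAt ℝ H y := hy.diff
    have hc : DifferentiableAt ℝ (fun y => cj (H y)) y := hy.diff_conj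
    have h2 : (fun y => (((H y).re : ℝ) : ℂ)) = fun y => (1 / 2 : ℂ) * (H y + cj (H y)) := by
      funext y
      rw [show cj (H y) = (starRingEnd ℂ) (H y) from rfl, Complex.add_conj]
      push_cast
      ring
    rw [h2, dzb_const_mul (f := fun y => H y + cj (H y)) _ (hd.add hc), dzb_add hd hc, hy.dzb0,
      dzb_cj hd, zero_add]
  have h2 : DifferentiableAt ℝ (fun y => cj (dz k H y)) z := (h.dz k).diff_conj
  rw [dz_congr h1, dz_const_mul _ h2]
  have h3 : dz j (fun y => cj (dz k H y)) z = 0 := (h.dz k).dz_conj0 j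
  rw [h3, mul_zero]
  rfl

section
variable {n : ℕ} {X : Type} [TopologicalSpace X] [ChartedSpace (Cm n) X] {E : Type}
  [TopologicalSpace E] {p : E → X}
  {w : Chart n X → Cm n → Matrix (Fin n) (Fin n) ℂ} {N : ℕ} {F : E → Cm N}

theorem phb_of_holB {B : ℝ} (hF : HolB p w F B) (lam : Cm N →ₗ[ℝ] ℝ) :
    ∃ B, IsPHB p w (fun y => lam (F y)) B := by
  set l : Cm N →L[ℝ] ℝ := LinearMap.toContinuousLinearMap lam with hl
  refine ⟨‖l‖ ^ 2 * B, fun y e he => ?_⟩
  obtain ⟨f, hf1, hf2, hf3⟩ := hF y e he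
  refine ⟨fun z => lam (f z), hf1.mono fun y' hy' => by simp only [hy'], ?_, fun v => ?_⟩
  · filter_upwards [hf2.eventually_nhds] with z hz
    set Λ : Cm N →ₗ[ℂ] ℂ := Module.Dual.extendRCLike (𝕜 := ℂ) lam with hΛ
    have hre : ∀ v, (Λ v).re = lam v := fun v => Module.Dual.re_extendRCLike_apply (𝕜 := ℂ) lam v
    set Λc : Cm N →L[ℂ] ℂ := LinearMap.toContinuousLinearMap Λ with hΛc
    have h1 : Vale.Agent.P284.H66.S7.Hol (fun z => Λc (f z)) z := by
      show ∀ᶠ y in 𝓝 z, _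
      filter_upwards [hz] with x hx
      exact Λc.differentiableAt.comp x hx
    have h2 : (fun z => lam (f z)) = fun z => (Λc (f z)).re := by
      funext z
      exact (hre _).symm
    rw [h2]
    exact ⟨Complex.reCLM.contDiff.contDiffAt.comp z h1.smooth, cHess_re h1⟩
  · have h1 : DifferentiableAt ℂ f (e (p y)) := hf2.self_of_nhds
    have h2 : HasFDerivAt (fun z => lam (f z))
        (l.comp ((fderiv ℂ f (e (p y))).restrictScalars ℝ)) (e (p y)) :=
      l.hasFDerivAt.comp (e (p y)) (h1.hasFDerivAt.restrictScalars ℝ)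
    rw [h2.fderiv]
    have h3 : ‖l (fderiv ℂ f (e (p y)) v)‖ ≤ ‖l‖ * ‖fderiv ℂ f (e (p y)) v‖ := l.le_opNorm _
    calc (l.comp ((fderiv ℂ f (e (p y))).restrictScalars ℝ)) v ^ 2 =
          ‖l (fderiv ℂ f (e (p y)) v)‖ ^ 2 := by
          rw [Real.norm_eq_abs, sq_abs]; rfl
      _ ≤ (‖l‖ * ‖fderiv ℂ f (e (p y)) v‖) ^ 2 := by gcongr
      _ = ‖l‖ ^ 2 * ‖fderiv ℂ f (e (p y)) v‖ ^ 2 := by ring
      _ ≤ ‖l‖ ^ 2 * (B * (∑ j, ∑ k, w e (e (p y)) j k * v j * conj (v k)).re) := by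
          gcongr
          exact hf3 v
      _ = _ := by ring

end

theorem psiStmt : PsiStmt := by
  intro n X _ _ _ w hw E Γ _ _ _ _ p hp G K N F c hA G₁ hfi hle χ hne hmul
  obtain ⟨B, hB⟩ := hA.hol
  have hadd := alb_add hA
  have hlog : ∀ g ∈ G₁, ∀ h ∈ G₁, Real.log ‖χ (g * h)‖ = Real.log ‖χ g‖ + Real.log ‖χ h‖ := by
    intro g hg h hh
    rw [hmul g hg h hh, norm_mul, Real.log_mul (norm_ne_zero_iff.2 (hne g hg))
      (norm_ne_zero_iff.2 (hne h hh))]
  have hmax := hA.max G₁ hfi hle (fun g => Real.log ‖χ g‖) hlog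
  have hs : Submodule.span ℝ (Set.range fun g : G₁ => c g) = ⊤ := by
    rw [eq_top_iff, ← hA.span, Submodule.span_le]
    rintro _ ⟨g, hg, rfl⟩
    obtain ⟨m, hm0, -, hm⟩ := Subgroup.exists_pow_mem_of_index_ne_zero hfi.index_ne_zero g
    have h1 : ∀ m : ℕ, c (g ^ m) = (m : ℝ) • c g := by
      intro m
      induction m with
      | zero =>
        have h2 := hadd 1 G.one_mem 1 G.one_mem
        rw [mul_one] at h2
        simpa using h2
      | succ m ih =>
        rw [pow_succ', hadd g hg (g ^ m) (G.pow_mem hg m), ih]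
        push_cast
        rw [add_smul, one_smul, add_comm]
    have h2 : (m : ℝ) • c g ∈ Submodule.span ℝ (Set.range fun g : G₁ => c g) := by
      rw [← h1]
      exact Submodule.subset_span ⟨⟨g ^ m, hm⟩, rfl⟩
    have hm' : (m : ℝ) ≠ 0 := by exact_mod_cast hm0.ne'
    have h3 := Submodule.smul_mem _ (m : ℝ)⁻¹ h2
    rwa [smul_smul, inv_mul_cancel₀ hm', one_smul] at h3
  obtain ⟨lam, hlam⟩ := Vale.Agent.P284.H409.exists_lin (N := N) (G := G₁) (fun g => c g)
    (fun g h => hadd g (hle g.2) h (hle h.2))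
    (fun R => (hA.disc R).subset fun v hv => ⟨by
      obtain ⟨⟨g, hg⟩, -⟩ := hv
      exact ⟨g, hle g.2, hg⟩, hv.2⟩) hs
    (W := ℝ) (fun g => Real.log ‖χ g‖) (fun g h => hlog g g.2 h h.2) (fun g hg => hmax g g.2 hg)
  obtain ⟨B', hB'⟩ := phb_of_holB hB lam
  exact ⟨lam, fun g hg => hlam ⟨g, hg⟩, B', hB'⟩

end Vale.Agent.P284.H10
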