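import Vale.Agent.P284.H10.S4k
import Vale.Agent.P284.H5.V16
import Vale.Agent.P284.H894.W.Fib

/-!
# P284 (helper10), WS3: the rank lemma from the algebraic dependence
-/

open scoped Manifold ContDiff Topology
open Filter Set Metric

noncomputable section

namespace Vale.Agent.P284.H10

open Vale.Agent.P272.K Vale.Agent.P284.H894.W Vale.Agent.P284.H894.G Vale.Agent.P284.H894.V

/-- translates of an additive monoid spanning `ℂᴺ` over `ℝ` are Zariski dense -/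
theorem zdense {N : ℕ} {q : MvPolynomial (Fin N) ℂ} {Λ : Set (Cm N)}
    (h0 : (0 : Cm N) ∈ Λ) (hadd : ∀ a ∈ Λ, ∀ b ∈ Λ, a + b ∈ Λ) (hspan : Submodule.span ℝ Λ = ⊤)
    {v₀ : Cm N} (hv : ∀ μ ∈ Λ, MvPolynomial.eval (v₀ + μ) q = 0) : q = 0 := by
  set Z : Set (Cm N) := {x | ∀ μ ∈ Λ, MvPolynomial.eval (x + μ) q = 0} with hZ
  have hline : ∀ l ∈ Λ, ∀ t : ℝ, ∀ x ∈ Z, x + t • l ∈ Z := by
    intro l hl t x hx μ hμ
    let f : Fin N → Polynomial ℂ := fun i =>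
      Polynomial.C (x i + μ i) + Polynomial.X * Polynomial.C (l i)
    have hf : ∀ s : ℂ, (MvPolynomial.aeval f q).eval s =
        MvPolynomial.eval (fun i => x i + μ i + s * l i) q := by
      intro s
      rw [Vale.Agent.P284.H913.eval_aeval_poly]
      congr 2
      funext i
      simp [f]
      ring
    have hm : ∀ m : ℕ, m • l ∈ Λ := by
      intro m
      induction m with
      | zero => simpa using h0
      | succ m ih => rw [succ_nsmul]; exact hadd _ ih _ hl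
    have hz : MvPolynomial.aeval f q = 0 := by
      refine Polynomial.eq_zero_of_infinite_isRoot _ ?_
      refine Set.infinite_of_injective_forall_mem (f := fun m : ℕ => (m : ℂ)) Nat.cast_injective ?_
      intro m
      show (MvPolynomial.aeval f q).eval (m : ℂ) = 0
      rw [hf, ← hx (μ + m • l) (hadd _ hμ _ (hm m))]
      congr 2
      funext i
      simp [add_assoc]
    have h1 := hf t
    rw [hz, Polynomial.eval_zero] at h1
    rw [h1]
    congr 2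
    funext i
    simp
    ring
  have hall : ∀ v : Cm N, ∀ t : ℝ, ∀ x ∈ Z, x + t • v ∈ Z := by
    intro v
    have hv : v ∈ Submodule.span ℝ Λ := by rw [hspan]; trivial
    induction hv using Submodule.span_induction with
    | mem l hl => exact hline l hl
    | zero => intro t x hx; simpa using hx
    | add a b _ _ ha hb =>
      intro t x hx
      rw [smul_add, ← add_assoc]
      exact hb t _ (ha t x hx)
    | smul a v _ ih =>
      intro t x hx
      rw [smul_smul]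
      exact ih _ x hx
  refine MvPolynomial.funext fun v => ?_
  have h1 := hall (v - v₀) 1 v₀ hv 0 h0
  rw [map_zero, ← h1]
  congr 2
  simp

section
variable {n : ℕ} {X : Type} [TopologicalSpace X] [ChartedSpace (Cm n) X] {E : Type}
  [TopologicalSpace E] {p : E → X}
  {w : Chart n X → Cm n → Matrix (Fin n) (Fin n) ℂ} {N : ℕ} {F : E → Cm N}

/-- identity theorem on the covering space for `q ∘ F` -/
theorem eval_zero_of_eventually [ConnectedSpace E] {B : ℝ} (hp : IsCoveringMap p)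
    (hF : HolB p w F B) {q : MvPolynomial (Fin N) ℂ} {y₀ : E}
    (h : ∀ᶠ y in 𝓝 y₀, MvPolynomial.eval (F y) q = 0) (y : E) :
    MvPolynomial.eval (F y) q = 0 := by
  set S : Set E := {y | ∀ᶠ y' in 𝓝 y, MvPolynomial.eval (F y') q = 0} with hS
  have hopen : IsOpen S := isOpen_setOfPred_eventually_nhds
  have hclosed : IsClosed S := by
    rw [← closure_subset_iff_isClosed]
    intro y hy
    obtain ⟨e, ε, hε, hyε, -, hc⟩ := exists_ch (n := n) hp y univ_mem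
    obtain ⟨y₁, hy₁, hS₁⟩ := mem_closure_iff_nhds.1 hy _ (ε.open_source.mem_nhds hyε)
    set g : Cm n → ℂ := fun z => MvPolynomial.eval ((F ∘ ε.symm) z) q with hg
    have hgd : DifferentiableOn ℂ g ε.target := by
      intro z hz
      have h1 : DifferentiableAt ℂ (fun v : Cm N => MvPolynomial.eval v q) ((F ∘ ε.symm) z) :=
        (AnalyticOnNhd.eval_mvPolynomial (𝕜 := ℂ) q _ (mem_univ _)).differentiableAt
      exact h1.comp_differentiableWithinAt z (hε.diff hF z hz)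
    have ha : AnalyticOnNhd ℂ g ε.target :=
      Vale.Agent.P268.analyticOnNhd_of_differentiableOn ε.open_target hgd
    have h2 : ∀ᶠ z in 𝓝 (ε y₁), g z = 0 := by
      have h3 : Tendsto ε.symm (𝓝 (ε y₁)) (𝓝 y₁) := by
        have := ε.continuousAt_symm (ε.map_source hy₁)
        unfold ContinuousAt at this
        rwa [ε.left_inv hy₁] at this
      exact h3.eventually hS₁
    have h3 := ha.eqOn_of_preconnected_of_eventuallyEq analyticOnNhd_const
      hc.isPreconnected (ε.map_source hy₁) h2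
    show ∀ᶠ y' in 𝓝 y, MvPolynomial.eval (F y') q = 0
    filter_upwards [ε.open_source.mem_nhds hyε] with y' hy'
    have h4 := h3 (ε.map_source hy')
    simp only [hg, Function.comp_apply, ε.left_inv hy'] at h4
    exact h4
  have h1 := IsClopen.eq_univ ⟨hclosed, hopen⟩ ⟨y₀, h⟩
  have h2 : y ∈ S := h1 ▸ mem_univ y
  exact h2.self_of_nhds

variable [IsManifold 𝓘(ℂ, Cm n) ω X]

/-- `Φl` is open near a point where `dΦ` is injective -/
theorem lift_map_nhds (hp : IsCoveringMap p) {Φ : Cm n → X}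
    (hΦ : ContMDiff 𝓘(ℂ, Cm n) 𝓘(ℂ, Cm n) ω Φ) {Φl : Cm n → E} (hΦl : Continuous Φl)
    (hpΦ : ∀ ζ, p (Φl ζ) = Φ ζ) {ζ : Cm n}
    (hinj : Function.Injective (mfderiv 𝓘(ℂ, Cm n) 𝓘(ℂ, Cm n) Φ ζ)) {P : E → Prop}
    (h : ∀ᶠ ζ' in 𝓝 ζ, P (Φl ζ')) : ∀ᶠ y in 𝓝 (Φl ζ), P y := by
  obtain ⟨f, hf1, hf2⟩ := hp.isLocalHomeomorph (Φl ζ)
  set e := chartAt (Cm n) (Φ ζ) with he
  set ε := f.trans e with hε
  have h1 : Φl ζ ∈ ε.source := by
    rw [hε, OpenPartialHomeomorph.trans_source]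
    refine ⟨hf1, ?_⟩
    show f (Φl ζ) ∈ e.source
    rw [← hf2, hpΦ]
    exact mem_chart_source _ _
  have h2 : ∀ y, ε y = e (p y) := fun y => by rw [hf2]; rfl
  have h3 : map (fun ξ => e (Φ ξ)) (𝓝 ζ) = 𝓝 (e (Φ ζ)) := Vale.Agent.P284.H5.V.map_nhds_tau hΦ hinj
  have h4 : ∀ᶠ z in 𝓝 (e (Φ ζ)), P (ε.symm z) := by
    rw [← h3, eventually_map]
    filter_upwards [h, hΦl.continuousAt (ε.open_source.mem_nhds h1)] with ζ' h5 h6
    have h7 : e (Φ ζ') = ε (Φl ζ') := by rw [h2, hpΦ]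
    rw [h7, ε.left_inv h6]
    exact h5
  have h5 : e (Φ ζ) = ε (Φl ζ) := by rw [h2, hpΦ]
  rw [h5] at h4
  filter_upwards [(ε.continuousAt h1).eventually h4, ε.open_source.mem_nhds h1] with y h6 h7
  rwa [ε.left_inv h7] at h6

/-- the rank lemma -/
theorem rank_of_dep [ConnectedSpace E] {Γ : Type} [Group Γ] [MulAction Γ E] {G K : Subgroup Γ}
    {c : Γ → Cm N} (hp : IsGalois Γ p) (hA : Alb p w G K F c) {Φ : Cm n → X}
    (hΦ : ContMDiff 𝓘(ℂ, Cm n) 𝓘(ℂ, Cm n) ω Φ)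
    (hnd : ∃ ζ, Function.Injective (mfderiv 𝓘(ℂ, Cm n) 𝓘(ℂ, Cm n) Φ ζ))
    {Φl : Cm n → E} (hΦl : Continuous Φl) (hpΦ : ∀ ζ, p (Φl ζ) = Φ ζ)
    (hd : Differentiable ℂ fun ζ => F (Φl ζ))
    (hdep : (∀ ζ, ¬ Function.Surjective (fderiv ℂ (fun ζ => F (Φl ζ)) ζ)) →
      ∃ q : MvPolynomial (Fin N) ℂ, q ≠ 0 ∧ ∀ ζ, MvPolynomial.eval (F (Φl ζ)) q = 0) :
    ∃ ζ, Reg (n := n) p F (Φl ζ) ∧ Function.Injective (mfderiv 𝓘(ℂ, Cm n) 𝓘(ℂ, Cm n) Φ ζ) ∧
      Function.Surjective (fderiv ℂ (fun ζ => F (Φl ζ)) ζ) := by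
  obtain ⟨B, hB⟩ := hA.hol
  obtain ⟨ζ₀, hζ₀⟩ := hnd
  have hex : ∃ ζ, Function.Surjective (fderiv ℂ (fun ζ => F (Φl ζ)) ζ) := by
    by_contra hcon
    push Not at hcon
    obtain ⟨q, hq0, hq⟩ := hdep hcon
    have h1 := lift_map_nhds hp.cov hΦ hΦl hpΦ hζ₀
      (P := fun y => MvPolynomial.eval (F y) q = 0) (Eventually.of_forall hq)
    have h2 := eval_zero_of_eventually hp.cov hB h1
    apply hq0
    have hne : Nonempty E := ⟨Φl ζ₀⟩
    have hadd := alb_add hA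
    refine zdense (Λ := c '' (G : Set Γ)) ⟨1, G.one_mem, ?_⟩ ?_ hA.span (v₀ := F (Φl ζ₀)) ?_
    · have h3 := hadd 1 G.one_mem 1 G.one_mem
      rw [mul_one] at h3
      simpa using h3
    · rintro _ ⟨g, hg, rfl⟩ _ ⟨h, hh, rfl⟩
      exact ⟨g * h, G.mul_mem hg hh, hadd g hg h hh⟩
    · rintro _ ⟨g, hg, rfl⟩
      rw [← hA.equiv g hg]
      exact h2 _
  obtain ⟨O, hO1, hO2, hO3⟩ := _root_.eventually_nhds_iff.1 (inj_ev hΦ hζ₀)
  obtain ⟨ζ, hζO, hζ⟩ : ∃ ζ ∈ O, Function.Surjective (fderiv ℂ (fun ζ => F (Φl ζ)) ζ) := by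
    rcases Nat.eq_zero_or_pos N with rfl | hN
    · exact ⟨ζ₀, hO3, Function.surjective_to_subsingleton _⟩
    · have h1 := degen_cov hN isOpen_univ convex_univ hd.differentiableOn (by simpa using hex)
      obtain ⟨ζ₁, hζ₁⟩ := hex
      have h2 := N_le_n hζ₁
      obtain ⟨ζ, hζ1, hζ2⟩ := nonempty_diff (h1.mono inter_subset_left) (by simp; omega) hO2
        ⟨ζ₀, hO3⟩
      refine ⟨ζ, hζ1, ?_⟩
      by_contra h3
      exact hζ2 ⟨mem_univ _, h3⟩
  exact ⟨ζ, reg_of_map hp.cov hB hΦ hΦl hpΦ hζ, hO1 ζ hζO, hζ⟩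

end

/-- `RankStmt2` from the two remaining pieces -/
theorem rankStmt2_of
    (hpoly : ∀ (n : ℕ) (X : Type) [TopologicalSpace X] [ChartedSpace (Cm n) X]
      [IsManifold 𝓘(ℂ, Cm n) ω X] (w : Chart n X → Cm n → Matrix (Fin n) (Fin n) ℂ),
      IsKahler w → ∀ Φ : Cm n → X, FiniteOrder w Φ → ∀ (E : Type) [TopologicalSpace E] (p : E → X),
      IsCoveringMap p → ∀ (N : ℕ) (F : E → Cm N) (B : ℝ), HolB p w F B →
      ∀ Φl : Cm n → E, Continuous Φl → (∀ ζ, p (Φl ζ) = Φ ζ) →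
      ∃ P : Fin N → MvPolynomial (Fin n) ℂ, ∀ ζ i, F (Φl ζ) i = MvPolynomial.eval ζ (P i))
    (hdep : ∀ (n N : ℕ) (P : Fin N → MvPolynomial (Fin n) ℂ),
      (∀ ζ : Cm n, ¬ Function.Surjective
        (fderiv ℂ (fun ζ : Cm n => fun i => MvPolynomial.eval ζ (P i)) ζ)) →
      ∃ q : MvPolynomial (Fin N) ℂ, q ≠ 0 ∧
        ∀ ζ, MvPolynomial.eval (fun i => MvPolynomial.eval ζ (P i)) q = 0) : RankStmt2 := by
  intro n X _ _ _ _ _ _ w hw Φ hΦ E Γ _ _ _ _ p hp G K N F c hA Φl hΦl hpΦ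
  obtain ⟨B, hB⟩ := hA.hol
  obtain ⟨P, hP⟩ := hpoly n X w hw Φ hΦ E p hp.cov N F B hB Φl hΦl hpΦ
  have hfun : (fun ζ => F (Φl ζ)) = fun ζ i => MvPolynomial.eval ζ (P i) := by
    funext ζ i
    exact hP ζ i
  refine ⟨P, hP, rank_of_dep hp hA hΦ.holo hΦ.nondeg hΦl hpΦ ?_ ?_⟩
  · rw [hfun]
    intro ζ
    rw [differentiableAt_pi]
    intro i
    exact (AnalyticOnNhd.eval_mvPolynomial (𝕜 := ℂ) (P i) ζ (mem_univ _)).differentiableAt
  · intro h
    rw [hfun] at h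
    obtain ⟨q, h1, h2⟩ := hdep n N P h
    refine ⟨q, h1, fun ζ => ?_⟩
    rw [← h2 ζ]
    congr 2
    funext i
    exact hP ζ i

end Vale.Agent.P284.H10
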