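import Vale.Agent.P284.H10.S4k
import Vale.Agent.P284.H35.S4b

/-!
# P284 (helper10), block S4 of theorem W: the generic fibres have finitely many components
-/

namespace Vale.Agent.P284.H10

open Vale.Agent.P284.H894.W

theorem s4Stmt2 : S4Stmt2 := s4cStmt s4aStmt Vale.Agent.P284.H35.S4.s4bStmt

theorem s4Stmt : S4Stmt := by
  intro n X _ _ _ _ _ _ w hw Φ hΦ
  exact s4Stmt2 n X w hw Φ hΦ.holo

end Vale.Agent.P284.H10
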