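import Vale.Agent.P268.Hol

/-!
# P284 (helper10), S4: the critical values of a holomorphic map `F : E → W` are covered by countably many
holomorphic images of sets of smaller dimension
-/

open Set Filter Topology Module
open scoped ContDiff

namespace Vale.Agent.P284.H10

/-- `S` is covered by countably many differentiable images of subsets of `ℂᵏ` -/
def Cov (k : ℕ) {W : Type} [NormedAddCommGroup W] [NormedSpace ℂ W] (S : Set W) : Prop :=
  ∃ (G : ℕ → (Fin k → ℂ) → W) (T : ℕ → Set (Fin k → ℂ)),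
    (∀ i, ∀ x ∈ T i, DifferentiableAt ℂ (G i) x) ∧ S ⊆ ⋃ i, G i '' T i

section
variable {k : ℕ} {W : Type} [NormedAddCommGroup W] [NormedSpace ℂ W]

theorem Cov.mono {S S' : Set W} (h : Cov k S') (hS : S ⊆ S') : Cov k S := by
  obtain ⟨G, T, h1, h2⟩ := h
  exact ⟨G, T, h1, hS.trans h2⟩

theorem Cov.iUnion_nat {S : ℕ → Set W} (h : ∀ i, Cov k (S i)) : Cov k (⋃ i, S i) := by
  choose G T h1 h2 using h
  refine ⟨fun m => G m.unpair.1 m.unpair.2, fun m => T m.unpair.1 m.unpair.2,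
    fun m x hx => h1 _ _ x hx, ?_⟩
  refine iUnion_subset fun i x hx => ?_
  obtain ⟨j, hj⟩ := mem_iUnion.1 (h2 i hx)
  refine mem_iUnion.2 ⟨Nat.pair i j, ?_⟩
  simpa using hj

theorem Cov.empty : Cov k (∅ : Set W) :=
  ⟨fun _ _ => 0, fun _ => ∅, fun _ _ h => h.elim, empty_subset _⟩

theorem Cov.biUnion {X : Type} {t : Set X} (ht : t.Countable) {S : X → Set W}
    (h : ∀ x ∈ t, Cov k (S x)) : Cov k (⋃ x ∈ t, S x) := by
  rcases t.eq_empty_or_nonempty with rfl | hne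
  · simpa using Cov.empty
  · obtain ⟨f, hf⟩ := ht.exists_eq_range hne
    have h1 : (⋃ x ∈ t, S x) = ⋃ i, S (f i) := by
      rw [hf, biUnion_range]
    rw [h1]
    exact Cov.iUnion_nat fun i => h _ (hf ▸ mem_range_self i)

theorem Cov.iUnion {ι : Type} [Countable ι] {S : ι → Set W} (h : ∀ i, Cov k (S i)) :
    Cov k (⋃ i, S i) := by
  have h1 := Cov.biUnion (t := (univ : Set ι)) countable_univ (S := S) fun i _ => h i
  simpa using h1

theorem Cov.union {S S' : Set W} (h : Cov k S) (h' : Cov k S') : Cov k (S ∪ S') := by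
  rw [union_eq_iUnion]
  exact Cov.iUnion (by rintro (_ | _) <;> simpa)

theorem exists_surj {P : Type} [NormedAddCommGroup P] [NormedSpace ℂ P] [FiniteDimensional ℂ P]
    (hP : finrank ℂ P ≤ k) : ∃ L : (Fin k → ℂ) →L[ℂ] P, Function.Surjective L := by
  let a : P ≃L[ℂ] (Fin (finrank ℂ P) → ℂ) := ContinuousLinearEquiv.ofFinrankEq (by simp)
  let p : (Fin k → ℂ) →ₗ[ℂ] (Fin (finrank ℂ P) → ℂ) := LinearMap.funLeft ℂ ℂ (Fin.castLE hP)
  have hp : Function.Surjective p :=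
    LinearMap.funLeft_surjective_of_injective _ _ _ (Fin.castLE_injective hP)
  exact ⟨(a.symm : (Fin (finrank ℂ P) → ℂ) →L[ℂ] P) ∘L (LinearMap.toContinuousLinearMap p),
    a.symm.surjective.comp hp⟩

theorem Cov.of_image {P : Type} [NormedAddCommGroup P] [NormedSpace ℂ P] [FiniteDimensional ℂ P]
    (hP : finrank ℂ P ≤ k) {g : P → W} {T : Set P} (hg : ∀ x ∈ T, DifferentiableAt ℂ g x) :
    Cov k (g '' T) := by
  obtain ⟨L, hL⟩ := exists_surj (k := k) hP
  refine ⟨fun _ => g ∘ L, fun _ => L ⁻¹' T, fun _ x hx => ?_, ?_⟩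
  · exact (hg _ hx).comp x L.differentiableAt
  · rintro _ ⟨s, hs, rfl⟩
    obtain ⟨y, rfl⟩ := hL s
    exact mem_iUnion.2 ⟨0, y, hs, rfl⟩

theorem Cov.le {k' : ℕ} (hk : k ≤ k') {S : Set W} (h : Cov k S) : Cov k' S := by
  obtain ⟨G, T, h1, h2⟩ := h
  refine (Cov.iUnion fun i : ℕ => ?_).mono h2
  exact Cov.of_image (by simpa using hk) (h1 i)

theorem Cov.locally {X : Type} [TopologicalSpace X] [SecondCountableTopology X] {f : X → W}
    {S : Set X} (h : ∀ x ∈ S, ∃ V ∈ 𝓝 x, Cov k (f '' (S ∩ V))) : Cov k (f '' S) := by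
  choose! V hV hc using h
  obtain ⟨t, ht, htc, hcov⟩ := TopologicalSpace.countable_cover_nhdsWithin
    (s := S) (f := V) (fun x hx => mem_nhdsWithin_of_mem_nhds (hV x hx))
  have h1 : f '' S ⊆ ⋃ x ∈ t, f '' (S ∩ V x) := by
    rintro _ ⟨y, hy, rfl⟩
    obtain ⟨x, hx, hyx⟩ := mem_iUnion₂.1 (hcov hy)
    exact mem_iUnion₂.2 ⟨x, hx, mem_image_of_mem f ⟨hy, hyx⟩⟩
  exact (Cov.biUnion htc fun x hx => hc x (ht hx)).mono h1

/-- image of a `Cov` set under a map which is differentiable on it -/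
theorem Cov.image {W' : Type} [NormedAddCommGroup W'] [NormedSpace ℂ W'] {S : Set W}
    (h : Cov k S) {g : W → W'} (hg : ∀ x ∈ S, DifferentiableAt ℂ g x) : Cov k (g '' S) := by
  obtain ⟨G, T, h1, h2⟩ := h
  refine ⟨fun i => g ∘ G i, fun i => {x ∈ T i | G i x ∈ S}, fun i x hx => ?_, ?_⟩
  · exact (hg _ hx.2).comp x (h1 i x hx.1)
  · rintro _ ⟨s, hs, rfl⟩
    obtain ⟨i, x, hx, rfl⟩ := mem_iUnion.1 (h2 hs)
    exact mem_iUnion.2 ⟨i, x, ⟨hx, hs⟩, rfl⟩

end

end Vale.Agent.P284.H10
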