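import Vale.Agent.P284.H10.S4a

/-!
# P284 (helper10), S4: hypersurfaces `g = 0`, `dg ≠ 0`, and the strata of a holomorphic map
-/

open Set Filter Topology Module
open scoped ContDiff

namespace Vale.Agent.P284.H10

theorem hyp_param {n : ℕ} {E : Type} [NormedAddCommGroup E] [NormedSpace ℂ E]
    [FiniteDimensional ℂ E] (hE : finrank ℂ E = n + 1) {g : E → ℂ} {x : E}
    (hg : ContDiffAt ℂ ω g x) (hg0 : fderiv ℂ g x ≠ 0) (hgx : g x = 0) {U : Set E} (hU : U ∈ 𝓝 x) :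
    ∃ (K : Submodule ℂ E) (γ : K → E) (W : Set K), finrank ℂ K = n ∧ IsOpen W ∧
      (∀ s ∈ W, ContDiffAt ℂ ω γ s) ∧ (∀ s ∈ W, γ s ∈ U) ∧
      ∀ᶠ y in 𝓝 x, g y = 0 → ∃ s ∈ W, γ s = y := by
  have hgd : HasStrictFDerivAt g (fderiv ℂ g x) x := hg.hasStrictFDerivAt (by simp)
  have hrange : (fderiv ℂ g x).range = ⊤ :=
    LinearMap.range_eq_top.2 (LinearMap.surjective (f := (fderiv ℂ g x : E →ₗ[ℂ] ℂ))
      (fun hcon => hg0 (ContinuousLinearMap.coe_injective hcon)))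
  have hker : (fderiv ℂ g x).ker.ClosedComplemented :=
    Submodule.ClosedComplemented.of_finiteDimensional _
  set Φ := HasStrictFDerivAt.implicitFunctionDataOfComplemented g (fderiv ℂ g x) hgd hrange hker
    with hΦ
  set P := Classical.choose hker with hP
  have hfin : Module.finrank ℂ (fderiv ℂ g x).ker = n := by
    have h1 := LinearMap.finrank_range_add_finrank_ker (fderiv ℂ g x : E →ₗ[ℂ] ℂ)
    have h2 : (fderiv ℂ g x : E →ₗ[ℂ] ℂ).range = ⊤ := hrange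
    rw [h2, finrank_top, Module.finrank_self, hE] at h1
    have h3 : Module.finrank ℂ (fderiv ℂ g x : E →ₗ[ℂ] ℂ).ker = n := by omega
    exact h3
  have hγc : ContDiffAt ℂ ω Φ.implicitFunction.uncurry (Φ.prodFun Φ.pt) := by
    refine ImplicitFunctionData.contDiffAt_implicitFunction (φ := Φ) hg ?_ (by simp)
    have h1 : ContDiff ℂ ω fun y : E => P (y - x) :=
      P.contDiff.comp (contDiff_id.sub contDiff_const)
    exact h1.contDiffAt
  have hpt : Φ.prodFun Φ.pt = (0, 0) := by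
    change (g x, P (x - x)) = (0, 0)
    rw [hgx, sub_self, map_zero]
  rw [hpt] at hγc
  set γ : (fderiv ℂ g x).ker → E := fun s => Φ.implicitFunction 0 s with hγ
  have hγd : ContDiffAt ℂ ω γ 0 :=
    hγc.comp (0 : (fderiv ℂ g x).ker) (contDiffAt_const.prodMk contDiffAt_id)
  have hγ0 : γ 0 = x := by
    have h1 := Φ.implicitFunction_apply_image.self_of_nhds
    have h2 : Φ.implicitFunction (g x) (P (x - x)) = x := h1
    rw [hgx, sub_self, map_zero] at h2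
    exact h2
  have hev1 : ∀ᶠ s in 𝓝 (0 : (fderiv ℂ g x).ker), ContDiffAt ℂ ω γ s :=
    hγd.eventually (by simp)
  have hev2 : ∀ᶠ s in 𝓝 (0 : (fderiv ℂ g x).ker), γ s ∈ U := by
    apply hγd.continuousAt
    rw [hγ0]
    exact hU
  obtain ⟨W, hW, hWo, h0W⟩ := eventually_nhds_iff.1 (hev1.and hev2)
  have hback : ∀ᶠ y in 𝓝 x, Φ.implicitFunction (g y) (P (y - x)) = y :=
    Φ.implicitFunction_apply_image
  have hPc : ∀ᶠ y in 𝓝 x, P (y - x) ∈ W := by
    have h1 : ContinuousAt (fun y => P (y - x)) x := by fun_prop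
    have h2 : W ∈ 𝓝 (P (x - x)) := by
      rw [sub_self, map_zero]
      exact hWo.mem_nhds h0W
    exact h1 h2
  refine ⟨(fderiv ℂ g x).ker, γ, W, hfin, hWo, fun s hs => (hW s hs).1, fun s hs => (hW s hs).2, ?_⟩
  filter_upwards [hback, hPc] with y h1 h2 h3
  rw [h3] at h1
  exact ⟨_, h2, h1⟩

/-- the strata: `D^l h = 0` and `D^{l+1} h ≠ 0` in the directions of `ι` -/
theorem strat {n : ℕ} {E K W : Type} [NormedAddCommGroup E] [NormedSpace ℂ E]
    [FiniteDimensional ℂ E] [NormedAddCommGroup K] [NormedSpace ℂ K]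
    [NormedAddCommGroup W] [NormedSpace ℂ W] (hE : finrank ℂ E = n + 1) (ι : K →L[ℂ] E) {h : E → W}
    {x : E} (hh : ContDiffAt ℂ ω h x) {l : ℕ} (h0 : ∀ m : Fin l → K,
      iteratedFDeriv ℂ l h x (fun i => ι (m i)) = 0) {m : Fin (l + 1) → K}
    (h1 : iteratedFDeriv ℂ (l + 1) h x (fun i => ι (m i)) ≠ 0) {U : Set E} (hU : U ∈ 𝓝 x) :
    ∃ (K' : Submodule ℂ E) (γ : K' → E) (V : Set K'), finrank ℂ K' = n ∧ IsOpen V ∧
      (∀ s ∈ V, ContDiffAt ℂ ω γ s) ∧ (∀ s ∈ V, γ s ∈ U) ∧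
      ∀ᶠ y in 𝓝 x, (∀ m : Fin l → K, iteratedFDeriv ℂ l h y (fun i => ι (m i)) = 0) →
        ∃ s ∈ V, γ s = y := by
  obtain ⟨φ, hφ⟩ : ∃ φ : W →L[ℂ] ℂ, φ (iteratedFDeriv ℂ (l + 1) h x (fun i => ι (m i))) ≠ 0 :=
    SeparatingDual.exists_ne_zero h1
  set ev : (E [×l]→L[ℂ] W) →L[ℂ] ℂ :=
    φ.comp (ContinuousMultilinearMap.apply ℂ (fun _ : Fin l => E) W
      (fun i => ι (Fin.tail m i))) with hev
  set g : E → ℂ := fun y => ev (iteratedFDeriv ℂ l h y) with hg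
  have hgc : ContDiffAt ℂ ω g x :=
    ev.contDiff.contDiffAt.comp x (hh.iteratedFDeriv_right le_top)
  have hg0 : fderiv ℂ g x ≠ 0 := by
    intro h2
    apply hφ
    rw [iteratedFDeriv_succ_apply_left]
    have h3 : DifferentiableAt ℂ (iteratedFDeriv ℂ l h) x :=
      (hh.iteratedFDeriv_right (m := 1) le_top).differentiableAt one_ne_zero
    have h4 : fderiv ℂ g x = ev.comp (fderiv ℂ (iteratedFDeriv ℂ l h) x) :=
      (ev.hasFDerivAt.comp x h3.hasFDerivAt).fderiv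
    have h5 : (fderiv ℂ g x) (ι (m 0)) = 0 := by rw [h2]; rfl
    rw [h4] at h5
    exact h5
  have hgx : g x = 0 := by
    have := h0 (Fin.tail m)
    simp only [hg, hev, ContinuousLinearMap.comp_apply, ContinuousMultilinearMap.apply_apply]
    rw [this, map_zero]
  obtain ⟨K', γ, V, h2, h3, h4, h5, h6⟩ := hyp_param hE hgc hg0 hgx hU
  refine ⟨K', γ, V, h2, h3, h4, h5, ?_⟩
  filter_upwards [h6] with y hy hy0
  apply hy
  simp only [hg, hev, ContinuousLinearMap.comp_apply, ContinuousMultilinearMap.apply_apply]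
  rw [hy0 (Fin.tail m), map_zero]

end Vale.Agent.P284.H10
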