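import Vale.Agent.P284.H10.S4b

/-!
# P284 (helper10), S4: `F '' {rank dF ≤ k}` is covered by countably many images of `ℂᵏ`
-/

open Set Filter Topology Module Metric
open scoped ContDiff

namespace Vale.Agent.P284.H10

/-- the statement proved by induction on the dimension -/
def Img (n : ℕ) : Prop :=
  ∀ (E : Type) [NormedAddCommGroup E] [NormedSpace ℂ E] [FiniteDimensional ℂ E],
    finrank ℂ E = n → ∀ (W : Type) [NormedAddCommGroup W] [NormedSpace ℂ W]
    [FiniteDimensional ℂ W] (F : E → W) (U : Set E), IsOpen U → DifferentiableOn ℂ F U → ∀ k : ℕ,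
    Cov k (F '' {x ∈ U | finrank ℂ (LinearMap.range (fderiv ℂ F x : E →ₗ[ℂ] W)) ≤ k})

theorem slice {n : ℕ} (ih : Img n) {R K W : Type} [NormedAddCommGroup R] [NormedSpace ℂ R]
    [FiniteDimensional ℂ R] [NormedAddCommGroup K] [NormedSpace ℂ K] [FiniteDimensional ℂ K]
    [NormedAddCommGroup W] [NormedSpace ℂ W] [FiniteDimensional ℂ W]
    (hE : finrank ℂ (R × K) = n + 1) {h : R × K → W} {p₀ : R × K} (hh : ContDiffAt ℂ ω h p₀) :
    ∃ V ∈ 𝓝 p₀, Cov (finrank ℂ R) (h '' {p ∈ V | ∀ t : K, fderiv ℂ h p (0, t) = 0}) := by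
  have hev : ∀ᶠ p in 𝓝 p₀, ContDiffAt ℂ ω h p := hh.eventually (by simp)
  obtain ⟨r, hr, hB⟩ := Metric.eventually_nhds_iff_ball.1 hev
  refine ⟨ball p₀ r, ball_mem_nhds _ hr, ?_⟩
  let ι : K →L[ℂ] R × K := ContinuousLinearMap.inr ℂ R K
  set Z : ℕ → Set (R × K) := fun l => {p ∈ ball p₀ r |
    (∀ t : K, fderiv ℂ h p (0, t) = 0) ∧
    (∀ m : Fin (l + 1) → K, iteratedFDeriv ℂ (l + 1) h p (fun i => ι (m i)) = 0) ∧
    ∃ m : Fin (l + 2) → K, iteratedFDeriv ℂ (l + 2) h p (fun i => ι (m i)) ≠ 0} with hZ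
  set Z' : Set (R × K) := {p ∈ ball p₀ r | ∀ l, ∀ m : Fin (l + 1) → K,
    iteratedFDeriv ℂ (l + 1) h p (fun i => ι (m i)) = 0} with hZ'
  have hsub : {p ∈ ball p₀ r | ∀ t : K, fderiv ℂ h p (0, t) = 0} ⊆ Z' ∪ ⋃ l, Z l := by
    rintro p ⟨hp, hp0⟩
    by_cases hall : ∀ l, ∀ m : Fin (l + 1) → K,
      iteratedFDeriv ℂ (l + 1) h p (fun i => ι (m i)) = 0
    · exact Or.inl ⟨hp, hall⟩
    · right
      push Not at hall
      classical
      have h1 : Nat.find hall ≠ 0 := by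
        intro h0
        obtain ⟨m, hm⟩ := Nat.find_spec hall
        apply hm
        clear hm
        revert m
        rw [h0]
        intro m
        rw [iteratedFDeriv_one_apply]
        exact hp0 _
      obtain ⟨l, hl⟩ := Nat.exists_eq_succ_of_ne_zero h1
      refine mem_iUnion.2 ⟨l, hp, hp0, ?_, ?_⟩
      · have h3 : l < Nat.find hall := by omega
        have h4 := Nat.find_min hall h3
        push Not at h4
        exact h4
      · have h2 := Nat.find_spec hall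
        rw [hl] at h2
        exact h2
  refine Cov.mono ?_ (image_mono hsub)
  rw [image_union, image_iUnion]
  refine Cov.union ?_ (Cov.iUnion fun l => ?_)
  · -- all derivatives vanish: `h` does not depend on the second variable
    have h1 : h '' Z' ⊆ (fun y : R => h (y, p₀.2)) '' (ball p₀.1 r) := by
      rintro _ ⟨⟨y, t⟩, ⟨hp, hall⟩, rfl⟩
      rw [← ball_prod_same] at hp
      refine ⟨y, hp.1, ?_⟩
      have ha : AnalyticOnNhd ℂ (fun s : K => h (y, s)) (ball p₀.2 r) := by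
        intro s hs
        have h2 : AnalyticAt ℂ h (y, s) :=
          (hB (y, s) (by rw [← ball_prod_same]; exact ⟨hp.1, hs⟩)).analyticAt
        exact h2.comp₂ analyticAt_const analyticAt_id
      have h2 : (fun s : K => h (y, s)) =ᶠ[𝓝 t] fun _ => h (y, t) := by
        obtain ⟨q, ρ, hq⟩ : AnalyticAt ℂ h (y, t) :=
          (hB (y, t) (by rw [← ball_prod_same]; exact hp)).analyticAt
        have h3 : ∀ᶠ s in 𝓝 t, ((y, s) : R × K) ∈ Metric.eball (y, t) ρ := by
          have : ContinuousAt (fun s : K => ((y, s) : R × K)) t := by fun_prop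
          exact this (Metric.eball_mem_nhds _ hq.r_pos)
        filter_upwards [h3] with s hs
        have h4 := hq.hasSum_sub hs
        have h5 : ∀ j, j ≠ 0 → (q j fun _ => ((y, s) : R × K) - (y, t)) = 0 := by
          intro j hj
          obtain ⟨l, rfl⟩ := Nat.exists_eq_succ_of_ne_zero hj
          have h6 := hq.factorial_smul (((y, s) : R × K) - (y, t)) (l + 1)
          have h7 : iteratedFDeriv ℂ (l + 1) h (y, t) (fun _ => ((y, s) : R × K) - (y, t)) = 0 := by
            have h8 := hall l (fun _ => s - t)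
            have h9 : ι (s - t) = ((y, s) : R × K) - (y, t) := by simp [ι]
            simpa [h9] using h8
          rw [h7, ← Nat.cast_smul_eq_nsmul ℂ] at h6
          exact (smul_eq_zero.1 h6).resolve_left (by exact_mod_cast (l + 1).factorial_ne_zero)
        have h6 := hasSum_single (f := fun j => q j fun _ => ((y, s) : R × K) - (y, t)) 0 h5
        have h7 := h4.unique h6
        rw [h7]
        exact hq.coeff_zero _
      have h3 := ha.eqOn_of_preconnected_of_eventuallyEq analyticOnNhd_const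
        (convex_ball p₀.2 r).isPreconnected hp.2 h2
      exact h3 (mem_ball_self hr)
    refine Cov.mono (Cov.of_image le_rfl fun y hy => ?_) h1
    have h2 : ContDiffAt ℂ ω h (y, p₀.2) :=
      hB _ (by rw [← ball_prod_same]; exact ⟨hy, mem_ball_self hr⟩)
    exact (h2.differentiableAt (by simp)).comp y (by fun_prop)
  · refine Cov.locally fun p hp => ?_
    obtain ⟨hpB, hp1, hp2, m, hm⟩ := hp
    obtain ⟨K', γ, V, h1, h2, h3, h4, h5⟩ := strat hE ι (hB p hpB) hp2 hm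
      (isOpen_ball.mem_nhds hpB)
    refine ⟨_, h5, ?_⟩
    have hc := ih K' h1 W (h ∘ γ) V h2 (fun s hs => by
      refine DifferentiableAt.differentiableWithinAt ?_
      exact ((hB _ (h4 s hs)).differentiableAt (by simp)).comp s
        ((h3 s hs).differentiableAt (by simp))) (finrank ℂ R)
    refine hc.mono ?_
    rintro _ ⟨y, ⟨⟨hyB, hy1, hy2, -⟩, hy3⟩, rfl⟩
    obtain ⟨s, hs, hsy⟩ := hy3 hy2
    refine ⟨s, ⟨hs, ?_⟩, congrArg h hsy⟩
    have h6 : fderiv ℂ (h ∘ γ) s = (fderiv ℂ h y).comp (fderiv ℂ γ s) := by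
      rw [fderiv_comp _ ((hB _ (h4 s hs)).differentiableAt (by simp))
        ((h3 s hs).differentiableAt (by simp)), hsy]
    have h7 : LinearMap.range (fderiv ℂ (h ∘ γ) s : K' →ₗ[ℂ] W) ≤
        LinearMap.range ((fderiv ℂ h y : R × K →ₗ[ℂ] W) ∘ₗ LinearMap.inl ℂ R K) := by
      rintro _ ⟨v, rfl⟩
      refine ⟨(fderiv ℂ γ s v).1, ?_⟩
      have h8 : fderiv ℂ h y (fderiv ℂ γ s v) = fderiv ℂ h y ((fderiv ℂ γ s v).1, 0) +
          fderiv ℂ h y (0, (fderiv ℂ γ s v).2) := by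
        rw [← map_add]; simp
      rw [hy1, add_zero] at h8
      rw [h6]
      exact h8.symm
    exact (Submodule.finrank_mono h7).trans (LinearMap.finrank_range_le _)

theorem inj_of_rank {R K W : Type} [NormedAddCommGroup R] [NormedSpace ℂ R]
    [FiniteDimensional ℂ R] [NormedAddCommGroup K] [NormedSpace ℂ K]
    [NormedAddCommGroup W] [NormedSpace ℂ W] [FiniteDimensional ℂ W] (A : W →L[ℂ] R)
    (T : R × K →L[ℂ] W) (h1 : ∀ p, A (T p) = p.1)
    (h2 : finrank ℂ (LinearMap.range (T : R × K →ₗ[ℂ] W)) ≤ finrank ℂ R) (t : K) :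
    T (0, t) = 0 := by
  let f : LinearMap.range (T : R × K →ₗ[ℂ] W) →ₗ[ℂ] R :=
    (A : W →ₗ[ℂ] R).domRestrict (LinearMap.range (T : R × K →ₗ[ℂ] W))
  have hf : Function.Surjective f := by
    intro r
    exact ⟨⟨T (r, 0), (r, 0), rfl⟩, h1 (r, 0)⟩
  have h3 : finrank ℂ R ≤ finrank ℂ (LinearMap.range (T : R × K →ₗ[ℂ] W)) :=
    LinearMap.finrank_le_finrank_of_surjective hf
  have hi : Function.Injective f :=
    (LinearMap.injective_iff_surjective_of_finrank_eq_finrank (le_antisymm h2 h3)).2 hf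
  have h4 : f ⟨T (0, t), (0, t), rfl⟩ = f 0 := by
    rw [map_zero]
    exact h1 (0, t)
  have h5 := hi h4
  exact congrArg Subtype.val h5

/-- straightening of a map of constant rank: `F = h ∘ Φ`, `A (h p) = p.1` -/
theorem straighten {E W : Type} [NormedAddCommGroup E] [NormedSpace ℂ E] [FiniteDimensional ℂ E]
    [NormedAddCommGroup W] [NormedSpace ℂ W] [FiniteDimensional ℂ W] {F : E → W} {x₀ : E}
    (hF : ContDiffAt ℂ ω F x₀) : ∃ (R : Submodule ℂ W) (K : Submodule ℂ E) (A : W →L[ℂ] R)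
      (Φ : E → R × K) (ψ : R × K → E), R = LinearMap.range (fderiv ℂ F x₀ : E →ₗ[ℂ] W) ∧
      finrank ℂ (R × K) = finrank ℂ E ∧ ContDiffAt ℂ ω Φ x₀ ∧ ContDiffAt ℂ ω ψ (Φ x₀) ∧
      (∀ᶠ x in 𝓝 x₀, ψ (Φ x) = x) ∧ (∀ᶠ p in 𝓝 (Φ x₀), Φ (ψ p) = p) ∧
      (∀ x, (Φ x).1 = A (F x)) ∧ (∀ r : R, A r = r) := by
  set L := fderiv ℂ F x₀ with hL
  set R : Submodule ℂ W := LinearMap.range (L : E →ₗ[ℂ] W) with hR
  set K : Submodule ℂ E := LinearMap.ker (L : E →ₗ[ℂ] W) with hK
  obtain ⟨A, hA⟩ : R.ClosedComplemented := Submodule.ClosedComplemented.of_finiteDimensional _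
  obtain ⟨P, hP⟩ : K.ClosedComplemented := Submodule.ClosedComplemented.of_finiteDimensional _
  set Φ : E → R × K := fun x => (A (F x), P (x - x₀)) with hΦ
  have hdim : finrank ℂ (R × K) = finrank ℂ E := by
    rw [finrank_prod]
    exact LinearMap.finrank_range_add_finrank_ker (L : E →ₗ[ℂ] W)
  let D : E →L[ℂ] R × K := (A.comp L).prod P
  have hD : Function.Injective D := by
    intro v v' hv
    have h1 : D (v - v') = 0 := by rw [map_sub, hv, sub_self]
    have h2 : A (L (v - v')) = 0 := congrArg Prod.fst h1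
    have h3 : P (v - v') = 0 := congrArg Prod.snd h1
    have h4 : L (v - v') = 0 := by
      have h5 := hA ⟨L (v - v'), v - v', rfl⟩
      have h6 : (⟨L (v - v'), v - v', rfl⟩ : R) = 0 := by rw [← h5]; exact h2
      exact congrArg Subtype.val h6
    have h5 := hP ⟨v - v', h4⟩
    have h6 : (⟨v - v', h4⟩ : K) = 0 := by rw [← h5]; exact h3
    exact sub_eq_zero.1 (congrArg Subtype.val h6)
  let e : E ≃L[ℂ] R × K := (LinearEquiv.ofInjectiveOfFinrankEq (D : E →ₗ[ℂ] R × K) hD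
    hdim.symm).toContinuousLinearEquiv
  have hΦc : ContDiffAt ℂ ω Φ x₀ := by
    refine ContDiffAt.prodMk ?_ ?_
    · exact A.contDiff.contDiffAt.comp x₀ hF
    · exact (P.contDiff.comp (contDiff_id.sub contDiff_const)).contDiffAt
  have hΦd : HasFDerivAt Φ (e : E →L[ℂ] R × K) x₀ := by
    have h1 : HasFDerivAt Φ D x₀ := by
      refine HasFDerivAt.prodMk ?_ ?_
      · exact A.hasFDerivAt.comp x₀ (hF.differentiableAt (by simp)).hasFDerivAt
      · have h2 : HasFDerivAt (fun x : E => x - x₀) (ContinuousLinearMap.id ℂ E) x₀ :=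
          (hasFDerivAt_id x₀).sub_const x₀
        exact P.hasFDerivAt.comp x₀ h2
    have h2 : (e : E →L[ℂ] R × K) = D := by
      ext v <;> rfl
    rw [h2]
    exact h1
  have hn : (ω : WithTop ℕ∞) ≠ 0 := by simp
  set Q := hΦc.toOpenPartialHomeomorph Φ hΦd hn with hQ
  have hx₀ : x₀ ∈ Q.source := hΦc.mem_toOpenPartialHomeomorph_source hΦd hn
  refine ⟨R, K, A, Φ, Q.symm, rfl, hdim, hΦc, ?_, ?_, ?_, fun x => rfl, fun r => hA r⟩
  · exact hΦc.to_localInverse hΦd hn
  · filter_upwards [Q.open_source.mem_nhds hx₀] with x hx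
    exact Q.left_inv hx
  · have h1 : Φ x₀ ∈ Q.target := Q.map_source hx₀
    filter_upwards [Q.open_target.mem_nhds h1] with p hp
    exact Q.right_inv hp

theorem img : ∀ n, Img n := by
  intro n
  induction n with
  | zero =>
    intro E _ _ _ hE W _ _ _ F U hU hF k
    exact Cov.of_image (by omega) fun x hx => (hF x hx.1).differentiableAt (hU.mem_nhds hx.1)
  | succ n ih =>
    intro E _ _ _ hE W _ _ _ F U hU hF k
    have hE' : ProperSpace E := FiniteDimensional.proper ℂ E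
    have hcd : ∀ x ∈ U, ContDiffAt ℂ ω F x := fun x hx =>
      (Vale.Agent.P268.analyticOnNhd_of_differentiableOn hU hF x hx).contDiffAt
    have key : ∀ j : ℕ,
        Cov j (F '' {x ∈ U | finrank ℂ (LinearMap.range (fderiv ℂ F x : E →ₗ[ℂ] W)) = j}) := by
      intro j
      refine Cov.locally fun x₀ hx₀ => ?_
      obtain ⟨hx₀U, hj⟩ := hx₀
      obtain ⟨R, K, A, Φ, ψ, hR, hdim, hΦ, hψ, hl, hr, hA, hA'⟩ := straighten (hcd x₀ hx₀U)
      have hRj : finrank ℂ R = j := by rw [hR]; exact hj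
      have hx₀' : ψ (Φ x₀) = x₀ := hl.self_of_nhds
      have hh : ContDiffAt ℂ ω (F ∘ ψ) (Φ x₀) :=
        ContDiffAt.comp (Φ x₀) (by rw [hx₀']; exact hcd x₀ hx₀U) hψ
      obtain ⟨V, hV, hc⟩ := slice ih (by rw [hdim, hE]) hh
      rw [hRj] at hc
      have hev : ∀ᶠ p in 𝓝 (Φ x₀), p ∈ V ∧ (∀ᶠ p' in 𝓝 p, Φ (ψ p') = p') ∧
          ContDiffAt ℂ ω ψ p ∧ ψ p ∈ U := by
        refine Filter.Eventually.and hV (hr.eventually_nhds.and ?_)
        refine (hψ.eventually (by simp)).and ?_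
        exact hψ.continuousAt (by rw [hx₀']; exact hU.mem_nhds hx₀U)
      have hev2 : ∀ᶠ x in 𝓝 x₀, ψ (Φ x) = x ∧ (Φ x ∈ V ∧
          (∀ᶠ p' in 𝓝 (Φ x), Φ (ψ p') = p') ∧ ContDiffAt ℂ ω ψ (Φ x) ∧ ψ (Φ x) ∈ U) :=
        hl.and (hΦ.continuousAt hev)
      refine ⟨_, hev2, hc.mono ?_⟩
      rintro _ ⟨x, ⟨⟨hxU, hxj⟩, hx1, hx2, hx3, hx4, hx5⟩, rfl⟩
      refine ⟨Φ x, ⟨hx2, ?_⟩, congrArg F hx1⟩
      have h1 : HasFDerivAt (F ∘ ψ) ((fderiv ℂ F x).comp (fderiv ℂ ψ (Φ x))) (Φ x) := by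
        refine HasFDerivAt.comp (Φ x) ?_ (hx4.differentiableAt (by simp)).hasFDerivAt
        rw [hx1]
        exact ((hcd x hxU).differentiableAt (by simp)).hasFDerivAt
      refine inj_of_rank A (fderiv ℂ (F ∘ ψ) (Φ x)) (fun p => ?_) ?_
      · have h2 : (A ∘ (F ∘ ψ)) =ᶠ[𝓝 (Φ x)] Prod.fst := by
          filter_upwards [hx3] with p' hp'
          have h3 := hA (ψ p')
          rw [hp'] at h3
          exact h3.symm
        have h3 : HasFDerivAt (A ∘ (F ∘ ψ)) (A.comp (fderiv ℂ (F ∘ ψ) (Φ x))) (Φ x) := by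
          rw [h1.fderiv]
          exact A.hasFDerivAt.comp _ h1
        have h4 : HasFDerivAt (A ∘ (F ∘ ψ)) (ContinuousLinearMap.fst ℂ R K) (Φ x) :=
          hasFDerivAt_fst.congr_of_eventuallyEq h2
        have h5 := h3.unique h4
        exact congrArg (fun T : R × K →L[ℂ] R => T p) h5
      · rw [hRj, ← hxj, h1.fderiv]
        refine Submodule.finrank_mono ?_
        rintro _ ⟨v, rfl⟩
        exact ⟨_, rfl⟩
    have h1 : F '' {x ∈ U | finrank ℂ (LinearMap.range (fderiv ℂ F x : E →ₗ[ℂ] W)) ≤ k} ⊆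
        ⋃ j : Fin (k + 1), F '' {x ∈ U |
          finrank ℂ (LinearMap.range (fderiv ℂ F x : E →ₗ[ℂ] W)) = j} := by
      rintro _ ⟨x, ⟨hx, hxk⟩, rfl⟩
      exact mem_iUnion.2 ⟨⟨_, Nat.lt_succ_of_le hxk⟩, x, ⟨hx, rfl⟩, rfl⟩
    exact (Cov.iUnion fun j : Fin (k + 1) => (key j).le (by omega)).mono h1

end Vale.Agent.P284.H10
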