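import Vale.Agent.P284.H10.S4c
import Vale.Agent.P231.H649.Sard

/-!
# P284 (helper10), S4: complements of thin sets are connected
-/

open Set Filter Topology Module Metric MeasureTheory
open scoped ContDiff

namespace Vale.Agent.P284.H10

section real
variable {V : Type} [NormedAddCommGroup V] [NormedSpace ℂ V] [FiniteDimensional ℂ V]

theorem null_of_cov [MeasurableSpace V] [BorelSpace V] {k : ℕ} {S : Set V} (hS : Cov k S)
    (hk : k + 1 ≤ finrank ℂ V) : (Measure.addHaar : Measure V) S = 0 := by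
  obtain ⟨G, T, h1, h2⟩ := hS
  refine measure_mono_null h2 (measure_iUnion_null fun i => ?_)
  have h3 : finrank ℝ (Fin k → ℂ) < finrank ℝ V := by
    rw [finrank_real_of_complex, finrank_real_of_complex]
    simp
    omega
  exact Vale.Agent.P231.H649.sard_ker Measure.addHaar h3.le
    (fun x hx => (h1 i x hx).restrictScalars ℝ) (fun x hx => Or.inl h3)

theorem null_cone [MeasurableSpace V] [BorelSpace V] {k : ℕ} {S : Set V} (hS : Cov k S)
    (hk : k + 1 ≤ finrank ℂ V) (a : V) :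
    (Measure.addHaar : Measure V) {b | ∃ s ∈ S, ∃ t : ℝ, b = a + t • (s - a)} = 0 := by
  obtain ⟨G, T, h1, h2⟩ := hS
  have h4 : {b | ∃ s ∈ S, ∃ t : ℝ, b = a + t • (s - a)} ⊆
      ⋃ i, (fun p : (Fin k → ℂ) × ℝ => a + p.2 • (G i p.1 - a)) '' {p | p.1 ∈ T i} := by
    rintro b ⟨s, hs, t, rfl⟩
    obtain ⟨i, x, hx, rfl⟩ := mem_iUnion.1 (h2 hs)
    exact mem_iUnion.2 ⟨i, (x, t), hx, rfl⟩
  refine measure_mono_null h4 (measure_iUnion_null fun i => ?_)
  have h3 : finrank ℝ ((Fin k → ℂ) × ℝ) < finrank ℝ V := by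
    rw [finrank_prod, finrank_real_of_complex, finrank_real_of_complex]
    simp
    omega
  refine Vale.Agent.P231.H649.sard_ker Measure.addHaar h3.le (fun p hp => ?_)
    (fun x hx => Or.inl h3)
  have h5 : DifferentiableAt ℝ (fun p : (Fin k → ℂ) × ℝ => G i p.1) p :=
    ((h1 i p.1 hp).restrictScalars ℝ).comp p differentiableAt_fst
  have h6 : DifferentiableAt ℝ (fun p : (Fin k → ℂ) × ℝ => p.2) p := differentiableAt_snd
  exact (differentiableAt_const a).add (DifferentiableAt.smul (𝕜 := ℝ) (𝕜' := ℝ) (F := V) h6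
    (h5.sub_const a))

theorem nonempty_diff {k : ℕ} {S O : Set V} (hS : Cov k (S ∩ O)) (hk : k + 1 ≤ finrank ℂ V)
    (hO : IsOpen O) (hne : O.Nonempty) : (O \ S).Nonempty := by
  borelize V
  have h1 : (Measure.addHaar : Measure V) O ≠ 0 := (hO.measure_pos _ hne).ne'
  by_contra h2
  rw [not_nonempty_iff_eq_empty, sdiff_eq_empty] at h2
  apply h1
  refine measure_mono_null (fun x hx => ?_) (null_of_cov hS hk)
  exact ⟨h2 hx, hx⟩

theorem preconn_diff {k : ℕ} {S O : Set V} (hS : Cov k (S ∩ O)) (hk : k + 1 ≤ finrank ℂ V)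
    (hO : IsOpen O) (hc : Convex ℝ O) : IsPreconnected (O \ S) := by
  borelize V
  refine isPreconnected_of_forall_pair fun x hx y hy => ?_
  have h1 : (Measure.addHaar : Measure V) O ≠ 0 := (hO.measure_pos _ ⟨x, hx.1⟩).ne'
  obtain ⟨c, hcO, hcx, hcy⟩ : ∃ c ∈ O, c ∉ {b | ∃ s ∈ S ∩ O, ∃ t : ℝ, b = x + t • (s - x)} ∧
      c ∉ {b | ∃ s ∈ S ∩ O, ∃ t : ℝ, b = y + t • (s - y)} := by
    by_contra hcon
    push Not at hcon
    apply h1
    refine measure_mono_null (fun c hc => ?_)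
      (measure_union_null (null_cone hS hk x) (null_cone hS hk y))
    by_cases h2 : c ∈ {b | ∃ s ∈ S ∩ O, ∃ t : ℝ, b = x + t • (s - x)}
    · exact Or.inl h2
    · exact Or.inr (hcon c hc h2)
  have key : ∀ z ∈ O \ S, c ∉ {b | ∃ s ∈ S ∩ O, ∃ t : ℝ, b = z + t • (s - z)} →
      segment ℝ z c ⊆ O \ S := by
    rintro z hz hcz _ ⟨α, β, hα, hβ, hαβ, rfl⟩
    have h2 : α • z + β • c ∈ O := hc hz.1 hcO hα hβ hαβ
    refine ⟨h2, fun h3 => hcz ⟨α • z + β • c, ⟨h3, h2⟩, ?_⟩⟩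
    rcases eq_or_ne β 0 with rfl | hβ0
    · exfalso
      apply hz.2
      have : α = 1 := by linarith
      subst this
      simpa using h3
    · refine ⟨β⁻¹, ?_⟩
      have h4 : α • z + β • c - z = β • (c - z) := by
        have : α = 1 - β := by linarith
        subst this
        module
      rw [h4, smul_smul, inv_mul_cancel₀ hβ0, one_smul, add_sub_cancel]
  refine ⟨segment ℝ x c ∪ segment ℝ y c, union_subset (key x hx hcx) (key y hy hcy),
    Or.inl (left_mem_segment ℝ x c), Or.inr (left_mem_segment ℝ y c), ?_⟩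
  exact (convex_segment x c).isPreconnected.union c (right_mem_segment ℝ x c)
    (right_mem_segment ℝ y c) (convex_segment y c).isPreconnected

end real

theorem preconn_compl {M : Type} [TopologicalSpace M] [PreconnectedSpace M] {S : Set M}
    (hd : Dense Sᶜ) (h : ∀ x, ∃ O : Set M, IsOpen O ∧ x ∈ O ∧ IsPreconnected (O \ S)) :
    IsPreconnected Sᶜ := by
  rintro U V hU hV hUV ⟨a, haS, haU⟩ ⟨b, hbS, hbV⟩
  have h1 : closure (Sᶜ ∩ U) ∪ closure (Sᶜ ∩ V) = univ := by
    rw [← closure_union, ← inter_union_distrib_left, inter_eq_left.2 hUV]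
    exact hd.closure_eq
  obtain ⟨x, -, hx1, hx2⟩ := isPreconnected_closed_iff.1 (isPreconnected_univ (α := M))
    (closure (Sᶜ ∩ U)) (closure (Sᶜ ∩ V)) isClosed_closure isClosed_closure
    h1.ge ⟨a, mem_univ a, subset_closure ⟨haS, haU⟩⟩ ⟨b, mem_univ b, subset_closure ⟨hbS, hbV⟩⟩
  obtain ⟨O, hO, hxO, hpre⟩ := h x
  obtain ⟨u, huO, huS, huU⟩ := mem_closure_iff.1 hx1 O hO hxO
  obtain ⟨v, hvO, hvS, hvV⟩ := mem_closure_iff.1 hx2 O hO hxO
  obtain ⟨z, ⟨hzO, hzS⟩, hz⟩ := hpre U V hU hV (fun y hy => hUV hy.2) ⟨u, ⟨huO, huS⟩, huU⟩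
    ⟨v, ⟨hvO, hvS⟩, hvV⟩
  exact ⟨z, hzS, hz⟩

/-- zero sets of holomorphic functions -/
theorem cov_zero {n : ℕ} {E : Type} [NormedAddCommGroup E] [NormedSpace ℂ E]
    [FiniteDimensional ℂ E] (hE : finrank ℂ E = n + 1) {g : E → ℂ} {U : Set E} (hU : IsOpen U)
    (hg : DifferentiableOn ℂ g U) (h0 : ∀ x ∈ U, ¬ ∀ᶠ y in 𝓝 x, g y = 0) :
    Cov n {x ∈ U | g x = 0} := by
  have hE' : ProperSpace E := FiniteDimensional.proper ℂ E
  have han : ∀ x ∈ U, AnalyticAt ℂ g x := fun x hx =>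
    Vale.Agent.P268.analyticOnNhd_of_differentiableOn hU hg x hx
  set Z : ℕ → Set E := fun l => {x ∈ U |
    (∀ m : Fin l → E, iteratedFDeriv ℂ l g x (fun i => m i) = 0) ∧
    ∃ m : Fin (l + 1) → E, iteratedFDeriv ℂ (l + 1) g x (fun i => m i) ≠ 0} with hZ
  have hsub : {x ∈ U | g x = 0} ⊆ ⋃ l, Z l := by
    rintro x ⟨hx, hx0⟩
    by_cases hall : ∀ l, ∀ m : Fin l → E, iteratedFDeriv ℂ l g x (fun i => m i) = 0
    · exfalso
      apply h0 x hx
      obtain ⟨q, ρ, hq⟩ := han x hx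
      filter_upwards [Metric.eball_mem_nhds x hq.r_pos] with y hy
      have h1 := hq.hasSum_sub hy
      have h2 : ∀ j, (q j fun _ => y - x) = 0 := by
        intro j
        have h3 := hq.factorial_smul (y - x) j
        rw [hall j (fun _ => y - x)] at h3
        simpa [Nat.factorial_ne_zero] using h3
      simp only [h2] at h1
      exact h1.unique hasSum_zero
    · push Not at hall
      classical
      have h1 : Nat.find hall ≠ 0 := by
        intro h2
        obtain ⟨m, hm⟩ := Nat.find_spec hall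
        apply hm
        clear hm
        revert m
        rw [h2]
        intro m
        simpa using hx0
      obtain ⟨l, hl⟩ := Nat.exists_eq_succ_of_ne_zero h1
      refine mem_iUnion.2 ⟨l, hx, ?_, ?_⟩
      · have h3 : l < Nat.find hall := by omega
        have h4 := Nat.find_min hall h3
        push Not at h4
        exact h4
      · have h2 := Nat.find_spec hall
        rw [hl] at h2
        exact h2
  refine Cov.mono (Cov.iUnion fun l => ?_) hsub
  have h1 : Cov n (id '' Z l) := by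
    refine Cov.locally fun x hx => ?_
    obtain ⟨hxU, hx1, m, hm⟩ := hx
    obtain ⟨K', γ, V, h1, h2, h3, h4, h5⟩ := strat hE (ContinuousLinearMap.id ℂ E)
      (han x hxU).contDiffAt hx1 hm (hU.mem_nhds hxU)
    refine ⟨_, h5, ?_⟩
    refine (Cov.of_image (g := γ) (T := V) h1.le
      fun s hs => (h3 s hs).differentiableAt (by simp)).mono ?_
    rintro _ ⟨y, ⟨⟨-, hy1, -⟩, hy2⟩, rfl⟩
    exact hy2 hy1
  simpa using h1

/-- preimages under submersions -/
theorem cov_preimage {k : ℕ} {E W : Type} [NormedAddCommGroup E] [NormedSpace ℂ E]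
    [FiniteDimensional ℂ E] [NormedAddCommGroup W] [NormedSpace ℂ W] [FiniteDimensional ℂ W]
    {F : E → W} {x₀ : E} (hF : ContDiffAt ℂ ω F x₀) (hs : Function.Surjective (fderiv ℂ F x₀))
    {D : Set W} (hD : Cov k D) :
    ∃ V ∈ 𝓝 x₀, Cov (k + (finrank ℂ E - finrank ℂ W)) {x ∈ V | F x ∈ D} := by
  obtain ⟨R, K, A, Φ, ψ, hR, hdim, hΦ, hψ, hl, hr, hA, hA'⟩ := straighten hF
  have hR' : finrank ℂ R = finrank ℂ W := by
    have h1 : R = ⊤ := by
      rw [hR]
      exact LinearMap.range_eq_top.2 hs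
    rw [h1, finrank_top]
  rw [finrank_prod, hR'] at hdim
  have hK : finrank ℂ K = finrank ℂ E - finrank ℂ W := by omega
  have hev : ∀ᶠ x in 𝓝 x₀, ψ (Φ x) = x ∧ ContDiffAt ℂ ω ψ (Φ x) :=
    hl.and (hΦ.continuousAt (hψ.eventually (by simp)))
  refine ⟨_, hev, ?_⟩
  obtain ⟨G, T, h1, h2⟩ := hD
  have h3 : {x ∈ {x | ψ (Φ x) = x ∧ ContDiffAt ℂ ω ψ (Φ x)} | F x ∈ D} ⊆
      ⋃ i, (fun q : (Fin k → ℂ) × K => ψ (A (G i q.1), q.2)) ''
        {q | q.1 ∈ T i ∧ ContDiffAt ℂ ω ψ (A (G i q.1), q.2)} := by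
    rintro x ⟨⟨hx1, hx2⟩, hx3⟩
    obtain ⟨i, u, hu, hux⟩ := mem_iUnion.1 (h2 hx3)
    have h4 : Φ x = (A (G i u), (Φ x).2) := by
      rw [hux, ← hA]
    refine mem_iUnion.2 ⟨i, (u, (Φ x).2), ⟨hu, ?_⟩, ?_⟩
    · show ContDiffAt ℂ ω ψ (A (G i u), (Φ x).2)
      rw [← h4]; exact hx2
    · show ψ (A (G i u), (Φ x).2) = x
      rw [← h4]; exact hx1
  refine Cov.mono (Cov.iUnion fun i => Cov.of_image ?_ ?_) h3
  · rw [finrank_prod, hK]; simp
  · rintro ⟨u, t⟩ ⟨hu, ht⟩
    have h5 : DifferentiableAt ℂ (fun q : (Fin k → ℂ) × K => (A (G i q.1), q.2)) (u, t) := by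
      refine DifferentiableAt.prodMk ?_ differentiableAt_snd
      have h6 : DifferentiableAt ℂ (fun q : (Fin k → ℂ) × K => G i q.1) (u, t) :=
        (h1 i u hu).comp (u, t) differentiableAt_fst
      exact A.differentiableAt.comp _ h6
    exact (ht.differentiableAt (by simp)).comp (u, t) h5

end Vale.Agent.P284.H10
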