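import Vale.Agent.P284.H10.S4d

/-!
# P284 (helper10), S4: the degeneracy set of `f : B ⊆ ℂⁿ → ℂᴺ` and preimages of thin sets
-/

open Set Filter Topology Module Metric MeasureTheory
open scoped ContDiff

namespace Vale.Agent.P284.H10

variable {n N : ℕ}

/-- the minor attached to a right inverse -/
noncomputable def mnr (f : (Fin n → ℂ) → Fin N → ℂ) (A : (Fin N → ℂ) →ₗ[ℂ] Fin n → ℂ)
    (z : Fin n → ℂ) : ℂ :=
  (Matrix.of fun i j => fderiv ℂ f z (A (Pi.single j 1)) i).det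

theorem mnr_eq (f : (Fin n → ℂ) → Fin N → ℂ) (A : (Fin N → ℂ) →ₗ[ℂ] Fin n → ℂ)
    (z : Fin n → ℂ) : mnr f A z = LinearMap.det ((fderiv ℂ f z : (Fin n → ℂ) →ₗ[ℂ] Fin N → ℂ) ∘ₗ A) := by
  rw [← LinearMap.det_toMatrix']
  congr 1

theorem surj_of_mnr {f : (Fin n → ℂ) → Fin N → ℂ} {A : (Fin N → ℂ) →ₗ[ℂ] Fin n → ℂ}
    {z : Fin n → ℂ} (h : mnr f A z ≠ 0) : Function.Surjective (fderiv ℂ f z) := by
  rw [mnr_eq] at h
  have h1 : IsUnit (LinearMap.det ((fderiv ℂ f z : (Fin n → ℂ) →ₗ[ℂ] Fin N → ℂ) ∘ₗ A)) :=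
    isUnit_iff_ne_zero.2 h
  have h2 := ((Module.End.isUnit_iff _).1 ((LinearMap.isUnit_iff_isUnit_det _).2 h1)).2
  intro w
  obtain ⟨v, hv⟩ := h2 w
  exact ⟨A v, hv⟩

theorem exists_mnr {f : (Fin n → ℂ) → Fin N → ℂ} {z : Fin n → ℂ}
    (h : Function.Surjective (fderiv ℂ f z)) :
    ∃ A : (Fin N → ℂ) →ₗ[ℂ] Fin n → ℂ, mnr f A z = 1 := by
  obtain ⟨A, hA⟩ := (fderiv ℂ f z : (Fin n → ℂ) →ₗ[ℂ] Fin N → ℂ).exists_rightInverse_of_surjective
    (LinearMap.range_eq_top.2 h)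
  exact ⟨A, by rw [mnr_eq, hA, LinearMap.det_id]⟩

theorem mnr_diff {f : (Fin n → ℂ) → Fin N → ℂ} {B : Set (Fin n → ℂ)} (hB : IsOpen B)
    (hf : DifferentiableOn ℂ f B) (A : (Fin N → ℂ) →ₗ[ℂ] Fin n → ℂ) :
    DifferentiableOn ℂ (mnr f A) B := by
  intro z hz
  refine DifferentiableAt.differentiableWithinAt ?_
  have ha : AnalyticAt ℂ f z :=
    Vale.Agent.P268.analyticOnNhd_of_differentiableOn hB hf z hz
  have h1 : DifferentiableAt ℂ (fderiv ℂ f) z :=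
    (ha.contDiffAt (n := 2)).fderiv_right (m := 1) (by norm_num) |>.differentiableAt one_ne_zero
  have h2 : ∀ i j, DifferentiableAt ℂ (fun z => fderiv ℂ f z (A (Pi.single j 1)) i) z := by
    intro i j
    have h3 : DifferentiableAt ℂ (fun z => fderiv ℂ f z (A (Pi.single j 1))) z :=
      h1.clm_apply (differentiableAt_const _)
    exact differentiableAt_pi.1 h3 i
  unfold mnr
  simp only [Matrix.det_apply, Matrix.of_apply]
  refine DifferentiableAt.fun_sum fun σ _ => ?_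
  refine DifferentiableAt.const_smul ?_ _
  have h4 : ∀ u : Finset (Fin N), DifferentiableAt ℂ
      (fun z => ∏ i ∈ u, fderiv ℂ f z (A (Pi.single i 1)) (σ i)) z := by
    intro u
    classical
    induction u using Finset.induction_on with
    | empty => simp
    | insert i u hi ih =>
      simp only [Finset.prod_insert hi]
      exact (h2 (σ i) i).mul ih
  exact h4 Finset.univ

theorem N_le_n {f : (Fin n → ℂ) → Fin N → ℂ} {z : Fin n → ℂ}
    (h : Function.Surjective (fderiv ℂ f z)) : N ≤ n := by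
  have := LinearMap.finrank_le_finrank_of_surjective
    (f := (fderiv ℂ f z : (Fin n → ℂ) →ₗ[ℂ] Fin N → ℂ)) h
  simpa using this

theorem degen_cov (hN : 1 ≤ N) {f : (Fin n → ℂ) → Fin N → ℂ} {B : Set (Fin n → ℂ)} (hB : IsOpen B)
    (hc : Convex ℝ B) (hf : DifferentiableOn ℂ f B)
    (hex : ∃ z ∈ B, Function.Surjective (fderiv ℂ f z)) :
    Cov (n - 1) {z ∈ B | ¬ Function.Surjective (fderiv ℂ f z)} := by
  obtain ⟨z₀, hz₀, hs⟩ := hex
  have hn := N_le_n hs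
  obtain ⟨A, hA⟩ := exists_mnr hs
  have hd := mnr_diff hB hf A
  refine (cov_zero (n := n - 1) (by simp; omega) hB hd ?_).mono fun z hz => ⟨hz.1, ?_⟩
  · intro x hx h0
    have ha : AnalyticOnNhd ℂ (mnr f A) B :=
      Vale.Agent.P268.analyticOnNhd_of_differentiableOn hB hd
    have h1 := ha.eqOn_of_preconnected_of_eventuallyEq analyticOnNhd_const
      hc.isPreconnected hx h0
    have h2 := h1 hz₀
    rw [hA] at h2
    exact one_ne_zero h2
  · by_contra h1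
    exact hz.2 (surj_of_mnr h1)

theorem local_cov (hN : 1 ≤ N) {f : (Fin n → ℂ) → Fin N → ℂ} {B : Set (Fin n → ℂ)} (hB : IsOpen B)
    (hc : Convex ℝ B) (hf : DifferentiableOn ℂ f B)
    (hex : ∃ z ∈ B, Function.Surjective (fderiv ℂ f z)) {D : Set (Fin N → ℂ)}
    (hD : Cov (N - 1) D) : Cov (n - 1) (f ⁻¹' D ∩ B) := by
  have h1 := degen_cov hN hB hc hf hex
  obtain ⟨z₀, hz₀, hs⟩ := hex
  have hn := N_le_n hs
  have h2 : Cov (n - 1) (id '' {z ∈ B | Function.Surjective (fderiv ℂ f z) ∧ f z ∈ D}) := by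
    refine Cov.locally fun z hz => ?_
    obtain ⟨hzB, hz1, hz2⟩ := hz
    have ha : AnalyticAt ℂ f z :=
      Vale.Agent.P268.analyticOnNhd_of_differentiableOn hB hf z hzB
    obtain ⟨V, hV, h3⟩ := cov_preimage ha.contDiffAt hz1 hD
    refine ⟨V, hV, ?_⟩
    have h4 : N - 1 + (finrank ℂ (Fin n → ℂ) - finrank ℂ (Fin N → ℂ)) = n - 1 := by
      simp
      omega
    rw [h4] at h3
    refine h3.mono ?_
    rintro _ ⟨y, ⟨⟨-, -, hy⟩, hyV⟩, rfl⟩
    exact ⟨hyV, hy⟩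
  refine (h1.union h2).mono ?_
  rintro z ⟨hzD, hzB⟩
  by_cases h3 : Function.Surjective (fderiv ℂ f z)
  · exact Or.inr ⟨z, ⟨hzB, h3, hzD⟩, rfl⟩
  · exact Or.inl ⟨hzB, h3⟩

/-- surjectivity of the derivative is an open condition -/
theorem surj_open {f : (Fin n → ℂ) → Fin N → ℂ} {B : Set (Fin n → ℂ)} (hB : IsOpen B)
    (hf : DifferentiableOn ℂ f B) {z : Fin n → ℂ} (hz : z ∈ B)
    (hs : Function.Surjective (fderiv ℂ f z)) :
    ∀ᶠ y in 𝓝 z, Function.Surjective (fderiv ℂ f y) := by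
  obtain ⟨A, hA⟩ := exists_mnr hs
  have h1 : ContinuousAt (mnr f A) z :=
    ((mnr_diff hB hf A) z hz).differentiableAt (hB.mem_nhds hz) |>.continuousAt
  have h2 : ∀ᶠ y in 𝓝 z, mnr f A y ≠ 0 := by
    apply h1.eventually_ne
    rw [hA]
    exact one_ne_zero
  filter_upwards [h2] with y hy
  exact surj_of_mnr hy

/-- the critical values of `f` on `U` -/
theorem crit_cov (hN : 1 ≤ N) {f : (Fin n → ℂ) → Fin N → ℂ} {U : Set (Fin n → ℂ)} (hU : IsOpen U)
    (hf : DifferentiableOn ℂ f U) :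
    Cov (N - 1) (f '' {z ∈ U | ¬ Function.Surjective (fderiv ℂ f z)}) := by
  refine (img n (Fin n → ℂ) (by simp) (Fin N → ℂ) f U hU hf (N - 1)).mono (image_mono ?_)
  rintro z ⟨hz, hs⟩
  refine ⟨hz, ?_⟩
  have h1 : LinearMap.range (fderiv ℂ f z : (Fin n → ℂ) →ₗ[ℂ] Fin N → ℂ) ≠ ⊤ :=
    fun h => hs (LinearMap.range_eq_top.1 h)
  have h2 := Submodule.finrank_lt h1
  rw [Module.finrank_fin_fun] at h2
  omega

end Vale.Agent.P284.H10
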