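import Mathlib

/-!
# P284 (helper10), S4: components of the fibres (pure topology)
-/

open Set Filter Topology
open scoped Pointwise

namespace Vale.Agent.P284.H10

/-- Over `B`, connected sets meet every fibre in one component. -/
def CompOn {E Y : Type} [TopologicalSpace E] (F : E → Y) (B : Set Y) : Prop :=
  ∀ C : Set E, C ⊆ F ⁻¹' B → IsPreconnected C → ∀ x ∈ C, ∀ x' ∈ C, F x' = F x →
    x' ∈ connectedComponentIn (F ⁻¹' {F x}) x

theorem compOn_of {E Y : Type} [TopologicalSpace E] {F : E → Y} {B : Set Y} {ι : Type}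
    (S : ι → Set E) (hSo : ∀ i, IsOpen (S i)) (hcov : ∀ x, F x ∈ B → ∃ i, x ∈ S i)
    (hmeet : ∀ i, ∀ y ∈ B, ∃ s ∈ S i, F s = y)
    (hst : ∀ i j x, x ∈ S i → x ∈ S j → F x ∈ B → ∃ N : Set E, S i ⊆ N ∧ S j ⊆ N ∧
      ∀ y ∈ B, IsPreconnected (N ∩ F ⁻¹' {y})) : CompOn F B := by
  intro C hCB hC x hx x' hx' hxx'
  set y := F x with hy
  have hyB : y ∈ B := hCB hx
  choose s hs hsy using fun i => hmeet i y hyB
  have h1 : ∀ i j w, w ∈ S i → w ∈ S j → F w ∈ B →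
      connectedComponentIn (F ⁻¹' {y}) (s i) = connectedComponentIn (F ⁻¹' {y}) (s j) := by
    intro i j w hi hj hw
    obtain ⟨N, hN1, hN2, hN⟩ := hst i j w hi hj hw
    have h2 : s j ∈ connectedComponentIn (F ⁻¹' {y}) (s i) :=
      (hN y hyB).subset_connectedComponentIn ⟨hN1 (hs i), hsy i⟩ inter_subset_right
        ⟨hN2 (hs j), hsy j⟩
    exact connectedComponentIn_eq h2
  have h3 : ∀ i w, w ∈ S i → F w = y → w ∈ connectedComponentIn (F ⁻¹' {y}) (s i) := by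
    intro i w hi hw
    obtain ⟨N, hN1, -, hN⟩ := hst i i w hi hi (by rw [hw]; exact hyB)
    exact (hN y hyB).subset_connectedComponentIn ⟨hN1 (hs i), hsy i⟩ inter_subset_right
      ⟨hN1 hi, hw⟩
  obtain ⟨i, hi⟩ := hcov x hyB
  obtain ⟨j, hj⟩ := hcov x' (by rw [hxx']; exact hyB)
  set c₀ := connectedComponentIn (F ⁻¹' {y}) (s i) with hc₀
  set U := ⋃ k ∈ {k | connectedComponentIn (F ⁻¹' {y}) (s k) = c₀}, S k with hU
  set V := ⋃ k ∈ {k | connectedComponentIn (F ⁻¹' {y}) (s k) ≠ c₀}, S k with hV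
  have hUo : IsOpen U := isOpen_biUnion fun k _ => hSo k
  have hVo : IsOpen V := isOpen_biUnion fun k _ => hSo k
  have hUV : C ⊆ U ∪ V := by
    intro w hw
    obtain ⟨k, hk⟩ := hcov w (hCB hw)
    by_cases h : connectedComponentIn (F ⁻¹' {y}) (s k) = c₀
    · exact Or.inl (mem_iUnion₂.2 ⟨k, h, hk⟩)
    · exact Or.inr (mem_iUnion₂.2 ⟨k, h, hk⟩)
  have h4 : connectedComponentIn (F ⁻¹' {y}) (s j) = c₀ := by
    by_contra h5
    obtain ⟨w, hwC, hwU, hwV⟩ := hC U V hUo hVo hUV ⟨x, hx, mem_iUnion₂.2 ⟨i, rfl, hi⟩⟩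
      ⟨x', hx', mem_iUnion₂.2 ⟨j, h5, hj⟩⟩
    obtain ⟨k, hk, hkw⟩ := mem_iUnion₂.1 hwU
    obtain ⟨l, hl, hlw⟩ := mem_iUnion₂.1 hwV
    exact hl ((h1 k l w hkw hlw (hCB hwC)).symm.trans hk)
  have h5 := h3 i x hi rfl
  have h6 := h3 j x' hj hxx'
  rw [h4] at h6
  rw [← connectedComponentIn_eq h5]
  exact h6

/-- boxes around the points of a fibre, cocompact and properly discontinuous action -/
theorem exists_compOn {E Y K : Type} [TopologicalSpace E] [T2Space E] [LocallyCompactSpace E]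
    [TopologicalSpace Y] [T2Space Y] [Group K] [MulAction K E] [ContinuousConstSMul K E]
    {F : E → Y} (hF : Continuous F) (hK : ∀ (k : K) x, F (k • x) = F x)
    (hpd : ∀ C₁ C₂ : Set E, IsCompact C₁ → IsCompact C₂ →
      {k : K | ∃ x ∈ C₁, k • x ∈ C₂}.Finite)
    {y₀ : Y} (hco : ∃ B ∈ 𝓝 y₀, ∃ C : Set E, IsCompact C ∧ ∀ x, F x ∈ B → ∃ k : K, k • x ∈ C)
    (hbox : ∀ x, F x = y₀ → ∃ N : Set E, IsOpen N ∧ x ∈ N ∧ ∀ y, IsPreconnected (N ∩ F ⁻¹' {y}))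
    (hop : ∀ x, F x = y₀ → ∀ V ∈ 𝓝 x, F '' V ∈ 𝓝 y₀) :
    ∃ B ∈ 𝓝 y₀, CompOn F B := by
  classical
  obtain ⟨B₀, hB₀, C, hC, hcov⟩ := hco
  set C₀ := C ∩ F ⁻¹' {y₀} with hC₀
  have hC₀c : IsCompact C₀ := hC.inter_right (isClosed_singleton.preimage hF)
  choose! N hNo hxN hN using hbox
  have hM : ∀ x, F x = y₀ → ∃ M : Set E, IsOpen M ∧ x ∈ M ∧ closure M ⊆ N x ∧
      IsCompact (closure M) := by
    intro x hx
    obtain ⟨M, hM1, hM2, hM3, hM4⟩ := exists_open_between_and_isCompact_closure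
      (isCompact_singleton (x := x)) (hNo x hx) (singleton_subset_iff.2 (hxN x hx))
    exact ⟨M, hM1, hM2 rfl, hM3, hM4⟩
  choose! M hMo hxM hMN hMc using hM
  obtain ⟨t, htC, ht⟩ := hC₀c.elim_nhds_subcover M fun x hx => (hMo x hx.2).mem_nhds (hxM x hx.2)
  -- a general lemma: a `K`-invariant open cover of `C₀` covers the preimage of a neighbourhood
  have tube : ∀ (t : Finset E) (W : E → Set E), (∀ x ∈ t, IsOpen (W x)) → C₀ ⊆ ⋃ x ∈ t, W x →
      ∃ B ∈ 𝓝 y₀, ∀ x, F x ∈ B → ∃ k : K, ∃ i ∈ t, k • x ∈ W i := by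
    intro t W hW hcW
    set O := ⋃ x ∈ t, W x with hO
    have hOo : IsOpen O := isOpen_biUnion fun x hx => hW x hx
    have h1 : IsCompact (F '' (C \ O)) := (hC.diff hOo).image hF
    have h2 : y₀ ∉ F '' (C \ O) := by
      rintro ⟨c, ⟨hc1, hc2⟩, hc3⟩
      exact hc2 (hcW ⟨hc1, hc3⟩)
    refine ⟨B₀ ∩ (F '' (C \ O))ᶜ, inter_mem hB₀ (h1.isClosed.isOpen_compl.mem_nhds h2), ?_⟩
    rintro x ⟨hx1, hx2⟩
    obtain ⟨k, hk⟩ := hcov x hx1
    have h3 : k • x ∈ O := by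
      by_contra h4
      exact hx2 ⟨k • x, ⟨hk, h4⟩, hK k x⟩
    obtain ⟨i, hi, h4⟩ := mem_iUnion₂.1 h3
    exact ⟨k, i, hi, h4⟩
  obtain ⟨B₁, hB₁, hcov₁⟩ := tube t M (fun x hx => hMo x (htC x hx).2) ht
  -- the small sets
  have hW : ∀ x, F x = y₀ → ∃ W : Set E, IsOpen W ∧ x ∈ W ∧
      ∀ (k : K), ∀ i ∈ t, (∃ w ∈ W, k • w ∈ closure (M i)) → ∀ w ∈ W, k • w ∈ N i := by
    intro x hx
    obtain ⟨V, hV, hxV⟩ := exists_compact_mem_nhds x
    have hfin : ∀ i ∈ t, {k : K | ∃ w ∈ V, k • w ∈ closure (M i)}.Finite := fun i hi =>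
      hpd V (closure (M i)) hV (hMc i (htC i hi).2)
    set Q : E → K → Set E := fun i k =>
      if k • x ∈ closure (M i) then (fun w => k • w) ⁻¹' N i
      else (fun w => k • w) ⁻¹' (closure (M i))ᶜ with hQ
    have hQo : ∀ i ∈ t, ∀ k, IsOpen (Q i k) := by
      intro i hi k
      simp only [hQ]
      split_ifs
      · exact (hNo i (htC i hi).2).preimage (continuous_const_smul k)
      · exact isClosed_closure.isOpen_compl.preimage (continuous_const_smul k)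
    have hxQ : ∀ i ∈ t, ∀ k, x ∈ Q i k := by
      intro i hi k
      simp only [hQ]
      split_ifs with h
      · exact hMN i (htC i hi).2 h
      · exact h
    refine ⟨interior V ∩ ⋂ i ∈ t, ⋂ k ∈ {k : K | ∃ w ∈ V, k • w ∈ closure (M i)}, Q i k, ?_, ?_, ?_⟩
    · refine isOpen_interior.inter ?_
      refine isOpen_biInter_finset fun i hi => ?_
      exact (hfin i hi).isOpen_biInter fun k _ => hQo i hi k
    · refine ⟨mem_interior_iff_mem_nhds.2 hxV, ?_⟩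
      simp only [mem_iInter]
      exact fun i hi k _ => hxQ i hi k
    · rintro k i hi ⟨w, ⟨hw1, hw2⟩, hw3⟩ w' ⟨hw1', hw2'⟩
      simp only [mem_iInter] at hw2 hw2'
      have hk : ∃ w ∈ V, k • w ∈ closure (M i) := ⟨w, interior_subset hw1, hw3⟩
      have h1 := hw2 i hi k hk
      have h2 := hw2' i hi k hk
      simp only [hQ] at h1 h2
      split_ifs at h1 h2 with h
      · exact h2
      · exact absurd hw3 h1
  choose! W hWo hxW hWs using hW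
  obtain ⟨t', ht'C, ht'⟩ := hC₀c.elim_nhds_subcover W fun x hx => (hWo x hx.2).mem_nhds (hxW x hx.2)
  obtain ⟨B₂, hB₂, hcov₂⟩ := tube t' W (fun x hx => hWo x (ht'C x hx).2) ht'
  have hB₃ : ⋂ i ∈ t', F '' W i ∈ 𝓝 y₀ :=
    (biInter_finset_mem t').2 fun i hi => hop i (ht'C i hi).2 _
      ((hWo i (ht'C i hi).2).mem_nhds (hxW i (ht'C i hi).2))
  refine ⟨B₁ ∩ (B₂ ∩ ⋂ i ∈ t', F '' W i), inter_mem hB₁ (inter_mem hB₂ hB₃), ?_⟩
  refine compOn_of (ι := K × {x // x ∈ t'}) (fun q => (fun w => q.1 • w) ⁻¹' W q.2) ?_ ?_ ?_ ?_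
  · rintro ⟨k, i, hi⟩
    exact (hWo i (ht'C i hi).2).preimage (continuous_const_smul k)
  · rintro x ⟨-, hx, -⟩
    obtain ⟨k, i, hi, h⟩ := hcov₂ x hx
    exact ⟨(k, ⟨i, hi⟩), h⟩
  · rintro ⟨k, i, hi⟩ y ⟨-, -, hy⟩
    simp only [mem_iInter] at hy
    obtain ⟨s, hs, hsy⟩ := hy i hi
    refine ⟨k⁻¹ • s, ?_, by rw [hK]; exact hsy⟩
    simpa using hs
  · rintro ⟨k₁, i₁, hi₁⟩ ⟨k₂, i₂, hi₂⟩ x hx₁ hx₂ ⟨hxB, -⟩
    obtain ⟨k₃, i, hi, h⟩ := hcov₁ x hxB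
    refine ⟨(fun w => k₃ • w) ⁻¹' N i, ?_, ?_, ?_⟩
    · intro w hw
      have h1 := hWs i₁ (ht'C i₁ hi₁).2 (k₃ * k₁⁻¹) i hi ⟨k₁ • x, hx₁, by
        rw [smul_smul, inv_mul_cancel_right]; exact subset_closure h⟩ (k₁ • w) hw
      rw [smul_smul, inv_mul_cancel_right] at h1
      exact h1
    · intro w hw
      have h1 := hWs i₂ (ht'C i₂ hi₂).2 (k₃ * k₂⁻¹) i hi ⟨k₂ • x, hx₂, by
        rw [smul_smul, inv_mul_cancel_right]; exact subset_closure h⟩ (k₂ • w) hw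
      rw [smul_smul, inv_mul_cancel_right] at h1
      exact h1
    · intro y _
      have h1 : (fun w => k₃ • w) ⁻¹' N i ∩ F ⁻¹' {y} =
          (fun w => k₃⁻¹ • w) '' (N i ∩ F ⁻¹' {y}) := by
        ext w
        constructor
        · rintro ⟨hw1, hw2⟩
          exact ⟨k₃ • w, ⟨hw1, by rw [mem_preimage, hK]; exact hw2⟩, by simp⟩
        · rintro ⟨v, ⟨hv1, hv2⟩, rfl⟩
          refine ⟨?_, ?_⟩
          · simpa using hv1
          · rw [mem_preimage, hK]; exact hv2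
      rw [h1]
      exact (hN i (htC i hi).2 y).image _ (continuous_const_smul _).continuousOn

end Vale.Agent.P284.H10
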