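import Vale.Agent.P284.H10.S4e
import Vale.Agent.P284.H894.W.Spec2
import Vale.Agent.P272.K.Inv.Chart

/-!
# P284 (helper10), S4: charts of the covering space, regular points
-/

open scoped Manifold ContDiff Topology
open Filter Set Metric

noncomputable section

namespace Vale.Agent.P284.H10

open Vale.Agent.P272.K Vale.Agent.P284.H894.W Vale.Agent.P284.H894.G

/-- `ε` is a chart of the covering space lifted from the chart `e`. -/
structure IsCh {n : ℕ} {X : Type} [TopologicalSpace X] [ChartedSpace (Cm n) X] {E : Type}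
    [TopologicalSpace E] (p : E → X) (e : Chart n X) (ε : OpenPartialHomeomorph E (Cm n)) :
    Prop where
  mem : e ∈ atlas (Cm n) X
  src : ∀ y ∈ ε.source, p y ∈ e.source
  eq : ∀ y ∈ ε.source, ε y = e (p y)

section
variable {n : ℕ} {X : Type} [TopologicalSpace X] [ChartedSpace (Cm n) X] {E : Type}
  [TopologicalSpace E] {p : E → X}

theorem exists_ch (hp : IsCoveringMap p) (y : E) {O : Set E} (hO : O ∈ 𝓝 y) :
    ∃ (e : Chart n X) (ε : OpenPartialHomeomorph E (Cm n)), IsCh p e ε ∧ y ∈ ε.source ∧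
      ε.source ⊆ O ∧ Convex ℝ ε.target := by
  obtain ⟨f, hf1, hf2⟩ := hp.isLocalHomeomorph y
  set e := chartAt (Cm n) (p y) with he
  set ε₁ := (f.trans e).restrOpen (interior O) isOpen_interior with hε₁
  have h1 : y ∈ ε₁.source := by
    rw [hε₁, OpenPartialHomeomorph.restrOpen_source, OpenPartialHomeomorph.trans_source]
    refine ⟨⟨hf1, ?_⟩, mem_interior_iff_mem_nhds.2 hO⟩
    show f y ∈ e.source
    rw [← hf2]
    exact mem_chart_source _ _
  obtain ⟨r, hr, hb⟩ := Metric.isOpen_iff.1 ε₁.open_target _ (ε₁.map_source h1)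
  set ε₂ := (ε₁.symm.restrOpen (ball (ε₁ y) r) isOpen_ball).symm with hε₂
  have hs : ∀ y' ∈ ε₂.source, y' ∈ ε₁.source ∧ ε₂ y' = ε₁ y' := by
    intro y' hy'
    refine ⟨?_, rfl⟩
    have h2 : y' ∈ (ε₁.symm.restrOpen (ball (ε₁ y) r) isOpen_ball).target := hy'
    simp at h2
    exact h2.1
  refine ⟨e, ε₂, ⟨chart_mem_atlas _ _, ?_, ?_⟩, ?_, ?_, ?_⟩
  · intro y' hy'
    obtain ⟨h2, -⟩ := hs y' hy'
    rw [hε₁, OpenPartialHomeomorph.restrOpen_source, OpenPartialHomeomorph.trans_source] at h2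
    have h3 : f y' ∈ e.source := h2.1.2
    rw [← hf2] at h3
    exact h3
  · intro y' hy'
    show e (f y') = e (p y')
    rw [← hf2]
  · show y ∈ (ε₁.symm.restrOpen (ball (ε₁ y) r) isOpen_ball).target
    simp
    exact ⟨h1, hr⟩
  · intro y' hy'
    obtain ⟨h2, -⟩ := hs y' hy'
    rw [hε₁, OpenPartialHomeomorph.restrOpen_source] at h2
    exact interior_subset h2.2
  · have h2 : ε₂.target = ball (ε₁ y) r := by
      show (ε₁.symm.restrOpen (ball (ε₁ y) r) isOpen_ball).source = _
      rw [OpenPartialHomeomorph.restrOpen_source]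
      exact inter_eq_right.2 hb
    rw [h2]
    exact convex_ball _ _

variable {w : Chart n X → Cm n → Matrix (Fin n) (Fin n) ℂ} {N : ℕ} {F : E → Cm N} {B : ℝ}
  {e : Chart n X} {ε : OpenPartialHomeomorph E (Cm n)}

theorem IsCh.at (h : IsCh p e ε) {y : E} (hy : y ∈ ε.source) : At e (p y) := ⟨h.mem, h.src y hy⟩

theorem IsCh.ev (h : IsCh p e ε) {y : E} (hy : y ∈ ε.source) :
    ∀ᶠ y' in 𝓝 y, F y' = (F ∘ ε.symm) (e (p y')) := by
  filter_upwards [ε.open_source.mem_nhds hy] with y' hy'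
  rw [← h.eq y' hy', Function.comp_apply, ε.left_inv hy']

theorem IsCh.ev_of (h : IsCh p e ε) {y : E} (hy : y ∈ ε.source) {f : Cm n → Cm N}
    (hf : ∀ᶠ y' in 𝓝 y, F y' = f (e (p y'))) : (F ∘ ε.symm) =ᶠ[𝓝 (ε y)] f := by
  have h1 : Tendsto ε.symm (𝓝 (ε y)) (𝓝 y) := by
    have := ε.continuousAt_symm (ε.map_source hy)
    unfold ContinuousAt at this
    rwa [ε.left_inv hy] at this
  filter_upwards [h1.eventually hf, ε.open_target.mem_nhds (ε.map_source hy)] with z hz hz'
  rw [Function.comp_apply, hz, ← h.eq _ (ε.map_target hz'), ε.right_inv hz']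

theorem IsCh.diff (h : IsCh p e ε) (hF : HolB p w F B) :
    DifferentiableOn ℂ (F ∘ ε.symm) ε.target := by
  intro z hz
  obtain ⟨f, h1, h2, -⟩ := hF (ε.symm z) e (h.at (ε.map_target hz))
  have h3 := h.ev_of (ε.map_target hz) h1
  rw [← h.eq _ (ε.map_target hz)] at h2
  exact (h2.self_of_nhds.congr_of_eventuallyEq h3 |> fun h4 => by
    rw [ε.right_inv hz] at h4
    exact h4.differentiableWithinAt)

variable [IsManifold 𝓘(ℂ, Cm n) ω X]

theorem IsCh.reg_iff (h : IsCh p e ε) (hp : IsCoveringMap p) (hF : HolB p w F B) {y : E}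
    (hy : y ∈ ε.source) :
    Reg (n := n) p F y ↔ Function.Surjective (fderiv ℂ (F ∘ ε.symm) (ε y)) := by
  constructor
  · intro hr
    have := hr e _ (h.at hy) (h.ev hy)
    rwa [← h.eq y hy] at this
  · intro hs e' f' he' hf'
    have ha := h.at hy
    -- `f' = (F ∘ ε.symm) ∘ τ`
    have hmap : map (fun y' => e' (p y')) (𝓝 y) = 𝓝 (e' (p y)) := by
      rw [← e'.map_nhds_eq he'.2, ← hp.isLocalHomeomorph.map_nhds_eq y, Filter.map_map]
      rfl
    have h1 : f' =ᶠ[𝓝 (e' (p y))] fun z => (F ∘ ε.symm) (e (e'.symm z)) := by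
      have h2 : ∀ᶠ z in map (fun y' => e' (p y')) (𝓝 y),
          f' z = (F ∘ ε.symm) (e (e'.symm z)) := by
        rw [Filter.eventually_map]
        have h3 : ∀ᶠ y' in 𝓝 y, p y' ∈ e'.source :=
          (hp.continuous.continuousAt).eventually (e'.open_source.mem_nhds he'.2)
        filter_upwards [hf', h.ev (F := F) hy, h3] with y' a b c
        rw [← a, e'.left_inv c, ← b]
      rwa [hmap] at h2
    have hτ := transition_differentiableAt he' ha
    have hτ' := transition_differentiableAt ha he'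
    have h4 : e (e'.symm (e' (p y))) = ε y := by
      rw [e'.left_inv he'.2, ← h.eq y hy]
    have hd : DifferentiableAt ℂ (F ∘ ε.symm) (e (e'.symm (e' (p y)))) := by
      rw [h4]
      exact (h.diff hF _ (ε.map_source hy)).differentiableAt
        (ε.open_target.mem_nhds (ε.map_source hy))
    rw [h1.fderiv_eq]
    have h5 : fderiv ℂ (fun z => (F ∘ ε.symm) (e (e'.symm z))) (e' (p y)) =
        (fderiv ℂ (F ∘ ε.symm) (e (e'.symm (e' (p y))))).comp
          (fderiv ℂ (fun z => e (e'.symm z)) (e' (p y))) :=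
      fderiv_comp (g := F ∘ ε.symm) (f := fun z => e (e'.symm z)) _ hd hτ
    rw [h5, h4]
    have h6 : (fderiv ℂ (fun z => e (e'.symm z)) (e' (p y))).comp
        (fderiv ℂ (fun z => e' (e.symm z)) (e (p y))) = ContinuousLinearMap.id ℂ _ := by
      have h7 : e' (e.symm (e (p y))) = e' (p y) := by rw [e.left_inv ha.2]
      have hτ2 : DifferentiableAt ℂ (fun z => e (e'.symm z)) ((fun z => e' (e.symm z)) (e (p y))) := by
        show DifferentiableAt ℂ (fun z => e (e'.symm z)) (e' (e.symm (e (p y))))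
        rw [h7]
        exact hτ
      have h8 := fderiv_comp (g := fun z => e (e'.symm z)) (f := fun z => e' (e.symm z)) (e (p y))
        hτ2 hτ'
      simp only [h7] at h8
      rw [← h8]
      have h9 : ((fun z => e (e'.symm z)) ∘ fun z => e' (e.symm z)) =ᶠ[𝓝 (e (p y))] id := by
        filter_upwards [ha.nhds_at he'] with z hz
        show e (e'.symm (e' (e.symm z))) = z
        rw [e'.left_inv hz.2.2.2, e.right_inv hz.1]
      rw [h9.fderiv_eq, fderiv_id]
    intro v
    obtain ⟨u, hu⟩ := hs v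
    refine ⟨fderiv ℂ (fun z => e' (e.symm z)) (e (p y)) u, ?_⟩
    have h7 := congrArg (fun L => L u) h6
    simp only [ContinuousLinearMap.comp_apply, ContinuousLinearMap.id_apply] at h7
    rw [ContinuousLinearMap.comp_apply, h7, hu]

theorem reg_open (hp : IsCoveringMap p) (hF : HolB p w F B) :
    IsOpen {y : E | Reg (n := n) p F y} := by
  rw [isOpen_iff_mem_nhds]
  intro y hy
  obtain ⟨e, ε, hε, hyε, -, -⟩ := exists_ch (n := n) hp y univ_mem
  have h1 := (hε.reg_iff hp hF hyε).1 hy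
  have h2 := surj_open ε.open_target (hε.diff hF) (ε.map_source hyε) h1
  have h3 : ∀ᶠ y' in 𝓝 y, Function.Surjective (fderiv ℂ (F ∘ ε.symm) (ε y')) :=
    (ε.continuousAt hyε).eventually h2
  filter_upwards [h3, ε.open_source.mem_nhds hyε] with y' h4 h5
  exact (hε.reg_iff hp hF h5).2 h4

theorem reg_dense [ConnectedSpace E] (hN : 1 ≤ N) (hp : IsCoveringMap p) (hF : HolB p w F B)
    (hex : ∃ y, Reg (n := n) p F y) : Dense {y : E | Reg (n := n) p F y} := by
  have h1 : IsClopen (closure {y : E | Reg (n := n) p F y}) := by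
    refine ⟨isClosed_closure, isOpen_iff_mem_nhds.2 fun y hy => ?_⟩
    obtain ⟨e, ε, hε, hyε, -, hc⟩ := exists_ch (n := n) hp y univ_mem
    obtain ⟨y₁, hy₁, hr₁⟩ := mem_closure_iff_nhds.1 hy _ (ε.open_source.mem_nhds hyε)
    have h2 := (hε.reg_iff hp hF hy₁).1 hr₁
    have hd := degen_cov hN ε.open_target hc (hε.diff hF) ⟨_, ε.map_source hy₁, h2⟩
    filter_upwards [ε.open_source.mem_nhds hyε] with y₂ hy₂
    rw [_root_.mem_closure_iff]
    intro O hO hy₂O
    set V := ε.target ∩ ε.symm ⁻¹' O with hV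
    have hVo : IsOpen V := ε.symm.isOpen_inter_preimage hO
    obtain ⟨z, hzV, hz⟩ := nonempty_diff (S := {z ∈ ε.target |
        ¬ Function.Surjective (fderiv ℂ (F ∘ ε.symm) z)}) (hd.mono inter_subset_left) (by
          have := N_le_n h2
          simp; omega) hVo
      ⟨ε y₂, ε.map_source hy₂, by rw [mem_preimage, ε.left_inv hy₂]; exact hy₂O⟩
    refine ⟨ε.symm z, hzV.2, ?_⟩
    refine (hε.reg_iff hp hF (ε.map_target hzV.1)).2 ?_
    rw [ε.right_inv hzV.1]
    by_contra h3
    exact hz ⟨hzV.1, h3⟩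
  obtain ⟨y, hy⟩ := hex
  have h2 := h1.eq_univ ⟨y, subset_closure hy⟩
  exact dense_iff_closure_eq.2 h2

end

end Vale.Agent.P284.H10
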