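import Vale.Agent.P284.H10.S4g
import Mathlib.Geometry.Manifold.ChartedSpace

/-!
# P284 (helper10), S4: cocompactness
-/

open scoped Manifold ContDiff Topology
open Filter Set Metric

noncomputable section

namespace Vale.Agent.P284.H10

open Vale.Agent.P272.K Vale.Agent.P284.H894.W Vale.Agent.P284.H894.G

section
variable {n : ℕ} {X : Type} [TopologicalSpace X] [ChartedSpace (Cm n) X] {E : Type}
  [TopologicalSpace E] {p : E → X}

theorem exists_compact_nhd (hp : IsCoveringMap p) (n : ℕ) [ChartedSpace (Cm n) X] (y : E) {O : Set E}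
    (hO : O ∈ 𝓝 y) : ∃ V ∈ 𝓝 y, V ⊆ O ∧ IsCompact V := by
  obtain ⟨e, ε, hε, hyε, hεO, -⟩ := exists_ch (n := n) hp y hO
  obtain ⟨r, hr, hb⟩ := Metric.nhds_basis_closedBall.mem_iff.1
    (ε.open_target.mem_nhds (ε.map_source hyε))
  refine ⟨ε.symm '' closedBall (ε y) r, ?_, ?_, ?_⟩
  · have h1 : closedBall (ε y) r ∈ 𝓝 (ε y) := closedBall_mem_nhds _ hr
    have h2 := ε.symm.map_nhds_eq (ε.map_source hyε)
    rw [ε.left_inv hyε] at h2
    rw [← h2]
    exact image_mem_map h1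
  · rintro _ ⟨z, hz, rfl⟩
    exact hεO (ε.map_target (hb hz))
  · exact (isCompact_closedBall _ _).image_of_continuousOn (ε.continuousOn_symm.mono hb)

theorem locallyCompact (hp : IsCoveringMap p) (n : ℕ) [ChartedSpace (Cm n) X] :
    LocallyCompactSpace E :=
  ⟨fun y O hO => by
    obtain ⟨V, h1, h2, h3⟩ := exists_compact_nhd hp n y hO
    exact ⟨V, h1, h2, h3⟩⟩

variable {Γ : Type} [Group Γ] [MulAction Γ E]

theorem exists_compact_X [CompactSpace X] (hp : IsGalois Γ p) (n : ℕ) [ChartedSpace (Cm n) X] :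
    ∃ C : Set E, IsCompact C ∧ ∀ y, ∃ γ : Γ, γ • y ∈ C := by
  choose s hs using hp.surj
  choose V hV _ hVc using fun x => exists_compact_nhd hp.cov n (s x) univ_mem
  have hn : ∀ x ∈ (univ : Set X), p '' V x ∈ 𝓝 x := by
    intro x _
    have h1 := hp.cov.isLocalHomeomorph.map_nhds_eq (s x)
    rw [hs x] at h1
    rw [← h1]
    exact image_mem_map (hV x)
  obtain ⟨t, -, ht⟩ := (isCompact_univ (X := X)).elim_nhds_subcover _ hn
  refine ⟨⋃ x ∈ t, V x, t.isCompact_biUnion fun x _ => hVc x, fun y => ?_⟩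
  obtain ⟨x, hx, y', hy', hyy⟩ := mem_iUnion₂.1 (ht (mem_univ (p y)))
  obtain ⟨γ, hγ⟩ := (hp.orb y y').1 hyy.symm
  exact ⟨γ, mem_iUnion₂.2 ⟨x, hx, hγ ▸ hy'⟩⟩

theorem exists_compact_G [CompactSpace X] (hp : IsGalois Γ p) (n : ℕ) [ChartedSpace (Cm n) X]
    {G : Subgroup Γ} (hG : G.FiniteIndex) :
    ∃ C : Set E, IsCompact C ∧ ∀ y, ∃ g ∈ G, g • y ∈ C := by
  obtain ⟨C, hC, hcov⟩ := exists_compact_X hp n
  have hfin : Finite (Γ ⧸ G) := inferInstance
  refine ⟨⋃ q : Γ ⧸ G, (fun y => (q.out)⁻¹ • y) '' C,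
    isCompact_iUnion fun q => hC.image (hp.cont _), fun y => ?_⟩
  obtain ⟨γ, hγ⟩ := hcov y
  refine ⟨((γ : Γ ⧸ G).out)⁻¹ * γ, ?_, mem_iUnion.2 ⟨(γ : Γ ⧸ G), γ • y, hγ, ?_⟩⟩
  · rw [← QuotientGroup.eq, QuotientGroup.out_eq']
  · show ((γ : Γ ⧸ G).out)⁻¹ • γ • y = _
    rw [mul_smul]

variable {w : Chart n X → Cm n → Matrix (Fin n) (Fin n) ℂ} {N : ℕ} {F : E → Cm N}
  {G K : Subgroup Γ} {c : Γ → Cm N}

theorem hol_continuous {B : ℝ} (hp : IsCoveringMap p) (hF : HolB p w F B) : Continuous F := by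
  rw [continuous_iff_continuousAt]
  intro y
  obtain ⟨e, ε, hε, hyε, -, -⟩ := exists_ch (n := n) hp y univ_mem
  have h1 : ContinuousAt (F ∘ ε.symm) (ε y) :=
    ((hε.diff hF _ (ε.map_source hyε)).differentiableAt
      (ε.open_target.mem_nhds (ε.map_source hyε))).continuousAt
  have h2 : ContinuousAt ((F ∘ ε.symm) ∘ ε) y := h1.comp (ε.continuousAt hyε)
  refine h2.congr ?_
  filter_upwards [ε.open_source.mem_nhds hyε] with y' hy'
  simp [ε.left_inv hy']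

theorem alb_continuous (hp : IsCoveringMap p) (hA : Alb p w G K F c) : Continuous F := by
  obtain ⟨B, hB⟩ := hA.hol
  exact hol_continuous hp hB

/-- `K` acts cocompactly over balls -/
theorem exists_compact_K [CompactSpace X] [Nonempty E] (hp : IsGalois Γ p)
    (hA : Alb p w G K F c) (r : ℝ) :
    ∃ C : Set E, IsCompact C ∧ ∀ y, ‖F y‖ ≤ r → ∃ k ∈ K, k • y ∈ C := by
  obtain ⟨C, hC, hcov⟩ := exists_compact_G hp n hA.fi
  have hFc := alb_continuous hp.cov hA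
  obtain ⟨M, hM⟩ := hC.exists_bound_of_continuousOn hFc.continuousOn
  have hfin := hA.disc (r + M)
  have hch : ∀ v ∈ {v | (∃ g ∈ G, c g = v) ∧ ‖v‖ ≤ r + M}, ∃ g ∈ G, c g = v := fun v hv => hv.1
  choose! s hs hsv using hch
  refine ⟨⋃ v ∈ {v | (∃ g ∈ G, c g = v) ∧ ‖v‖ ≤ r + M}, (fun y => (s v)⁻¹ • y) '' C,
    hfin.isCompact_biUnion fun v _ => hC.image (hp.cont _), fun y hy => ?_⟩
  obtain ⟨g, hg, hgy⟩ := hcov y
  have h1 : c g ∈ {v | (∃ g ∈ G, c g = v) ∧ ‖v‖ ≤ r + M} := by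
    refine ⟨⟨g, hg, rfl⟩, ?_⟩
    have h2 := hA.equiv g hg y
    have h3 : c g = F (g • y) - F y := by rw [h2]; simp
    rw [h3]
    have h4 := norm_sub_le (F (g • y)) (F y)
    have h5 := hM _ hgy
    linarith
  refine ⟨(s (c g))⁻¹ * g, ?_, mem_iUnion₂.2 ⟨c g, h1, g • y, hgy, ?_⟩⟩
  · have h2 := hs _ h1
    refine (hA.mem _).2 ⟨G.mul_mem (G.inv_mem h2) hg, ?_⟩
    have h3 := alb_add hA (s (c g)) h2 ((s (c g))⁻¹ * g) (G.mul_mem (G.inv_mem h2) hg)
    rw [mul_inv_cancel_left, hsv _ h1] at h3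
    simpa using h3.symm
  · show (s (c g))⁻¹ • g • y = _
    rw [mul_smul]

theorem K_smul (hA : Alb p w G K F c) {k : Γ} (hk : k ∈ K) (y : E) : F (k • y) = F y := by
  obtain ⟨h1, h2⟩ := (hA.mem k).1 hk
  rw [hA.equiv k h1, h2, add_zero]

theorem p_smul' (hp : IsGalois Γ p) (g : Γ) (y : E) : p (g • y) = p y :=
  ((hp.orb y (g • y)).2 ⟨g, rfl⟩).symm

theorem reg_smul (hp : IsGalois Γ p) (hA : Alb p w G K F c) {g : Γ} (hg : g ∈ G) {y : E}
    (hr : Reg (n := n) p F (g • y)) : Reg (n := n) p F y := by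
  intro e f he hf
  have h1 : Tendsto (fun y' => g⁻¹ • y') (𝓝 (g • y)) (𝓝 y) := by
    have := (hp.cont g⁻¹).tendsto (g • y)
    simpa using this
  have h2 : ∀ᶠ y' in 𝓝 (g • y), F y' = (fun z => f z + c g) (e (p y')) := by
    filter_upwards [h1.eventually hf] with y' hy'
    have h3 := hA.equiv g hg (g⁻¹ • y')
    rw [smul_inv_smul] at h3
    rw [h3, hy', p_smul' hp]
  have h3 := hr e (fun z => f z + c g) (by rwa [p_smul' hp]) h2
  rw [p_smul' hp] at h3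
  rwa [fderiv_add_const] at h3

theorem reg_smul_iff (hp : IsGalois Γ p) (hA : Alb p w G K F c) {g : Γ} (hg : g ∈ G) {y : E} :
    Reg (n := n) p F (g • y) ↔ Reg (n := n) p F y := by
  have : Nonempty E := ⟨y⟩
  refine ⟨reg_smul hp hA hg, fun h => reg_smul hp hA (G.inv_mem hg) ?_⟩
  simpa using h

end

end Vale.Agent.P284.H10
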