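import Vale.Agent.P284.H10.S4h

/-!
# P284 (helper10), S4a: off a closed thin set of values, the covering space is connected
-/

open scoped Manifold ContDiff Topology
open Filter Set Metric

noncomputable section

namespace Vale.Agent.P284.H10

open Vale.Agent.P272.K Vale.Agent.P284.H894.W Vale.Agent.P284.H894.G

theorem Cov.closedSubset {k : ℕ} {W : Type} [NormedAddCommGroup W] [NormedSpace ℂ W] {S : Set W}
    (h : Cov k S) (v : W) : Cov k ((fun x => x + v) '' S) :=
  h.image fun _ _ => (differentiableAt_id).add_const v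

theorem closed_of_balls {W : Type} [NormedAddCommGroup W] {D : Set W}
    (h : ∀ r : ℝ, IsClosed (D ∩ closedBall 0 r)) : IsClosed D := by
  rw [← closure_subset_iff_isClosed]
  intro y hy
  have h1 : y ∈ closure (D ∩ closedBall 0 (‖y‖ + 1)) := by
    rw [_root_.mem_closure_iff] at hy ⊢
    intro O hO hyO
    obtain ⟨z, ⟨hz1, hz2⟩, hzD⟩ := hy (O ∩ ball y 1) (hO.inter isOpen_ball) ⟨hyO, mem_ball_self one_pos⟩
    refine ⟨z, hz1, hzD, ?_⟩
    rw [mem_closedBall_zero_iff]
    rw [mem_ball, dist_eq_norm] at hz2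
    have := norm_add_le (z - y) y
    rw [sub_add_cancel] at this
    linarith
  exact ((h _).closure_subset_iff.2 le_rfl h1).1

section
variable {n : ℕ} {X : Type} [TopologicalSpace X] [ChartedSpace (Cm n) X] {E : Type}
  [TopologicalSpace E] {p : E → X} {Γ : Type} [Group Γ] [MulAction Γ E]
  {w : Chart n X → Cm n → Matrix (Fin n) (Fin n) ℂ} {N : ℕ} {F : E → Cm N}
  {G K : Subgroup Γ} {c : Γ → Cm N}

theorem countable_periods (hA : Alb p w G K F c) : (c '' (G : Set Γ)).Countable := by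
  have h1 : c '' (G : Set Γ) = ⋃ r : ℕ, {v | (∃ g ∈ G, c g = v) ∧ ‖v‖ ≤ r} := by
    ext v
    simp only [mem_iUnion]
    constructor
    · rintro ⟨g, hg, rfl⟩
      obtain ⟨r, hr⟩ := exists_nat_ge ‖c g‖
      exact ⟨r, ⟨g, hg, rfl⟩, hr⟩
    · rintro ⟨r, ⟨g, hg, rfl⟩, -⟩
      exact ⟨g, hg, rfl⟩
  rw [h1]
  exact countable_iUnion fun r => (hA.disc r).countable

variable [IsManifold 𝓘(ℂ, Cm n) ω X]

theorem closed_crit [CompactSpace X] [Nonempty E] (hp : IsGalois Γ p) (hA : Alb p w G K F c) :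
    IsClosed (F '' {y | ¬ Reg (n := n) p F y}) := by
  obtain ⟨B, hB⟩ := hA.hol
  have hFc := alb_continuous hp.cov hA
  refine closed_of_balls fun r => ?_
  obtain ⟨C, hC, hcov⟩ := exists_compact_K hp hA r
  have h1 : IsClosed {y | ¬ Reg (n := n) p F y} := (reg_open hp.cov hB).isClosed_compl
  have h2 : IsCompact (F '' (C ∩ {y | ¬ Reg (n := n) p F y})) := (hC.inter_right h1).image hFc
  have h3 : F '' {y | ¬ Reg (n := n) p F y} ∩ closedBall 0 r =
      F '' (C ∩ {y | ¬ Reg (n := n) p F y}) ∩ closedBall 0 r := by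
    ext v
    constructor
    · rintro ⟨⟨y, hy, rfl⟩, hv⟩
      obtain ⟨k, hk, hky⟩ := hcov y (mem_closedBall_zero_iff.1 hv)
      refine ⟨⟨k • y, ⟨hky, ?_⟩, K_smul hA hk y⟩, hv⟩
      intro h4
      exact hy ((reg_smul_iff hp hA ((hA.mem k).1 hk).1).1 h4)
    · rintro ⟨⟨y, ⟨-, hy⟩, rfl⟩, hv⟩
      exact ⟨⟨y, hy, rfl⟩, hv⟩
  rw [h3]
  exact h2.isClosed.inter isClosed_closedBall

theorem cov_crit [CompactSpace X] (hN : 1 ≤ N) (hp : IsGalois Γ p) (hA : Alb p w G K F c) :
    Cov (N - 1) (F '' {y | ¬ Reg (n := n) p F y}) := by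
  obtain ⟨B, hB⟩ := hA.hol
  obtain ⟨C, hC, hcov⟩ := exists_compact_G hp n hA.fi
  choose e ε hε hyε _ _ using fun y : E => exists_ch (n := n) hp.cov y univ_mem
  obtain ⟨t, ht⟩ := hC.elim_nhds_subcover (fun y => (ε y).source)
    fun y _ => (ε y).open_source.mem_nhds (hyε y)
  have h1 : F '' {y | ¬ Reg (n := n) p F y} ⊆
      ⋃ v ∈ c '' (G : Set Γ), ⋃ y ∈ (t : Set E), (fun x => x + -v) ''
        ((F ∘ (ε y).symm) '' {z ∈ (ε y).target |
          ¬ Function.Surjective (fderiv ℂ (F ∘ (ε y).symm) z)}) := by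
    rintro _ ⟨y, hy, rfl⟩
    obtain ⟨g, hg, hgy⟩ := hcov y
    obtain ⟨y₁, hy₁, hy₂⟩ := mem_iUnion₂.1 (ht.2 hgy)
    refine mem_iUnion₂.2 ⟨c g, ⟨g, hg, rfl⟩, mem_iUnion₂.2 ⟨y₁, hy₁, F (g • y),
      ⟨ε y₁ (g • y), ⟨(ε y₁).map_source hy₂, ?_⟩, ?_⟩, ?_⟩⟩
    · intro h2
      have h3 := ((hε y₁).reg_iff hp.cov hB hy₂).2 h2
      exact hy ((reg_smul_iff hp hA hg).1 h3)
    · show F ((ε y₁).symm (ε y₁ (g • y))) = _
      rw [(ε y₁).left_inv hy₂]
    · show F (g • y) + -c g = F y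
      rw [hA.equiv g hg]; simp
  refine Cov.mono (Cov.biUnion (countable_periods hA) fun v _ =>
    Cov.biUnion t.countable_toSet fun y _ => ?_) h1
  exact (crit_cov hN (ε y).open_target ((hε y).diff hB)).closedSubset _

theorem cov_poly (hN : 1 ≤ N) {a : MvPolynomial (Fin N) ℂ} (ha : a ≠ 0) :
    Cov (N - 1) {v : Cm N | MvPolynomial.eval v a = 0} := by
  have hd : Differentiable ℂ fun v : Cm N => MvPolynomial.eval v a := by
    intro v
    exact (AnalyticOnNhd.eval_mvPolynomial (𝕜 := ℂ) a v (mem_univ v)).differentiableAt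
  refine (cov_zero (n := N - 1) (U := univ) (by simp; omega) isOpen_univ hd.differentiableOn ?_).mono
    fun v hv => ⟨mem_univ _, hv⟩
  intro x _ hx
  obtain ⟨r, hr, hb⟩ := Metric.eventually_nhds_iff_ball.1 hx
  refine ha (MvPolynomial.funext_set (fun i => ball (x i) (r / 2)) (fun i => ?_) fun y hy => ?_)
  · exact infinite_of_mem_nhds (x i) (ball_mem_nhds _ (by positivity))
  · rw [map_zero]
    refine hb y ?_
    rw [mem_ball, dist_pi_lt_iff hr]
    intro i
    have h1 := hy i (mem_univ i)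
    rw [mem_ball] at h1
    linarith

/-- off a closed thin set of values, the covering space is connected -/
theorem s4aStmt : S4aStmt := by
  intro n X _ _ _ _ _ _ w hw E Γ _ _ _ _ p hp G K N F c hA hex a ha
  obtain ⟨B, hB⟩ := hA.hol
  have hFc := alb_continuous hp.cov hA
  rcases Nat.eq_zero_or_pos N with rfl | hN
  · refine ⟨∅, isClosed_empty, interior_empty, ?_, ?_, ?_⟩
    · intro v hv
      exfalso
      apply ha
      refine MvPolynomial.funext fun v' => ?_
      rw [Subsingleton.elim v' v, hv, map_zero]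
    · intro y hy
      exfalso
      apply hy
      intro e f _ _
      exact Function.surjective_to_subsingleton _
    · simpa using isPreconnected_univ
  set D := F '' {y | ¬ Reg (n := n) p F y} with hD
  set T := D ∪ {v | MvPolynomial.eval v a = 0} with hT
  have hTc : Cov (N - 1) T := (cov_crit hN hp hA).union (cov_poly hN ha)
  have hTcl : IsClosed T := by
    exact (closed_crit hp hA).union (isClosed_eq (MvPolynomial.continuous_eval a) continuous_const)
  refine ⟨T, hTcl, ?_, fun v hv => Or.inr hv, fun y hy => Or.inl ⟨y, hy, rfl⟩, ?_⟩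
  · by_contra h1
    obtain ⟨v, hv1, hv2⟩ := nonempty_diff (S := T) (hTc.mono inter_subset_left) (by simp; omega)
      isOpen_interior (nonempty_iff_ne_empty.2 h1)
    exact hv2 (interior_subset hv1)
  have hdense := reg_dense hN hp.cov hB hex
  -- local structure
  have hloc : ∀ (e : Chart n X) (ε : OpenPartialHomeomorph E (Cm n)), IsCh p e ε →
      Convex ℝ ε.target → ε.source.Nonempty →
      Cov (n - 1) ((F ∘ ε.symm) ⁻¹' T ∩ ε.target) ∧ n - 1 + 1 = n := by
    intro e ε hε hc hne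
    obtain ⟨y, hy1, hy2⟩ := hdense.inter_open_nonempty _ ε.open_source hne
    have h2 := (hε.reg_iff hp.cov hB hy1).1 hy2
    refine ⟨local_cov hN ε.open_target hc (hε.diff hB) ⟨_, ε.map_source hy1, h2⟩ hTc, ?_⟩
    have := N_le_n h2
    omega
  have hpc : F ⁻¹' Tᶜ = (F ⁻¹' T)ᶜ := rfl
  rw [hpc]
  refine preconn_compl ?_ ?_
  · intro y
    rw [mem_closure_iff_nhds]
    intro O hO
    obtain ⟨e, ε, hε, hyε, hεO, hc⟩ := exists_ch (n := n) hp.cov y hO
    obtain ⟨h1, h2⟩ := hloc e ε hε hc ⟨y, hyε⟩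
    obtain ⟨z, hz1, hz2⟩ := nonempty_diff h1 (by simp; omega) ε.open_target
      ⟨_, ε.map_source hyε⟩
    exact ⟨ε.symm z, hεO (ε.map_target hz1), hz2⟩
  · intro y
    obtain ⟨e, ε, hε, hyε, -, hc⟩ := exists_ch (n := n) hp.cov y univ_mem
    obtain ⟨h1, h2⟩ := hloc e ε hε hc ⟨y, hyε⟩
    refine ⟨ε.source, ε.open_source, hyε, ?_⟩
    have h3 := preconn_diff h1 (by simp; omega) ε.open_target hc
    have h4 : ε.source \ F ⁻¹' T = ε.symm '' (ε.target \ (F ∘ ε.symm) ⁻¹' T) := by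
      ext y'
      constructor
      · rintro ⟨h5, h6⟩
        refine ⟨ε y', ⟨ε.map_source h5, ?_⟩, ε.left_inv h5⟩
        show ¬ F (ε.symm (ε y')) ∈ T
        rw [ε.left_inv h5]
        exact h6
      · rintro ⟨z, ⟨h5, h6⟩, rfl⟩
        exact ⟨ε.map_target h5, h6⟩
    rw [h4]
    exact h3.image _ (ε.continuousOn_symm.mono sdiff_subset)

end

end Vale.Agent.P284.H10
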