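import Vale.Agent.P284.H894.W.Spec2

/-!
# P284 (helper10), S4c: the count of the components of the fibres (abstract half)
-/

open scoped Topology
open Filter Set

noncomputable section

namespace Vale.Agent.P284.H10

open Vale.Agent.P272.K Vale.Agent.P284.H894.W

section
variable {E : Type} [TopologicalSpace E] {N : ℕ} {F : E → Cm N}

theorem same_refl (y : E) : Same F y y := mem_connectedComponentIn rfl

theorem same_val {y y' : E} (h : Same F y y') : F y' = F y :=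
  connectedComponentIn_subset (F ⁻¹' {F y}) y h

theorem same_symm {y y' : E} (h : Same F y y') : Same F y' y := by
  have h1 := same_val h
  unfold Same at h ⊢
  rw [h1, ← connectedComponentIn_eq h]
  exact mem_connectedComponentIn rfl

theorem same_trans {y y' y'' : E} (h : Same F y y') (h' : Same F y' y'') : Same F y y'' := by
  have h1 := same_val h
  unfold Same at h h' ⊢
  rw [h1, ← connectedComponentIn_eq h] at h'
  exact h'

theorem same_smul {Γ : Type} [Group Γ] [MulAction Γ E] (hcont : ∀ γ : Γ, Continuous fun y : E => γ • y)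
    {K : Subgroup Γ} (hK : ∀ k ∈ K, ∀ y, F (k • y) = F y) {k : Γ} (hk : k ∈ K) {y y' : E}
    (h : Same F y y') : Same F (k • y) (k • y') := by
  have h1 : IsPreconnected ((fun y => k • y) '' connectedComponentIn (F ⁻¹' {F y}) y) :=
    isPreconnected_connectedComponentIn.image _ (hcont k).continuousOn
  refine h1.subset_connectedComponentIn ⟨y, mem_connectedComponentIn rfl, rfl⟩ ?_ ⟨y', h, rfl⟩
  rintro _ ⟨v, hv, rfl⟩
  have h2 : F v = F y := connectedComponentIn_subset (F ⁻¹' {F y}) y hv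
  show F (k • v) = F (k • y)
  rw [hK k hk, hK k hk, h2]

/-- every component of a fibre over `Tᶜ` is met by `f` -/
theorem count_meet {Z : Type} [TopologicalSpace Z] (hF : Continuous F) {T : Set (Cm N)}
    (hT : IsClosed T) (hpre : IsPreconnected (F ⁻¹' Tᶜ))
    (hb : ∀ y₀ ∉ T, ∀ y y', F y = y₀ → F y' = y₀ → ∃ U ∈ 𝓝 y, ∃ U' ∈ 𝓝 y', ∀ x ∈ U, ∀ x' ∈ U',
      F x = F x' → (Same F x x' ↔ Same F y y'))
    {R : Z → Cm N} {f : Z → E} (hf : Continuous f) (hR : ∀ z, F (f z) = R z)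
    (hop : ∀ z, R z ∉ T → ∀ V ∈ 𝓝 z, R '' V ∈ 𝓝 (R z))
    (hprop : ∀ y ∉ T, ∃ B ∈ 𝓝 y, ∃ Q : Set Z, IsCompact Q ∧ ∀ z, R z ∈ B → z ∈ Q)
    (hfin : ∀ y ∉ T, {z | R z = y}.Finite) (hne : ∃ z, R z ∉ T) (x : E) (hx : F x ∉ T) :
    ∃ z, R z = F x ∧ Same F x (f z) := by
  have hRc : Continuous R := by
    have : R = F ∘ f := by ext z : 1; exact (hR z).symm
    rw [this]
    exact hF.comp hf
  set A : Set E := {x | F x ∉ T ∧ ∃ z, R z = F x ∧ Same F x (f z)} with hA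
  have hTo : IsOpen (F ⁻¹' Tᶜ) := hT.isOpen_compl.preimage hF
  have hAo : IsOpen A := by
    rw [isOpen_iff_mem_nhds]
    rintro x ⟨hx, z, hz, hs⟩
    obtain ⟨U, hU, U', hU', hUU⟩ := hb _ hx x (f z) rfl ((hR z).trans hz)
    have h1 : R '' (f ⁻¹' U') ∈ 𝓝 (F x) := by
      rw [← hz]
      exact hop z (by rw [hz]; exact hx) _ (hf.continuousAt hU')
    filter_upwards [hU, hTo.mem_nhds hx, hF.continuousAt h1] with x₁ h2 h3 h4
    obtain ⟨z₁, hz₁, h5⟩ := h4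
    exact ⟨h3, z₁, h5, (hUU x₁ h2 (f z₁) hz₁ ((hR z₁).trans h5).symm).2 hs⟩
  have hAc : IsOpen (F ⁻¹' Tᶜ \ A) := by
    rw [isOpen_iff_mem_nhds]
    rintro x ⟨hx, hxA⟩
    have h0 : ∀ z ∈ {z | R z = F x}, ¬ Same F x (f z) := fun z hz hs => hxA ⟨hx, z, hz, hs⟩
    have hch : ∀ z ∈ {z | R z = F x}, ∃ U ∈ 𝓝 x, ∃ V : Set Z, IsOpen V ∧ z ∈ V ∧
        ∀ x₁ ∈ U, ∀ z₁ ∈ V, F x₁ = R z₁ → ¬ Same F x₁ (f z₁) := by
      intro z hz
      obtain ⟨U, hU, U', hU', hUU⟩ := hb _ hx x (f z) rfl ((hR z).trans hz)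
      refine ⟨U, hU, interior (f ⁻¹' U'), isOpen_interior,
        mem_interior_iff_mem_nhds.2 (hf.continuousAt hU'), fun x₁ hx₁ z₁ hz₁ h1 h2 => ?_⟩
      exact h0 z hz ((hUU x₁ hx₁ (f z₁) (interior_subset (s := f ⁻¹' U') hz₁)
        (h1.trans (hR z₁).symm)).1 h2)
    choose! U hU V hVo hzV hUV using hch
    obtain ⟨B, hB, Q, hQ, hBQ⟩ := hprop _ hx
    set O := ⋃ z ∈ {z | R z = F x}, V z with hO
    have hOo : IsOpen O := isOpen_biUnion fun z hz => hVo z hz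
    have h1 : IsCompact (R '' (Q \ O)) := (hQ.diff hOo).image hRc
    have h2 : F x ∉ R '' (Q \ O) := by
      rintro ⟨z, ⟨-, hz2⟩, hz3⟩
      exact hz2 (mem_iUnion₂.2 ⟨z, hz3, hzV z hz3⟩)
    have h3 : (R '' (Q \ O))ᶜ ∈ 𝓝 (F x) := h1.isClosed.isOpen_compl.mem_nhds h2
    have h4 : ⋂ z ∈ {z | R z = F x}, U z ∈ 𝓝 x := (biInter_mem (hfin _ hx)).2 hU
    filter_upwards [h4, hTo.mem_nhds hx, hF.continuousAt hB, hF.continuousAt h3]
      with x₁ h5 h6 h7 h8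
    refine ⟨h6, ?_⟩
    rintro ⟨-, z₁, hz₁, hs⟩
    have h9 : z₁ ∈ Q := hBQ z₁ (by rw [hz₁]; exact h7)
    have h10 : z₁ ∈ O := by
      by_contra h11
      exact h8 ⟨z₁, ⟨h9, h11⟩, hz₁⟩
    obtain ⟨z, hz, h12⟩ := mem_iUnion₂.1 h10
    exact hUV z hz x₁ (mem_iInter₂.1 h5 z hz) z₁ h12 hz₁.symm hs
  by_contra hcon
  obtain ⟨z₀, hz₀⟩ := hne
  obtain ⟨y, -, hy1, hy2⟩ := hpre A (F ⁻¹' Tᶜ \ A) hAo hAc
    (fun y hy => by
      by_cases h : y ∈ A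
      · exact Or.inl h
      · exact Or.inr ⟨hy, h⟩)
    ⟨f z₀, by rw [mem_preimage, hR]; exact hz₀,
      by rw [hR]; exact hz₀, z₀, (hR z₀).symm, same_refl _⟩
    ⟨x, hx, hx, fun h => hcon h.2⟩
  exact hy2.2 hy1

/-- the abstract half of `S4cStmt` -/
theorem count_abs {Γ Z : Type} [TopologicalSpace Z] [Group Γ] [MulAction Γ E]
    {K : Subgroup Γ} (hF : Continuous F) (hcont : ∀ γ : Γ, Continuous fun y : E => γ • y)
    (hK : ∀ k ∈ K, ∀ y, F (k • y) = F y) {T : Set (Cm N)}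
    (hT : IsClosed T) (hpre : IsPreconnected (F ⁻¹' Tᶜ))
    (hb : ∀ y₀ ∉ T, ∀ y y', F y = y₀ → F y' = y₀ → ∃ U ∈ 𝓝 y, ∃ U' ∈ 𝓝 y', ∀ x ∈ U, ∀ x' ∈ U',
      F x = F x' → (Same F x x' ↔ Same F y y'))
    (hb2 : ∀ y₀ ∉ T, ∀ x, F x = y₀ →
      ∃ O : Set E, IsOpen O ∧ connectedComponentIn (F ⁻¹' {F x}) x = F ⁻¹' {F x} ∩ O)
    (hb3 : ∀ y₀ ∉ T, ∃ Q : Set E, IsCompact Q ∧ ∀ y, F y = y₀ → ∃ k ∈ K, k • y ∈ Q)
    {R : Z → Cm N} {f : Z → E} (hf : Continuous f) (hR : ∀ z, F (f z) = R z)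
    (hop : ∀ z, R z ∉ T → ∀ V ∈ 𝓝 z, R '' V ∈ 𝓝 (R z))
    (hprop : ∀ y ∉ T, ∃ B ∈ 𝓝 y, ∃ Q : Set Z, IsCompact Q ∧ ∀ z, R z ∈ B → z ∈ Q)
    (hfin : ∀ y ∉ T, {z | R z = y}.Finite) (hne : ∃ z, R z ∉ T) (x : E) (hx : F x ∉ T) :
    ∃ S : Subgroup Γ, S ≤ K ∧ (S.subgroupOf K).FiniteIndex ∧
      (∀ s ∈ S, ∀ y ∈ connectedComponentIn (F ⁻¹' {F x}) x,
        s • y ∈ connectedComponentIn (F ⁻¹' {F x}) x) ∧
      (∃ O : Set E, IsOpen O ∧ connectedComponentIn (F ⁻¹' {F x}) x = F ⁻¹' {F x} ∩ O) ∧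
      ∃ Q : Set E, IsCompact Q ∧ ∀ y ∈ connectedComponentIn (F ⁻¹' {F x}) x,
        ∃ s ∈ S, s • y ∈ Q := by
  have hmeet := count_meet hF hT hpre hb hf hR hop hprop hfin hne
  have hsm : ∀ {k : Γ}, k ∈ K → ∀ {y y' : E}, Same F y y' → Same F (k • y) (k • y') :=
    fun hk _ _ h => same_smul hcont hK hk h
  let S : Subgroup Γ :=
    { carrier := {γ | γ ∈ K ∧ Same F x (γ • x)}
      mul_mem' := by
        rintro a b ⟨ha, ha'⟩ ⟨hb, hb'⟩
        refine ⟨K.mul_mem ha hb, ?_⟩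
        rw [mul_smul]
        exact same_trans ha' (hsm ha hb')
      one_mem' := ⟨K.one_mem, by rw [one_smul]; exact same_refl x⟩
      inv_mem' := by
        rintro a ⟨ha, ha'⟩
        refine ⟨K.inv_mem ha, ?_⟩
        have h1 := hsm (K.inv_mem ha) ha'
        rw [inv_smul_smul] at h1
        exact same_symm h1 }
  have hSK : S ≤ K := fun γ hγ => hγ.1
  have hS : ∀ {γ : Γ}, γ ∈ S ↔ γ ∈ K ∧ Same F x (γ • x) := Iff.rfl
  have hfib : ∀ k : K, ∃ z, R z = F x ∧ Same F ((k : Γ) • x) (f z) := by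
    intro k
    obtain ⟨z, h1, h2⟩ := hmeet ((k : Γ) • x) (by rw [hK _ k.2]; exact hx)
    rw [hK _ k.2] at h1
    exact ⟨z, h1, h2⟩
  choose ζ hζ1 hζ2 using hfib
  have hfq : Finite (K ⧸ S.subgroupOf K) := by
    have : Finite {z | R z = F x} := (hfin _ hx).to_subtype
    refine Finite.of_injective (β := {z | R z = F x})
      (fun q => ⟨ζ q.out, hζ1 _⟩) ?_
    intro q₁ q₂ hq
    have h1 : ζ q₁.out = ζ q₂.out := congrArg Subtype.val hq
    rw [← QuotientGroup.out_eq' q₁, ← QuotientGroup.out_eq' q₂, QuotientGroup.eq]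
    rw [Subgroup.mem_subgroupOf]
    refine hS.2 ⟨(_ : K).2, ?_⟩
    have h2 := hζ2 q₁.out
    have h3 := hζ2 q₂.out
    rw [← h1] at h3
    have h4 := same_trans h2 (same_symm h3)
    have h5 := hsm (K.inv_mem q₁.out.2) h4
    rw [inv_smul_smul] at h5
    simpa [mul_smul] using h5
  refine ⟨S, hSK, Subgroup.finiteIndex_of_finite_quotient, ?_, hb2 _ hx x rfl, ?_⟩
  · intro s hs y hy
    exact same_trans (hS.1 hs).2 (hsm (hSK hs) hy)
  · obtain ⟨Q, hQ, hcov⟩ := hb3 _ hx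
    refine ⟨⋃ q : K ⧸ S.subgroupOf K, (fun y => ((q.out : K) : Γ)⁻¹ • y) '' Q,
      isCompact_iUnion fun q => hQ.image (hcont _), fun y hy => ?_⟩
    obtain ⟨k, hk, hky⟩ := hcov y (same_val hy)
    set q : K ⧸ S.subgroupOf K := ((⟨k, hk⟩ : K) : K ⧸ S.subgroupOf K) with hq
    refine ⟨((q.out : K) : Γ)⁻¹ * k, ?_, mem_iUnion.2 ⟨q, k • y, hky, ?_⟩⟩
    · have h1 : (q.out)⁻¹ * (⟨k, hk⟩ : K) ∈ S.subgroupOf K := by
        rw [← QuotientGroup.eq, QuotientGroup.out_eq']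
      rw [Subgroup.mem_subgroupOf] at h1
      simpa using h1
    · show ((q.out : K) : Γ)⁻¹ • k • y = _
      rw [mul_smul]

end

end Vale.Agent.P284.H10
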