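import Vale.Agent.P284.H10.S4i
import Vale.Agent.P284.H10.S4j
import Vale.Agent.P284.H913.C1
import Vale.Agent.P284.H913.SheetEx

/-!
# P284 (helper10), S4c: assembly
-/

open scoped Manifold ContDiff Topology
open Filter Set Metric

noncomputable section

namespace Vale.Agent.P284.H10

open Vale.Agent.P272.K Vale.Agent.P284.H894.W Vale.Agent.P284.H894.G Vale.Agent.P284.H913.Ex

/-- the restriction of a polynomial to an affine plane -/
def plane {n N : ℕ} (ζ₀ : Cm n) (A : Cm N →ₗ[ℂ] Cm n) (Q : MvPolynomial (Fin n) ℂ) :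
    MvPolynomial (Fin N) ℂ :=
  MvPolynomial.aeval (fun k => MvPolynomial.C (ζ₀ k) +
    ∑ l, MvPolynomial.C (A (Pi.single l 1) k) * MvPolynomial.X l) Q

theorem eval_plane {n N : ℕ} (ζ₀ : Cm n) (A : Cm N →ₗ[ℂ] Cm n) (Q : MvPolynomial (Fin n) ℂ)
    (s : Cm N) : MvPolynomial.eval s (plane ζ₀ A Q) = MvPolynomial.eval (ζ₀ + A s) Q := by
  have h0 : ∀ k, ∑ l, A (Pi.single l 1) k * s l = A s k := by
    intro k
    have h1 : s = ∑ l, s l • (Pi.single l 1 : Cm N) := by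
      ext i
      simp [Finset.sum_apply, Pi.single_apply]
    conv_rhs => rw [h1, map_sum]
    simp [Finset.sum_apply, mul_comm]
  unfold plane
  induction Q using MvPolynomial.induction_on with
  | C a => simp
  | add p q hp hq => simp only [map_add, hp, hq]
  | mul_X p k hp =>
    rw [map_mul, map_mul, map_mul, hp, MvPolynomial.aeval_X, MvPolynomial.eval_X]
    congr 1
    simp only [map_add, MvPolynomial.eval_C, map_sum, map_mul, MvPolynomial.eval_X]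
    rw [h0 k]
    rfl

theorem contDiff_RR {N : ℕ} (R : Fin N → MvPolynomial (Fin N) ℂ) (z : Cm N) :
    ContDiffAt ℂ ω (RR R) z := by
  rw [contDiffAt_pi]
  intro i
  exact (AnalyticOnNhd.eval_mvPolynomial (𝕜 := ℂ) (R i) z (mem_univ z)).contDiffAt

theorem open_RR {N : ℕ} (R : Fin N → MvPolynomial (Fin N) ℂ) {z : Cm N}
    (h : MvPolynomial.eval z (JP R).det ≠ 0) : map (RR R) (𝓝 z) = 𝓝 (RR R z) := by
  have h1 : HasStrictFDerivAt (RR R) (LinearMap.toContinuousLinearMap (Matrix.toLin' (J R z))) z :=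
    (contDiff_RR R z).hasStrictFDerivAt' (hasFDerivAt_RR R z) (by simp)
  refine h1.map_nhds_eq_of_surj ?_
  rw [LinearMap.range_eq_top]
  rw [← J_det] at h
  have h2 : IsUnit (J R z) := (Matrix.isUnit_iff_isUnit_det _).2 (isUnit_iff_ne_zero.2 h)
  intro v
  refine ⟨((J R z)⁻¹).mulVec v, ?_⟩
  show Matrix.toLin' (J R z) _ = v
  rw [Matrix.toLin'_apply, Matrix.mulVec_mulVec, Matrix.mul_nonsing_inv _ (isUnit_iff_ne_zero.2 h),
    Matrix.one_mulVec]

section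
variable {n : ℕ} {X : Type} [TopologicalSpace X] [ChartedSpace (Cm n) X] {E : Type}
  [TopologicalSpace E] {p : E → X} 
  {w : Chart n X → Cm n → Matrix (Fin n) (Fin n) ℂ} {N : ℕ} {F : E → Cm N}
  [IsManifold 𝓘(ℂ, Cm n) ω X]

theorem reg_of_map {B : ℝ} (hp : IsCoveringMap p) (hF : HolB p w F B) {Φ : Cm n → X}
    (hΦ : ContMDiff 𝓘(ℂ, Cm n) 𝓘(ℂ, Cm n) ω Φ) {Φl : Cm n → E} (hΦl : Continuous Φl)
    (hpΦ : ∀ ζ, p (Φl ζ) = Φ ζ) {ζ : Cm n}
    (h : Function.Surjective (fderiv ℂ (fun ζ => F (Φl ζ)) ζ)) : Reg (n := n) p F (Φl ζ) := by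
  obtain ⟨e, ε, hε, hyε, -, -⟩ := exists_ch (n := n) hp (Φl ζ) univ_mem
  rw [hε.reg_iff hp hF hyε]
  have hat := hε.at hyε
  rw [hpΦ] at hat
  have h1 : DifferentiableAt ℂ (fun ζ => e (Φ ζ)) ζ := by
    have h2 : ContMDiffAt 𝓘(ℂ, Cm n) 𝓘(ℂ, Cm n) ω (fun ζ => e (Φ ζ)) ζ :=
      (chart_contMDiffAt hat).comp ζ (hΦ ζ)
    exact (contMDiffAt_iff_contDiffAt.1 h2).differentiableAt (by simp)
  have h2 : (fun ζ => F (Φl ζ)) =ᶠ[𝓝 ζ] fun ζ => (F ∘ ε.symm) (e (Φ ζ)) := by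
    filter_upwards [hΦl.continuousAt (ε.open_source.mem_nhds hyε)] with ζ' hζ'
    rw [← hpΦ, ← hε.eq _ hζ']
    show _ = F (ε.symm (ε (Φl ζ')))
    rw [ε.left_inv hζ']
  have h3 : e (Φ ζ) = ε (Φl ζ) := by rw [hε.eq _ hyε, hpΦ]
  have h4 : DifferentiableAt ℂ (F ∘ ε.symm) (e (Φ ζ)) := by
    rw [h3]
    exact (hε.diff hF _ (ε.map_source hyε)).differentiableAt
      (ε.open_target.mem_nhds (ε.map_source hyε))
  have h5 : fderiv ℂ (fun ζ => (F ∘ ε.symm) (e (Φ ζ))) ζ =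
      (fderiv ℂ (F ∘ ε.symm) (e (Φ ζ))).comp (fderiv ℂ (fun ζ => e (Φ ζ)) ζ) :=
    fderiv_comp (g := F ∘ ε.symm) (f := fun ζ => e (Φ ζ)) _ h4 h1
  rw [h2.fderiv_eq, h5, h3] at h
  intro v
  obtain ⟨u, hu⟩ := h v
  exact ⟨_, hu⟩

end

theorem s4cStmt : S4cStmt := by
  intro hSa hSb n X _ _ _ _ _ _ w hw Φ hΦ E Γ _ _ _ _ p hp G K N F c hA Φl hΦl hpΦ P hP hex
  obtain ⟨B, hB⟩ := hA.hol
  obtain ⟨ζ₀, hζ₀⟩ := hex
  obtain ⟨A, hAr⟩ := (fderiv ℂ (fun ζ => F (Φl ζ)) ζ₀ :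
    Cm n →ₗ[ℂ] Cm N).exists_rightInverse_of_surjective (LinearMap.range_eq_top.2 hζ₀)
  set R : Fin N → MvPolynomial (Fin N) ℂ := fun i => plane ζ₀ A (P i) with hR
  have hRe : ∀ s, RR R s = F (Φl (ζ₀ + A s)) := by
    intro s
    funext i
    rw [hP]
    exact eval_plane ζ₀ A (P i) s
  have hAc : Continuous A := A.continuous_of_finiteDimensional
  have hd0 : MvPolynomial.eval 0 (JP R).det ≠ 0 := by
    have h1 := hasFDerivAt_RR R 0
    have h2 : DifferentiableAt ℂ (fun ζ => F (Φl ζ)) ζ₀ := by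
      have h3 : (fun ζ => F (Φl ζ)) = fun ζ i => MvPolynomial.eval ζ (P i) := by
        funext ζ i
        exact hP ζ i
      rw [h3, differentiableAt_pi]
      intro i
      exact (AnalyticOnNhd.eval_mvPolynomial (𝕜 := ℂ) (P i) ζ₀ (mem_univ _)).differentiableAt
    have h3 : HasFDerivAt (fun s : Cm N => ζ₀ + A s) (LinearMap.toContinuousLinearMap A) 0 :=
      ((LinearMap.toContinuousLinearMap A).hasFDerivAt).const_add ζ₀
    have h4 : HasFDerivAt (fun ζ => F (Φl ζ)) (fderiv ℂ (fun ζ => F (Φl ζ)) ζ₀)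
        ((fun s : Cm N => ζ₀ + A s) 0) := by
      show HasFDerivAt _ _ (ζ₀ + A 0)
      rw [map_zero, add_zero]
      exact h2.hasFDerivAt
    have h5 := h4.comp (0 : Cm N) h3
    have h6 : (fun ζ => F (Φl ζ)) ∘ (fun s : Cm N => ζ₀ + A s) = RR R := by
      funext s
      exact (hRe s).symm
    rw [h6] at h5
    have h7 := h1.unique h5
    have h8 : Matrix.toLin' (J R 0) = LinearMap.id := by
      rw [← hAr]
      refine LinearMap.ext fun v => ?_
      exact congrArg (fun L => L v) h7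
    rw [← J_det, ← LinearMap.det_toLin', h8, LinearMap.det_id]
    exact one_ne_zero
  have hdet : (JP R).det ≠ 0 := by
    intro h
    rw [h, map_zero] at hd0
    exact hd0 rfl
  obtain ⟨a, ha0, s, D, C, hC, hz, hfin⟩ := Vale.Agent.P284.H913.C1.c1 R hdet
  obtain ⟨T, hT, hTi, hTa, hTr, hpre⟩ := hSa n X w hw E Γ p hp G K N F c hA
    ⟨_, reg_of_map hp.cov hB hΦ hΦl hpΦ hζ₀⟩ a ha0
  have haT : ∀ v ∉ T, MvPolynomial.eval v a ≠ 0 := fun v hv h => hv (hTa v h)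
  have hreg : ∀ y₀ ∉ T, ∀ y, F y = y₀ → Reg (n := n) p F y := fun y₀ h y hy => by
    by_contra h1
    exact h (hy ▸ hTr y h1)
  refine ⟨T, hT, hTi, fun x hx => ⟨fun y hy => hreg _ hx y hy, ?_⟩⟩
  refine count_abs (Z := Cm N) (R := RR R) (f := fun s => Φl (ζ₀ + A s))
    (alb_continuous hp.cov hA) hp.cont (fun k hk y => K_smul hA hk y) hT hpre
    (fun y₀ h => (hSb n X w hw E Γ p hp G K N F c hA y₀ (hreg y₀ h)).1)
    (fun y₀ h => (hSb n X w hw E Γ p hp G K N F c hA y₀ (hreg y₀ h)).2.1)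
    (fun y₀ h => (hSb n X w hw E Γ p hp G K N F c hA y₀ (hreg y₀ h)).2.2)
    (hΦl.comp (continuous_const.add hAc)) (fun z => (hRe z).symm) ?_ ?_
    (fun y hy => (hfin y (haT y hy)).1) ?_ x hx
  · intro z hzT V hV
    have h1 : MvPolynomial.eval z (JP R).det ≠ 0 := by
      intro h
      have h2 := (hz z).2
      have h3 : MvPolynomial.eval z (Matrix.of fun i j => MvPolynomial.pderiv j (R i)).det = 0 := h
      rw [h3, norm_zero, mul_zero] at h2
      exact haT _ hzT (norm_le_zero_iff.1 h2)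
    rw [← open_RR R h1]
    exact image_mem_map hV
  · intro y hy
    have hy0 : 0 < ‖MvPolynomial.eval y a‖ := norm_pos_iff.2 (haT y hy)
    have hc : Continuous fun v : Cm N => ‖MvPolynomial.eval v a‖ :=
      (MvPolynomial.continuous_eval a).norm
    set M := C * (1 + (‖y‖ + 1)) ^ s / (‖MvPolynomial.eval y a‖ / 2) with hM
    have hM0 : 0 ≤ M := by positivity
    refine ⟨{v | ‖MvPolynomial.eval y a‖ / 2 < ‖MvPolynomial.eval v a‖} ∩ {v | ‖v‖ < ‖y‖ + 1},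
      inter_mem ((isOpen_lt continuous_const hc).mem_nhds (by simp only [mem_ofPred_eq]; linarith))
        ((isOpen_lt continuous_norm continuous_const).mem_nhds (by simp)),
      closedBall 0 M, isCompact_closedBall _ _, ?_⟩
    rintro z ⟨hz1, hz2⟩
    rw [mem_closedBall_zero_iff, pi_norm_le_iff_of_nonneg hM0]
    intro j
    have h1 := (hz z).1 j
    have h2 : ‖z j‖ * (‖MvPolynomial.eval y a‖ / 2) ≤ C * (1 + (‖y‖ + 1)) ^ s := by
      calc ‖z j‖ * (‖MvPolynomial.eval y a‖ / 2) ≤ ‖z j‖ * ‖MvPolynomial.eval (RR R z) a‖ :=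
            mul_le_mul_of_nonneg_left (le_of_lt hz1) (norm_nonneg _)
        _ ≤ C * (1 + ‖RR R z‖) ^ s := h1
        _ ≤ _ := by
            have h3 : ‖RR R z‖ ≤ ‖y‖ + 1 := le_of_lt hz2
            gcongr
    rw [hM, le_div_iff₀ (by positivity)]
    exact h2
  · by_contra hcon
    push Not at hcon
    have h1 : T ∈ map (RR R) (𝓝 0) := by
      refine mem_map.2 (univ_mem' hcon)
    rw [open_RR R hd0] at h1
    have h2 := mem_interior_iff_mem_nhds.2 h1
    rw [hTi] at h2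
    exact h2

end Vale.Agent.P284.H10
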