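import Vale.Agent.P284.H10.T10a
import Mathlib.MeasureTheory.Measure.Haar.NormedSpace
import Mathlib.MeasureTheory.Measure.Haar.Unique
import Mathlib.Analysis.InnerProductSpace.Defs
import Mathlib.Analysis.Normed.Module.HahnBanach
import Mathlib.Analysis.Normed.Module.FiniteDimension
import Mathlib.MeasureTheory.Integral.Bochner.Set

/-!
# P284, theorem T, row T10 (helper10): from the space `AA S` to orthogonal cocycles

A function `b ∈ AA S` is, up to a constant, a coefficient of a cocycle with values in a finite-dimensional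
orthogonal representation.
-/

open Function MeasureTheory Metric Set

noncomputable section

namespace Vale.Agent.P284.H10.T

/-! ### Invariant inner product for isometries of a finite-dimensional normed space -/

theorem map_haar_eq {D : Type*} [NormedAddCommGroup D] [NormedSpace ℝ D] [FiniteDimensional ℝ D]
    [MeasurableSpace D] [BorelSpace D] (T : D ≃L[ℝ] D) (hT : ∀ x, ‖T x‖ = ‖x‖) :
    Measure.map T (Measure.addHaar : Measure D) = Measure.addHaar := by
  have hdet : LinearMap.det (T.toLinearEquiv : D →ₗ[ℝ] D) ≠ 0 :=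
    (LinearEquiv.isUnit_det' T.toLinearEquiv).ne_zero
  have h1 := Measure.map_linearMap_addHaar_eq_smul_addHaar (Measure.addHaar : Measure D) hdet
  have h1' : Measure.map T (Measure.addHaar : Measure D) =
      ENNReal.ofReal |(LinearMap.det (T.toLinearEquiv : D →ₗ[ℝ] D))⁻¹| • Measure.addHaar := h1
  have h2 : Measure.map T (Measure.addHaar : Measure D) (closedBall 0 1)
      = (Measure.addHaar : Measure D) (closedBall 0 1) := by
    rw [Measure.map_apply T.continuous.measurable measurableSet_closedBall]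
    congr 1
    ext x
    simp [hT]
  have h3 : (Measure.addHaar : Measure D) (closedBall 0 1) ≠ 0 :=
    (measure_closedBall_pos _ _ one_pos).ne'
  have h4 : (Measure.addHaar : Measure D) (closedBall 0 1) ≠ ⊤ := measure_closedBall_lt_top.ne
  rw [h1', Measure.smul_apply, smul_eq_mul] at h2
  have h5 : ENNReal.ofReal |(LinearMap.det (T.toLinearEquiv : D →ₗ[ℝ] D))⁻¹| = 1 := by
    have h6 := (ENNReal.mul_eq_right h3 h4).1 h2
    exact h6
  rw [h1', h5, one_smul]

theorem exists_inv_form {S H : Type*} [Group S] [NormedAddCommGroup H] [NormedSpace ℝ H]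
    [FiniteDimensional ℝ H] (π : S → (H ≃ₗᵢ[ℝ] H)) :
    ∃ B : H →ₗ[ℝ] H →ₗ[ℝ] ℝ, (∀ v w, B v w = B w v) ∧ (∀ v, v ≠ 0 → 0 < B v v) ∧
      ∀ s v w, B (π s v) (π s w) = B v w := by
  classical
  let D := StrongDual ℝ H
  let _ : MeasurableSpace D := borel D
  have : BorelSpace D := ⟨rfl⟩
  have : FiniteDimensional ℝ D := inferInstance
  let μ : Measure D := Measure.addHaar
  have hc : ∀ v : H, Continuous fun l : D => l v := fun v =>
    (ContinuousLinearMap.apply ℝ ℝ v).continuous
  have hi : ∀ v w : H, IntegrableOn (fun l : D => l v * l w) (closedBall 0 1) μ := by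
    intro v w
    have : ProperSpace D := FiniteDimensional.proper ℝ D
    exact ((hc v).mul (hc w)).continuousOn.integrableOn_compact (isCompact_closedBall _ _)
  let B : H →ₗ[ℝ] H →ₗ[ℝ] ℝ := LinearMap.mk₂ ℝ (fun v w => ∫ l in closedBall (0 : D) 1, l v * l w ∂μ)
    (by
      intro v v' w
      rw [← integral_add (hi v w) (hi v' w)]
      refine integral_congr_ae (Filter.Eventually.of_forall fun l => ?_)
      simp only [map_add]; ring)
    (by
      intro c v w
      rw [← integral_smul]
      refine integral_congr_ae (Filter.Eventually.of_forall fun l => ?_)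
      simp only [map_smul, smul_eq_mul]; ring)
    (by
      intro v w w'
      rw [← integral_add (hi v w) (hi v w')]
      refine integral_congr_ae (Filter.Eventually.of_forall fun l => ?_)
      simp only [map_add]; ring)
    (by
      intro c v w
      rw [← integral_smul]
      refine integral_congr_ae (Filter.Eventually.of_forall fun l => ?_)
      simp only [map_smul, smul_eq_mul]; ring)
  have hB : ∀ v w, B v w = ∫ l in closedBall (0 : D) 1, l v * l w ∂μ := fun v w => rfl
  refine ⟨B, ?_, ?_, ?_⟩
  · intro v w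
    rw [hB, hB]
    refine integral_congr_ae (Filter.Eventually.of_forall fun l => ?_)
    exact mul_comm _ _
  · intro v hv
    rw [hB, setIntegral_pos_iff_support_of_nonneg_ae
      (Filter.Eventually.of_forall fun l => mul_self_nonneg _) (hi v v)]
    obtain ⟨l, hl1, hl2⟩ := exists_dual_vector ℝ v (norm_ne_zero_iff.2 hv)
    have hopen : IsOpen ({l : D | l v ≠ 0} ∩ ball 0 1) :=
      (isOpen_ne_fun (hc v) continuous_const).inter isOpen_ball
    have hne : ({l : D | l v ≠ 0} ∩ ball 0 1).Nonempty := by
      refine ⟨(1 / 2 : ℝ) • l, ?_, ?_⟩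
      · show ((1 / 2 : ℝ) • l) v ≠ 0
        have h1 : ((1 / 2 : ℝ) • l) v = (1 / 2 : ℝ) * l v := rfl
        rw [h1, hl2]
        have h2 : (‖v‖ : ℝ) ≠ 0 := norm_ne_zero_iff.2 hv
        simpa using h2
      · rw [mem_ball_zero_iff, norm_smul, hl1]
        norm_num
    refine lt_of_lt_of_le (hopen.measure_pos μ hne) (measure_mono ?_)
    rintro l ⟨h1, h2⟩
    refine ⟨?_, ball_subset_closedBall h2⟩
    rw [Function.mem_support]
    exact mul_self_ne_zero.2 h1
  · intro s v w
    rw [hB, hB]
    let T : D ≃L[ℝ] D :=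
      (π s).symm.toContinuousLinearEquiv.arrowCongr (ContinuousLinearEquiv.refl ℝ ℝ)
    have hTa : ∀ (l : D) (x : H), T l x = l (π s x) := fun l x => rfl
    have hTn : ∀ l : D, ‖T l‖ = ‖l‖ := by
      intro l
      have h1 : T l = ContinuousLinearMap.comp l (π s).toContinuousLinearEquiv.toContinuousLinearMap := by
        ext x; rfl
      rw [h1]
      exact ContinuousLinearMap.opNorm_comp_linearIsometryEquiv l (π s)
    have hmp : MeasurePreserving T μ μ := ⟨T.continuous.measurable, map_haar_eq T hTn⟩
    have h2 := hmp.setIntegral_preimage_emb T.toHomeomorph.measurableEmbedding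
      (fun l : D => l v * l w) (closedBall 0 1)
    have h3 : T ⁻¹' closedBall (0 : D) 1 = closedBall 0 1 := by
      ext l
      simp [hTn]
    rw [h3] at h2
    rw [← h2]
    rfl

/-! ### The bounded translates -/

/-- A finite-dimensional space of bounded functions on `S` invariant under right translations, containing
the differences `b (· s) - b`. -/
theorem exists_space {S : Type*} [Group S] {b : S → ℝ} (hb : b ∈ AA S) :
    ∃ H : Submodule ℝ (S → ℝ), FiniteDimensional ℝ H ∧ (∀ f ∈ H, ∃ C : ℝ, ∀ t, |f t| ≤ C) ∧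
      (∀ s : S, ∀ f ∈ H, (fun t => f (t * s)) ∈ H) ∧ ∀ s : S, (fun t => b (t * s) - b t) ∈ H := by
  classical
  obtain ⟨⟨W, hW, hi, hbW⟩, hbd⟩ := hb
  -- the span of the right translates
  let M : Submodule ℝ (S → ℝ) := Submodule.span ℝ (Set.range fun s : S => fun t => b (t * s))
  let bs := Module.finBasis ℝ W
  let c : Fin (Module.finrank ℝ W) → (S → ℝ) := fun i t =>
    bs.repr ⟨fun x => b ((t⁻¹)⁻¹ * x), hi t⁻¹ b hbW⟩ i
  have hc : ∀ s t : S, b (t * s) = ∑ i, (bs i).1 s * c i t := by
    intro s t
    have h1 := bs.sum_repr ⟨fun x => b ((t⁻¹)⁻¹ * x), hi t⁻¹ b hbW⟩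
    have h2 := congrFun (congrArg Subtype.val h1) s
    simp only [inv_inv] at h2
    have h3 : ((⟨fun x => b (t * x), by simpa using hi t⁻¹ b hbW⟩ : W) : S → ℝ) s = b (t * s) := rfl
    rw [← h2]
    simp only [c, inv_inv]
    rw [Submodule.coe_sum, Finset.sum_apply]
    refine Finset.sum_congr rfl fun i _ => ?_
    rw [Submodule.coe_smul, Pi.smul_apply, smul_eq_mul, mul_comm]
  have hM : M ≤ Submodule.span ℝ (Set.range c) := by
    rw [Submodule.span_le]
    rintro _ ⟨s, rfl⟩
    have h1 : (fun t => b (t * s)) = ∑ i, (bs i).1 s • c i := by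
      funext t
      rw [hc s t, Finset.sum_apply]
      rfl
    show (fun t => b (t * s)) ∈ Submodule.span ℝ (Set.range c)
    rw [h1]
    exact Submodule.sum_mem _ fun i _ => Submodule.smul_mem _ _ (Submodule.subset_span ⟨i, rfl⟩)
  have hMf : FiniteDimensional ℝ M := by
    have h1 : FiniteDimensional ℝ (Submodule.span ℝ (Set.range c)) :=
      FiniteDimensional.span_of_finite ℝ (Set.finite_range c)
    exact Submodule.finiteDimensional_of_le hM
  have hMr : ∀ s : S, ∀ f ∈ M, (fun t => f (t * s)) ∈ M := by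
    intro s f hf
    have h1 : M ≤ M.comap (LinearMap.funLeft ℝ ℝ (fun t => t * s)) := by
      rw [Submodule.span_le]
      rintro _ ⟨s', rfl⟩
      refine Submodule.subset_span ⟨s * s', ?_⟩
      funext t
      show b (t * (s * s')) = b (t * s * s')
      rw [mul_assoc]
    exact h1 hf
  let Bd : Submodule ℝ (S → ℝ) :=
    { carrier := {f | ∃ C : ℝ, ∀ t, |f t| ≤ C}
      zero_mem' := ⟨0, fun t => by simp⟩
      add_mem' := by
        rintro f g ⟨C₁, h₁⟩ ⟨C₂, h₂⟩
        exact ⟨C₁ + C₂, fun t => (abs_add_le _ _).trans (add_le_add (h₁ t) (h₂ t))⟩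
      smul_mem' := by
        rintro c f ⟨C, h⟩
        refine ⟨|c| * C, fun t => ?_⟩
        rw [Pi.smul_apply, smul_eq_mul, abs_mul]
        exact mul_le_mul_of_nonneg_left (h t) (abs_nonneg _) }
  refine ⟨M ⊓ Bd, Submodule.finiteDimensional_inf_left _ _, fun f hf => hf.2, ?_, ?_⟩
  · rintro s f ⟨h1, C, h2⟩
    exact ⟨hMr s f h1, C, fun t => h2 _⟩
  · intro s
    refine ⟨?_, hbd s⟩
    refine Submodule.sub_mem _ (Submodule.subset_span ⟨s, rfl⟩) (Submodule.subset_span ⟨1, ?_⟩)
    funext t
    show b (t * 1) = b t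
    rw [mul_one]

/-- From an invariant form to an inner product space. -/
theorem of_form {S H₀ : Type} [Group S] [AddCommGroup H₀] [Module ℝ H₀] [FiniteDimensional ℝ H₀]
    (R : S → (H₀ ≃ₗ[ℝ] H₀)) (hR1 : ∀ v, R 1 v = v) (hR2 : ∀ s t v, R (s * t) v = R s (R t v))
    (B : H₀ →ₗ[ℝ] H₀ →ₗ[ℝ] ℝ) (hB1 : ∀ v w, B v w = B w v)
    (hB2 : ∀ v, v ≠ 0 → 0 < B v v) (hB3 : ∀ s v w, B (R s v) (R s w) = B v w)
    (β : S → H₀) (hβ : ∀ g h, β (g * h) = β g + R g (β h)) (ℓ₀ : H₀ →ₗ[ℝ] ℝ) :
    ∃ (H : Type) (_ : NormedAddCommGroup H) (_ : InnerProductSpace ℝ H) (_ : FiniteDimensional ℝ H)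
      (π : S →* (H ≃ₗᵢ[ℝ] H)) (β' : S → H) (ℓ : H →L[ℝ] ℝ),
      (∀ g h, β' (g * h) = β' g + π g (β' h)) ∧ ∀ g, ℓ (β' g) = ℓ₀ (β g) := by
  let cd : InnerProductSpace.Core ℝ H₀ :=
    { inner := fun v w => B v w
      conj_inner_symm := fun v w => by
        show (starRingEnd ℝ) (B w v) = B v w
        rw [hB1 w v]; rfl
      re_inner_nonneg := fun v => by
        show 0 ≤ B v v
        by_cases hv : v = 0
        · subst hv; simp
        · exact (hB2 v hv).le
      add_left := fun u v w => by
        show B (u + v) w = B u w + B v w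
        rw [map_add, LinearMap.add_apply]
      smul_left := fun u v r => by
        show B (r • u) v = r * B u v
        rw [map_smul, LinearMap.smul_apply, smul_eq_mul]
      definite := fun v hv => by
        by_contra hne
        exact (hB2 v hne).ne' hv }
  let i1 : NormedAddCommGroup H₀ := cd.toNormedAddCommGroup
  let i2 : InnerProductSpace ℝ H₀ := InnerProductSpace.ofCore cd.toCore
  have hin : ∀ v w : H₀, inner ℝ v w = B v w := fun v w => rfl
  have hnorm : ∀ s (f : H₀), ‖R s f‖ = ‖f‖ := by
    intro s f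
    have h1 : ‖R s f‖ ^ 2 = ‖f‖ ^ 2 := by
      rw [← real_inner_self_eq_norm_sq, ← real_inner_self_eq_norm_sq, hin, hin, hB3]
    exact (pow_left_inj₀ (norm_nonneg _) (norm_nonneg _) two_ne_zero).1 h1
  let π : S →* (H₀ ≃ₗᵢ[ℝ] H₀) :=
    { toFun := fun s => ⟨R s, hnorm s⟩
      map_one' := by
        ext f
        exact hR1 f
      map_mul' := by
        intro s s'
        ext f
        exact hR2 s s' f }
  have hf : FiniteDimensional ℝ H₀ := inferInstance
  exact ⟨H₀, i1, i2, hf, π, β, LinearMap.toContinuousLinearMap ℓ₀, hβ, fun g => rfl⟩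

/-- Every `b ∈ AA S` is, up to a constant, a coefficient of an orthogonal cocycle of finite dimension. -/
theorem exists_coc {S : Type} [Group S] {b : S → ℝ} (hb : b ∈ AA S) :
    ∃ (H : Type) (_ : NormedAddCommGroup H) (_ : InnerProductSpace ℝ H) (_ : FiniteDimensional ℝ H)
      (π : S →* (H ≃ₗᵢ[ℝ] H)) (β : S → H) (ℓ : H →L[ℝ] ℝ),
      (∀ g h, β (g * h) = β g + π g (β h)) ∧ ∀ g, b g = b 1 + ℓ (β g) := by
  classical
  obtain ⟨H, hf, hbd, hr, hd⟩ := exists_space hb
  -- the representation by right translations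
  let R : S → (H ≃ₗ[ℝ] H) := fun s =>
    { toFun := fun f => ⟨fun t => f.1 (t * s), hr s f.1 f.2⟩
      invFun := fun f => ⟨fun t => f.1 (t * s⁻¹), hr s⁻¹ f.1 f.2⟩
      map_add' := fun _ _ => rfl
      map_smul' := fun _ _ => rfl
      left_inv := by
        intro f
        apply Subtype.ext
        funext t
        show f.1 (t * s⁻¹ * s) = f.1 t
        rw [inv_mul_cancel_right]
      right_inv := by
        intro f
        apply Subtype.ext
        funext t
        show f.1 (t * s * s⁻¹) = f.1 t
        rw [mul_inv_cancel_right] }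
  have hR : ∀ s f t, (R s f).1 t = f.1 (t * s) := fun s f t => rfl
  -- the invariant form
  obtain ⟨B, hB1, hB2, hB3⟩ : ∃ B : H →ₗ[ℝ] H →ₗ[ℝ] ℝ, (∀ v w, B v w = B w v) ∧
      (∀ v, v ≠ 0 → 0 < B v v) ∧ ∀ s v w, B (R s v) (R s w) = B v w := by
    let _ : Norm H := ⟨fun f => ⨆ t, |f.1 t|⟩
    have hn : ∀ f : H, ‖f‖ = ⨆ t, |f.1 t| := fun f => rfl
    have hba : ∀ f : H, BddAbove (Set.range fun t => |f.1 t|) := by
      intro f
      obtain ⟨C, hC⟩ := hbd f.1 f.2
      exact ⟨C, by rintro _ ⟨t, rfl⟩; exact hC t⟩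
    have hle : ∀ (f : H) t, |f.1 t| ≤ ‖f‖ := fun f t => le_ciSup (hba f) t
    have hcore : NormedSpace.Core ℝ H :=
      { norm_nonneg := fun f => (abs_nonneg _).trans (hle f 1)
        norm_smul := by
          intro c f
          rw [hn, hn, Real.norm_eq_abs, Real.mul_iSup_of_nonneg (abs_nonneg c)]
          congr 1
          funext t
          have h1 : (c • f).1 t = c * f.1 t := rfl
          rw [h1, abs_mul]
        norm_triangle := by
          intro f g
          refine ciSup_le fun t => ?_
          have h1 : (f + g).1 t = f.1 t + g.1 t := rfl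
          rw [h1]
          exact (abs_add_le _ _).trans (add_le_add (hle f t) (hle g t))
        norm_eq_zero_iff := by
          intro f
          constructor
          · intro h
            apply Subtype.ext
            funext t
            have h1 := hle f t
            rw [h] at h1
            exact abs_nonpos_iff.1 h1
          · rintro rfl
            rw [hn]
            have h1 : (fun t : S => |(0 : H).1 t|) = fun _ => (0 : ℝ) := by
              funext t
              exact abs_zero
            rw [h1, ciSup_const] }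
    let _ : NormedAddCommGroup H := NormedAddCommGroup.ofCore hcore
    let _ : NormedSpace ℝ H := NormedSpace.ofCore hcore
    have hiso : ∀ s f, ‖R s f‖ = ‖f‖ := by
      intro s f
      apply le_antisymm
      · refine ciSup_le fun t => ?_
        exact hle f (t * s)
      · refine ciSup_le fun t => ?_
        have h1 := hle (R s f) (t * s⁻¹)
        rwa [hR, inv_mul_cancel_right] at h1
    obtain ⟨B, h1, h2, h3⟩ := exists_inv_form (S := S) (H := H) (fun s => ⟨R s, hiso s⟩)
    exact ⟨B, h1, h2, h3⟩
  obtain ⟨H', j1, j2, j3, π, β', ℓ, h1, h2⟩ := of_form R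
    (by
      intro f
      apply Subtype.ext
      funext t
      show f.1 (t * 1) = f.1 t
      rw [mul_one])
    (by
      intro s s' f
      apply Subtype.ext
      funext t
      show f.1 (t * (s * s')) = f.1 (t * s * s')
      rw [mul_assoc])
    B hB1 hB2 hB3 (fun s => ⟨fun t => b (t * s) - b t, hd s⟩)
    (by
      intro g h
      apply Subtype.ext
      funext t
      show b (t * (g * h)) - b t = (b (t * g) - b t) + (b (t * g * h) - b (t * g))
      rw [mul_assoc]
      ring)
    ((LinearMap.proj (1 : S)).comp H.subtype)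
  refine ⟨H', j1, j2, j3, π, β', ℓ, h1, fun g => ?_⟩
  rw [h2 g]
  show b g = b 1 + (b (1 * g) - b 1)
  rw [one_mul]
  ring

end Vale.Agent.P284.H10.T
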