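import Vale.Agent.P284.H409.T.Spec
import Vale.Agent.P284.H10.T10b
import Vale.Agent.P284.H5.V16
import Mathlib.Analysis.InnerProductSpace.Dual

/-!
# P284, theorem T, rows T10b and T10c (helper10)
-/

open scoped Manifold ContDiff Topology Pointwise ComplexConjugate ComplexOrder InnerProductSpace
open Filter Set Metric MeasureTheory

noncomputable section

namespace Vale.Agent.P284.H10.T

open Vale.Agent.P272.K Vale.Agent.P284.H248 Vale.Agent.P284.H894 Vale.Agent.P284.H894.G
  Vale.Agent.P284.H894.V Vale.Agent.P284.H894.W Vale.Agent.P284.H913.V Vale.Agent.P284.H409.A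
  Vale.Agent.P284.H287.T Vale.Agent.P284.H119.Kaz

/-- Row T10b -/
theorem t10bStmt : Vale.Agent.P284.H409.T.T10bStmt := fun _ _ _ hb => exists_coc hb

/-- Row T10c -/
theorem t10cStmt : Vale.Agent.P284.H409.T.T10cStmt := by
  intro hP1 hV15 hHodge hT10b hG n X _ _ _ _ _ _ w hw E S _ _ _ _ p hp hK hVfd G _ T hTn e
  classical
  obtain ⟨hg1, hg2, hg3, hg4⟩ := hG n X w hw E S p hp
  obtain ⟨v, Bv, hv, y₀, y₁, hvy⟩ := hP1 n X w hw E S p hp hK
  have hfgS : Group.FG S := by
    obtain ⟨C, _, _, h, -⟩ := hV15 n X w hw E S p hp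
    exact h
  have hfgT : Group.FG T := Group.fg_of_surjective (f := e.symm.toMonoidHom) e.symm.surjective
  obtain ⟨V, hVf, hV⟩ := id hVfd
  let P : Submodule ℝ (E → ℝ) := H5.V.phb p w
  have hP : ∀ u : E → ℝ, u ∈ P ↔ ∃ B, IsPHB p w u B := fun u => Iff.rfl
  have hPV : P ≤ V := fun u hu => hV u hu
  have hPf : FiniteDimensional ℝ P := Submodule.finiteDimensional_of_le hPV
  -- the action on `P`
  let ρ : T →* (P →ₗ[ℝ] P) :=
    { toFun := fun t =>
        { toFun := fun u => ⟨fun y => u.1 ((e t)⁻¹ • y), hg1 u.1 u.2 (e t)⁻¹⟩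
          map_add' := fun _ _ => rfl
          map_smul' := fun _ _ => rfl }
      map_one' := by
        apply LinearMap.ext
        intro u
        apply Subtype.ext
        funext y
        show u.1 ((e 1)⁻¹ • y) = u.1 y
        rw [map_one, inv_one, one_smul]
      map_mul' := by
        intro s t
        apply LinearMap.ext
        intro u
        apply Subtype.ext
        funext y
        show u.1 ((e (s * t))⁻¹ • y) = u.1 ((e t)⁻¹ • (e s)⁻¹ • y)
        rw [map_mul, mul_inv_rev, mul_smul] }
  have hρ : ∀ (t : T) (u : P) (y : E), (ρ t u).1 y = u.1 ((e t)⁻¹ • y) := fun t u y => rfl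
  let ev : P →ₗ[ℝ] (T → ℝ) :=
    { toFun := fun u t => u.1 (e t • y₀)
      map_add' := fun _ _ => rfl
      map_smul' := fun _ _ => rfl }
  have hev : ∀ (u : P) (t : T), ev u t = u.1 (e t • y₀) := fun u t => rfl
  let K₀ : Submodule ℝ P :=
    { carrier := {u | ∀ y y', u.1 y = u.1 y'}
      zero_mem' := fun y y' => rfl
      add_mem' := by
        intro a b ha hb y y'
        show a.1 y + b.1 y = a.1 y' + b.1 y'
        rw [ha y y', hb y y']
      smul_mem' := by
        intro c a ha y y'
        show c * a.1 y = c * a.1 y'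
        rw [ha y y'] }
  have key := t10_abs T hfgT ρ ev
    (by
      intro s u t
      rw [hev, hev, hρ, ← mul_smul, ← map_inv, ← map_mul])
    K₀
    (by
      intro s u hu
      apply Subtype.ext
      funext y
      exact hu _ _)
    (by
      rintro u ⟨C, hC⟩ y y'
      refine hg3 hVfd u.1 u.2 y₀ ⟨C, fun g => ?_⟩ y y'
      have := hC (e.symm g)
      rwa [hev, e.apply_symm_apply] at this)
    (by
      intro b hb
      obtain ⟨H, i1, i2, i3, π, β, l, hβ, hbl⟩ := hT10b T b hb
      have : CompleteSpace H := FiniteDimensional.complete ℝ H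
      obtain ⟨h, hh1, hh2⟩ := hHodge n X w hw E S p hp H (π.comp e.symm.toMonoidHom)
        (fun g => β (e.symm g)) (by
          intro g g'
          show β (e.symm (g * g')) = β (e.symm g) + π (e.symm g) (β (e.symm g'))
          rw [map_mul, hβ])
      let η : H := (InnerProductSpace.toDual ℝ H).symm l
      have hη : ∀ x : H, ⟪x, η⟫_ℝ = l x := by
        intro x
        rw [real_inner_comm]
        exact InnerProductSpace.toDual_symm_apply
      refine ⟨⟨fun y => ⟪h y, η⟫_ℝ, hh2 η⟩, |b 1| + ‖l‖ * ‖h y₀‖, fun t => ?_⟩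
      rw [hev]
      show |b t - ⟪h (e t • y₀), η⟫_ℝ| ≤ _
      rw [hη, hh1, map_add]
      have h1 : (π.comp e.symm.toMonoidHom) (e t) = π t := by
        show π (e.symm (e t)) = π t
        rw [e.symm_apply_apply]
      have h2 : β (e.symm (e t)) = β t := by rw [e.symm_apply_apply]
      rw [h1, h2, hbl t]
      have h3 : b 1 + l (β t) - (l (π t (h y₀)) + l (β t)) = b 1 - l (π t (h y₀)) := by ring
      rw [h3]
      refine (abs_sub _ _).trans (add_le_add le_rfl ?_)
      rw [← Real.norm_eq_abs]
      refine (l.le_opNorm _).trans ?_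
      rw [LinearIsometryEquiv.norm_map])
    (by
      intro u s
      obtain ⟨C, hC⟩ := hg2 u.1 u.2 (e s • y₀) y₀
      refine ⟨C, fun t => ?_⟩
      rw [hev, hev, map_mul, mul_smul]
      exact hC (e t))
    (by
      intro H hH hcon
      have hS : (H.map (e : T →* S)).FiniteIndex := by
        refine ⟨?_⟩
        rw [Subgroup.index_map_of_bijective e.bijective]
        exact hH.index_ne_zero
      refine hvy (hg4 _ hS v ⟨Bv, hv⟩ ?_ y₀ y₁)
      rintro g hg y
      obtain ⟨t, ht, rfl⟩ := Subgroup.mem_map.1 hg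
      have h1 := hcon t⁻¹ (H.inv_mem ht) ⟨v, ⟨Bv, hv⟩⟩
      have h2 := congrFun (congrArg Subtype.val h1) y
      rw [hρ, map_inv, inv_inv] at h2
      exact h2)
  rcases key with h | h
  · exact Or.inl (Vale.Agent.P284.H731.VirtIndicable.of_surj e.symm.toMonoidHom e.symm.surjective h)
  · exact Or.inr h

end Vale.Agent.P284.H10.T
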