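import Vale.Agent.P284.H639.T6S
import Vale.Agent.P284.H5.Poin
import Vale.Agent.P284.H287.T.Bd

/-!
# P284, theorem T, row T4 (helper10): weak Poincaré property for orthogonal representations
-/

open scoped Manifold ContDiff Topology Pointwise ComplexConjugate ComplexOrder InnerProductSpace
open Filter Set Metric MeasureTheory

noncomputable section

namespace Vale.Agent.P284.H10.T4

open Vale.Agent.P272.K Vale.Agent.P284.H248 Vale.Agent.P284.H894 Vale.Agent.P284.H894.V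
  Vale.Agent.P284.H913.V Vale.Agent.P284.H287.T Vale.Agent.P284.H409.T Vale.Agent.P284.H359.V
  Vale.Agent.P284.H639.T6 Vale.Agent.P284.H639.Tw Vale.Agent.P284.H639.V Vale.Agent.P284.H958
  Vale.Agent.P284.H66 Vale.Agent.P284.H66.S7

/-! ### Weak limits along an ultrafilter -/

theorem weak_lim {H : Type*} [NormedAddCommGroup H] [InnerProductSpace ℝ H] [CompleteSpace H]
    (𝒰 : Ultrafilter ℕ) {x : ℕ → H} {Q : ℝ} (hx : ∀ j, ‖x j‖ ≤ Q) :
    ∃ y : H, ∀ η : H, Tendsto (fun j => ⟪x j, η⟫_ℝ) 𝒰 (𝓝 ⟪y, η⟫_ℝ) := by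
  have hQ : 0 ≤ Q := (norm_nonneg _).trans (hx 0)
  have h1 : ∀ η : H, ∃ t ∈ Icc (-(Q * ‖η‖)) (Q * ‖η‖), Tendsto (fun j => ⟪x j, η⟫_ℝ) 𝒰 (𝓝 t) := by
    intro η
    have h2 : ∀ j, ⟪x j, η⟫_ℝ ∈ Icc (-(Q * ‖η‖)) (Q * ‖η‖) := by
      intro j
      have h3 : |⟪x j, η⟫_ℝ| ≤ Q * ‖η‖ := (abs_real_inner_le_norm _ _).trans
        (mul_le_mul_of_nonneg_right (hx j) (norm_nonneg _))
      exact abs_le.1 h3
    have h4 : ((𝒰.map fun j => ⟪x j, η⟫_ℝ : Ultrafilter ℝ) : Filter ℝ) ≤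
        𝓟 (Icc (-(Q * ‖η‖)) (Q * ‖η‖)) := by
      rw [le_principal_iff]
      exact (Filter.Eventually.of_forall h2 :
        ∀ᶠ j in (𝒰 : Filter ℕ), ⟪x j, η⟫_ℝ ∈ Icc (-(Q * ‖η‖)) (Q * ‖η‖))
    obtain ⟨t, ht, hlim⟩ := isCompact_iff_ultrafilter_le_nhds.1
      (isCompact_Icc (a := -(Q * ‖η‖)) (b := Q * ‖η‖)) _ h4
    exact ⟨t, ht, hlim⟩
  choose L hL1 hL2 using h1
  let l : H →ₗ[ℝ] ℝ :=
    { toFun := L
      map_add' := by
        intro η θ
        refine tendsto_nhds_unique (hL2 (η + θ)) ?_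
        have := (hL2 η).add (hL2 θ)
        simpa only [inner_add_right] using this
      map_smul' := by
        intro c η
        show L (c • η) = c * L η
        refine tendsto_nhds_unique (hL2 (c • η)) ?_
        have := (hL2 η).const_mul c
        simpa only [real_inner_smul_right] using this }
  let l' : H →L[ℝ] ℝ := l.mkContinuous Q fun η => by
    rw [Real.norm_eq_abs]
    exact abs_le.2 (hL1 η)
  refine ⟨(InnerProductSpace.toDual ℝ H).symm l', fun η => ?_⟩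
  rw [InnerProductSpace.toDual_symm_apply]
  exact hL2 η

/-! ### Means -/

theorem int_sub_sq {n : ℕ} {S : Set (Cm n)} (hv : volume S ≠ ⊤)
    {f : Cm n → ℝ} (h0 : IntegrableOn f S) (h1 : IntegrableOn (fun z => f z ^ 2) S) (t : ℝ) :
    ∫ z in S, (f z - t) ^ 2 =
      (∫ z in S, f z ^ 2) - 2 * t * (∫ z in S, f z) + t ^ 2 * (volume S).toReal := by
  have h2 : ∫ z in S, (f z - t) ^ 2 = ∫ z in S, ((f z ^ 2 - 2 * t * f z) + t ^ 2) := by
    refine integral_congr_ae (Eventually.of_forall fun z => ?_)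
    show (f z - t) ^ 2 = (f z ^ 2 - 2 * t * f z) + t ^ 2
    ring
  have h3 : IntegrableOn (fun z => 2 * t * f z) S := h0.const_mul _
  have h4 : IntegrableOn (fun z => f z ^ 2 - 2 * t * f z) S := h1.sub h3
  rw [h2, integral_add h4 (integrableOn_const hv), integral_sub h1 h3, integral_const_mul,
    setIntegral_const, measureReal_def, smul_eq_mul]
  ring

theorem mean_min {n : ℕ} {S : Set (Cm n)} (hv : volume S ≠ ⊤) (hp : 0 < (volume S).toReal)
    {f : Cm n → ℝ} (h0 : IntegrableOn f S) (h1 : IntegrableOn (fun z => f z ^ 2) S) (m : ℝ) :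
    ∫ z in S, (f z - (volume S).toReal⁻¹ * ∫ z in S, f z) ^ 2 ≤ ∫ z in S, (f z - m) ^ 2 := by
  rw [int_sub_sq hv h0 h1, int_sub_sq hv h0 h1]
  set v := (volume S).toReal
  set I := ∫ z in S, f z
  have h2 : 0 ≤ v * (m - v⁻¹ * I) ^ 2 := by positivity
  have h3 : v * (m - v⁻¹ * I) ^ 2 = v * m ^ 2 - 2 * m * I + v⁻¹ * I ^ 2 := by
    field_simp
    ring
  have h4 : -2 * (v⁻¹ * I) * I + (v⁻¹ * I) ^ 2 * v = - (v⁻¹ * I ^ 2) := by
    field_simp
    ring
  nlinarith

theorem inner_approx {H : Type*} [NormedAddCommGroup H] [InnerProductSpace ℝ H] {m : ℕ}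
    {e : Fin m → H} (he : Orthonormal ℝ e) (x y : H) {s : ℝ} (hs : 0 < s)
    (hy : ‖y‖ ^ 2 ≤ ∑ k, ⟪y, e k⟫_ℝ ^ 2 + s ^ 2) :
    |⟪x, y⟫_ℝ| ≤ (2 * s)⁻¹ * ∑ k, ⟪x, e k⟫_ℝ ^ 2 + s / 2 * ‖y‖ ^ 2 + s / 2 * ‖x‖ ^ 2 + s / 2 := by
  have hb : ∑ k, ⟪y, e k⟫_ℝ ^ 2 ≤ ‖y‖ ^ 2 := by
    have h := he.sum_inner_products_le (s := Finset.univ) y
    calc ∑ k, ⟪y, e k⟫_ℝ ^ 2 = ∑ k, ‖⟪e k, y⟫_ℝ‖ ^ 2 := Finset.sum_congr rfl fun k _ => by
          rw [real_inner_comm, Real.norm_eq_abs, sq_abs]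
      _ ≤ _ := h
  set q : H := ∑ k, ⟪y, e k⟫_ℝ • e k with hq
  have hqe : ∀ z : H, ⟪z, q⟫_ℝ = ∑ k, ⟪y, e k⟫_ℝ * ⟪z, e k⟫_ℝ := by
    intro z
    rw [hq, inner_sum]
    exact Finset.sum_congr rfl fun k _ => real_inner_smul_right _ _ _
  have hqq : ⟪q, q⟫_ℝ = ∑ k, ⟪y, e k⟫_ℝ ^ 2 := by
    have h1 : ∀ k, ⟪q, e k⟫_ℝ = ⟪y, e k⟫_ℝ := by
      intro k
      rw [hq, sum_inner]
      simp only [real_inner_smul_left, orthonormal_iff_ite.1 he]
      simp
    rw [hqe]
    exact Finset.sum_congr rfl fun k _ => by rw [h1]; ring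
  have hyq : ‖y - q‖ ^ 2 ≤ s ^ 2 := by
    rw [norm_sub_sq_real, ← real_inner_self_eq_norm_sq q, hqq, hqe]
    have h1 : ∑ k, ⟪y, e k⟫_ℝ * ⟪y, e k⟫_ℝ = ∑ k, ⟪y, e k⟫_ℝ ^ 2 :=
      Finset.sum_congr rfl fun k _ => (sq _).symm
    rw [h1]
    linarith
  have hyq' : ‖y - q‖ ≤ s := (pow_le_pow_iff_left₀ (norm_nonneg _) hs.le two_ne_zero).1 hyq
  have h1 : ⟪x, y⟫_ℝ = ⟪x, q⟫_ℝ + ⟪x, y - q⟫_ℝ := by rw [inner_sub_right]; ring
  have h2 : |⟪x, y - q⟫_ℝ| ≤ s / 2 * ‖x‖ ^ 2 + s / 2 := by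
    have h3 := abs_real_inner_le_norm x (y - q)
    have h4 : ‖x‖ * ‖y - q‖ ≤ ‖x‖ * s := mul_le_mul_of_nonneg_left hyq' (norm_nonneg _)
    nlinarith [mul_nonneg hs.le (sq_nonneg (‖x‖ - 1))]
  have h5 : |⟪x, q⟫_ℝ| ≤ (2 * s)⁻¹ * ∑ k, ⟪x, e k⟫_ℝ ^ 2 + s / 2 * ‖y‖ ^ 2 := by
    rw [hqe]
    refine (Finset.abs_sum_le_sum_abs _ _).trans ?_
    have h6 : ∀ k, |⟪y, e k⟫_ℝ * ⟪x, e k⟫_ℝ| ≤
        (2 * s)⁻¹ * ⟪x, e k⟫_ℝ ^ 2 + s / 2 * ⟪y, e k⟫_ℝ ^ 2 := by
      intro k
      set a := ⟪y, e k⟫_ℝ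
      set b := ⟪x, e k⟫_ℝ
      have h7 : (2 * s)⁻¹ * b ^ 2 + s / 2 * a ^ 2 - |a * b| = (2 * s)⁻¹ * (|b| - s * |a|) ^ 2 := by
        rw [abs_mul, ← sq_abs a, ← sq_abs b]
        field_simp
        ring
      have h8 : 0 ≤ (2 * s)⁻¹ * (|b| - s * |a|) ^ 2 := by positivity
      linarith
    refine (Finset.sum_le_sum fun k _ => h6 k).trans ?_
    rw [Finset.sum_add_distrib, ← Finset.mul_sum, ← Finset.mul_sum]
    have := mul_le_mul_of_nonneg_left hb (by positivity : 0 ≤ s / 2)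
    linarith
  rw [h1]
  refine (abs_add_le _ _).trans ?_
  linarith

section glob
variable {n : ℕ} {Γ : Type} [Group Γ] {C : Coc n Γ}
variable {H : Type} [NormedAddCommGroup H] [InnerProductSpace ℝ H]

theorem BD_grH (K : KM C) (π : Γ →* (H ≃ₗᵢ[ℝ] H)) {u : Γ → C.I → Cm n → H} (hu : Sec C π 0 u) :
    BD C (fun a z => grH (K.w a) (u 1 a) (u 1 a) z) where
  cont a := grH_cont K (fun z hz => hu.smooth 1 a z hz) (fun z hz => hu.smooth 1 a z hz)
  compat a b z hz _ _ := by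
    have hzΩ := O_sub_Ω C hz
    have hTz := T_mem_Ω C hz
    have hev : ∀ᶠ y in 𝓝 z, u 1 a y =
        (fun x => π (C.κ a b z) (u 1 b x) + 0) (C.T a b y) := by
      filter_upwards [(C.O_open a b).mem_nhds hz, C.κ_loc a b z hz] with y hy hk
      show u 1 a y = π (C.κ a b z) (u 1 b (C.T a b y)) + 0
      rw [one_ev π hu hy, hk, add_zero]
    have hs : ContDiffAt ℝ ∞ (fun x => π (C.κ a b z) (u 1 b x) + 0) (C.T a b z) :=
      ((π (C.κ a b z)).toContinuousLinearEquiv.contDiff.contDiffAt.comp _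
        (hu.smooth 1 b _ hTz)).add contDiffAt_const
    have h1 := (chg H730.V.vpStmt (K.w a) (K.w b) _ _ _ _ (C.T a b) z (T_ev C hz)
      ((K.ku a).pos z hzΩ) ((K.ku b).pos _ hTz) (K.change a b z hz) (hu.smooth 1 a z hzΩ)
      (hu.smooth 1 a z hzΩ) hs hs hev hev).2.1
    show grH (K.w a) (u 1 a) (u 1 a) z = grH (K.w b) (u 1 b) (u 1 b) (C.T a b z)
    rw [h1, grH_iso]

end glob

/-- **T4** -/
theorem t4Stmt : T4Stmt := by
  intro n Γ _ C P K H _ _ _ π hinv h hS hB hE f hf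
  classical
  have hpos : ∀ a, ∀ z ∈ C.Ω a, (K.w a z).PosDef := fun a => (K.ku a).pos
  have hVΩ : ∀ a, C.V a ⊆ C.Ω a := fun a => Vale.Agent.P284.H913.V.V_sub C a
  have hsR : ∀ j (η : H) a, ∀ z ∈ C.Ω a, ContDiffAt ℝ ∞ (cmp (h j 1 a) η) z := fun j η a z hz =>
    cmp_contDiffAt ((hS j).smooth 1 a z hz) _
  have hcR : ∀ j (η : H) a, ContinuousOn (cmp (h j 1 a) η) (C.Ω a) := fun j η a z hz =>
    (hsR j η a z hz).continuousAt.continuousWithinAt
  have hdh : ∀ j a, ∀ z ∈ C.Ω a, DifferentiableAt ℝ (h j 1 a) z := fun j a z hz =>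
    ((hS j).smooth 1 a z hz).differentiableAt (by norm_num)
  have hch : ∀ j a, ContinuousOn (h j 1 a) (C.Ω a) := fun j a z hz =>
    ((hS j).smooth 1 a z hz).continuousAt.continuousWithinAt
  set G : ℕ → C.I → Cm n → ℝ := fun j a z => grH (K.w a) (h j 1 a) (h j 1 a) z with hG
  have hGB : ∀ j, BD C (G j) := fun j => BD_grH K π (hS j)
  have hG0 : ∀ j a, ∀ z ∈ C.Ω a, 0 ≤ G j a z := fun j a z hz =>
    grH_nonneg H730.V.vpStmt (hpos a z hz) (hdh j a z hz)
  have hLam : ∀ _ : C.I, 0 < K.Lam := fun a => K.lam_pos.trans_le (Lam_ge K a)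
  have hloc : ∀ {F : C.I → Cm n → ℝ}, BD C F → (∀ a, ∀ z ∈ C.Ω a, 0 ≤ F a z) → ∀ a,
      ∫ z in C.V a, F a z ≤ BInt P K F / K.lam := by
    intro F hF h0 a
    rw [le_div_iff₀ K.lam_pos, mul_comm]
    exact (int_vol_ge K a (hF.cont a) (h0 a)).trans (hF.le P K h0 a)
  have hD1 : ∀ j (η : H) a, ∫ z in C.V a, D1 (cmp (h j 1 a) η) z ≤
      ‖η‖ ^ 2 * (K.Lam * (BInt P K (G j) / K.lam)) := by
    intro j η a
    have h1 : ∫ z in C.V a, D1 (cmp (h j 1 a) η) z ≤ ∫ z in C.V a, ‖η‖ ^ 2 * (K.Lam * G j a z) := by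
      refine integral_mono_of_nonneg (Eventually.of_forall fun z => H958.D1_nonneg _ _) ?_ ?_
      · exact ((integrableOn_cball (((hGB j).cont a).mono (C.cV_sub a))).const_mul _).const_mul _
      · refine (ae_restrict_iff' measurableSet_ball).2 (Eventually.of_forall fun z hz => ?_)
        have hz' := C.V_sub a hz
        have h2 := (D1H_le H730.V.vpStmt (hpos a z hz') K.lam_pos (K.low a z hz') (K.up a z hz')
          (hdh j a z hz')).1
        exact (D1_cmp_le (hdh j a z hz') η).trans (mul_le_mul_of_nonneg_left h2 (sq_nonneg _))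
    rw [integral_const_mul, integral_const_mul] at h1
    refine h1.trans (mul_le_mul_of_nonneg_left ?_ (sq_nonneg _))
    exact mul_le_mul_of_nonneg_left (hloc (hGB j) (hG0 j) a) (hLam a).le
  choose A hA0 hA using fun a : C.I =>
    H958.poinc Vale.Agent.P284.H513.V.v11Stmt n (C.r a) (C.r_pos a)
  choose m hm using fun (j : ℕ) (η : H) (a : C.I) =>
    hA a (C.c a) (cmp (h j 1 a) η) fun z hz => hsR j η a z (C.cV_sub a hz)
  have hc2 : ∀ a, closedBall (C.c a) (2 * C.r a) ⊆ C.Ω a := fun a =>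
    (cball2_sub_V C a).trans (C.V_sub a)
  have hvt : ∀ a : C.I, volume (ball (C.c a) (2 * C.r a)) ≠ ⊤ := fun a => measure_ball_lt_top.ne
  have hvp : ∀ a : C.I, 0 < (volume (ball (C.c a) (2 * C.r a))).toReal := fun a =>
    ENNReal.toReal_pos (measure_ball_pos volume _ (by linarith [C.r_pos a])).ne'
      measure_ball_lt_top.ne
  have hiR0 : ∀ j (η : H) a, IntegrableOn (cmp (h j 1 a) η) (ball (C.c a) (2 * C.r a)) :=
    fun j η a => integrableOn_cball ((hcR j η a).mono (hc2 a))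
  have hiR2 : ∀ j (η : H) a, IntegrableOn (fun z => cmp (h j 1 a) η z ^ 2)
      (ball (C.c a) (2 * C.r a)) :=
    fun j η a => integrableOn_cball (((hcR j η a).mono (hc2 a)).pow 2)
  have hiR : ∀ j (η : H) a t, IntegrableOn (fun z => (cmp (h j 1 a) η z - t) ^ 2)
      (ball (C.c a) (2 * C.r a)) :=
    fun j η a t => integrableOn_cball ((((hcR j η a).mono (hc2 a)).sub continuousOn_const).pow 2)
  have hih : ∀ j a, IntegrableOn (h j 1 a) (ball (C.c a) (2 * C.r a)) := fun j a =>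
    (((hch j a).mono (hc2 a)).integrableOn_compact (isCompact_closedBall _ _)).mono_set
      ball_subset_closedBall
  -- the means
  set M : ℕ → C.I → H := fun j a =>
    (volume (ball (C.c a) (2 * C.r a))).toReal⁻¹ • ∫ z in ball (C.c a) (2 * C.r a), h j 1 a z with hM
  have hMe : ∀ j a (η : H), ⟪M j a, η⟫_ℝ = (volume (ball (C.c a) (2 * C.r a))).toReal⁻¹ *
      ∫ z in ball (C.c a) (2 * C.r a), cmp (h j 1 a) η z := by
    intro j a η
    rw [hM]
    simp only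
    rw [real_inner_smul_left]
    congr 1
    rw [real_inner_comm, ← integral_inner (hih j a) η]
    refine integral_congr_ae (Eventually.of_forall fun z => ?_)
    exact real_inner_comm _ _
  set D : ℕ → H → C.I → ℝ := fun j η a =>
    ∫ z in ball (C.c a) (2 * C.r a), (cmp (h j 1 a) η z - ⟪M j a, η⟫_ℝ) ^ 2 with hD
  have hDt : ∀ (η : H) a, Tendsto (fun j => D j η a) atTop (𝓝 0) := by
    intro η a
    have hlim : Tendsto (fun j => A a * (‖η‖ ^ 2 * (K.Lam * (BInt P K (G j) / K.lam)))) atTop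
        (𝓝 0) := by
      have := (((hE.div_const K.lam).const_mul K.Lam).const_mul (‖η‖ ^ 2)).const_mul (A a)
      simpa using this
    refine squeeze_zero (fun j => integral_nonneg fun z => sq_nonneg _) (fun j => ?_) hlim
    refine le_trans ?_ ((hm j η a).trans (mul_le_mul_of_nonneg_left (hD1 j η a) (hA0 a)))
    simp only [hD]
    rw [hMe]
    exact mean_min (hvt a) (hvp a) (hiR0 j η a) (hiR2 j η a) _
  -- boundedness of the means
  obtain ⟨B, hB⟩ := hB
  have hNB : ∀ j, BD C (fun a z => ‖h j 1 a z‖ ^ 2) := fun j => BD_nsq π (hS j)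
  have hiN : ∀ j a, IntegrableOn (fun z => ‖h j 1 a z‖ ^ 2) (ball (C.c a) (2 * C.r a)) :=
    fun j a => integrableOn_cball (((hch j a).mono (hc2 a)).norm.pow 2)
  have hNl : ∀ j a, ∫ z in ball (C.c a) (2 * C.r a), ‖h j 1 a z‖ ^ 2 ≤ B / K.lam := by
    intro j a
    refine le_trans ?_ ((hloc (hNB j) (fun a z _ => sq_nonneg _) a).trans
      (div_le_div_of_nonneg_right (hB j) K.lam_pos.le))
    exact setIntegral_mono_set (Vale.Agent.P284.H913.V.intV ((hNB j).cont a))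
      (Eventually.of_forall fun z => sq_nonneg _) (LE.le.eventuallyLE (ball2_sub_V C a))
  have hMb : ∀ a, ∃ Q : ℝ, ∀ j, ‖M j a‖ ≤ Q := by
    intro a
    refine ⟨(volume (ball (C.c a) (2 * C.r a))).toReal⁻¹ *
      ((1 / 2) * (B / K.lam) + (volume (ball (C.c a) (2 * C.r a))).toReal * (1 / 2)), fun j => ?_⟩
    rw [hM]
    simp only
    rw [norm_smul, norm_inv, Real.norm_eq_abs, abs_of_pos (hvp a)]
    refine mul_le_mul_of_nonneg_left ?_ (inv_nonneg.2 (hvp a).le)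
    refine (norm_integral_le_integral_norm _).trans ?_
    have h5 : ∫ z in ball (C.c a) (2 * C.r a), ‖h j 1 a z‖ ≤
        ∫ z in ball (C.c a) (2 * C.r a), ((1 / 2) * ‖h j 1 a z‖ ^ 2 + 1 / 2) := by
      refine setIntegral_mono_on (hih j a).norm
        (((hiN j a).const_mul _).add (integrableOn_const (hvt a))) measurableSet_ball fun z _ => ?_
      nlinarith [sq_nonneg (‖h j 1 a z‖ - 1)]
    rw [integral_add ((hiN j a).const_mul _) (integrableOn_const (hvt a)), integral_const_mul,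
      setIntegral_const, measureReal_def, smul_eq_mul] at h5
    have h6 := hNl j a
    linarith
  choose Q hQ using hMb
  -- the means tend weakly to zero
  have hM0 : ∀ a (η : H), Tendsto (fun j => ⟪M j a, η⟫_ℝ) atTop (𝓝 0) := by
    intro a₀ η₀
    rw [tendsto_iff_ultrafilter]
    intro 𝒰 h𝒰
    choose ms hms using fun a => weak_lim 𝒰 (fun j => hQ a j)
    have hnb : ∀ a b z, z ∈ C.O a b → z ∈ ball (C.c a) (2 * C.r a) →
        C.T a b z ∈ ball (C.c b) (2 * C.r b) → ms a = π (C.κ a b z) (ms b) := by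
      intro a b z hz h1 h2
      obtain ⟨A', hA'0, hA'⟩ := overlap C a b z hz h1 h2
      refine ext_inner_right ℝ fun η => ?_
      set θ : H := (π (C.κ a b z)).symm η with hθ
      have hfl : ∀ x : H, ⟪π (C.κ a b z) x, η⟫_ℝ = ⟪x, θ⟫_ℝ := by
        intro x
        have h3 := LinearIsometryEquiv.inner_map_map (π (C.κ a b z)) x θ
        rw [hθ, LinearIsometryEquiv.apply_symm_apply] at h3
        exact h3
      rw [hfl]
      have hlim : Tendsto (fun j => A' * (D j η a + D j θ b)) 𝒰 (𝓝 0) := by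
        have := (((hDt η a).add (hDt θ b)).const_mul A').mono_left h𝒰
        simpa using this
      have h3 : Tendsto (fun j => (⟪M j a, η⟫_ℝ - ⟪M j b, θ⟫_ℝ) ^ 2) 𝒰 (𝓝 0) := by
        refine squeeze_zero (fun j => sq_nonneg _) (fun j => ?_) hlim
        refine hA' (cmp (h j 1 a) η) (cmp (h j 1 b) θ) _ _ ((hcR j η a).mono (hc2 a))
          ((hcR j θ b).mono (hc2 b)) fun y hy hκ => ?_
        show ⟪h j 1 a y, η⟫_ℝ = ⟪h j 1 b (C.T a b y), θ⟫_ℝ
        rw [one_ev π (hS j) hy, hκ, hfl]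
      have h4 := tendsto_nhds_unique h3 (((hms a η).sub (hms b θ)).pow 2)
      have h5 : ⟪ms a, η⟫_ℝ - ⟪ms b, θ⟫_ℝ = 0 := by
        have := h4.symm
        simpa using this
      linarith
    obtain ⟨a₁⟩ := C.ne
    have hin : ∀ γ a, π γ (ms a) = ms a₁ := by
      intro γ a
      refine v12Stmt n Γ C (fun γ a => π γ (ms a) = ms a₁) (fun γ a b z hz h1 h2 hQ => ?_)
        1 a₁ γ a (by simp)
      show π (γ * C.κ a b z) (ms b) = ms a₁
      rw [map_mul]
      show π γ (π (C.κ a b z) (ms b)) = ms a₁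
      rw [← hnb a b z hz h1 h2]
      exact hQ
    have h1 : ms a₁ = 0 := hinv _ fun g => hin g a₁
    have h2 : ms a₀ = 0 := by
      have := hin 1 a₀
      rw [h1] at this
      simpa using this
    have h3 := hms a₀ η₀
    rwa [h2, inner_zero_left] at h3
  have hR2 : ∀ a (η : H), Tendsto (fun j => ∫ z in ball (C.c a) (2 * C.r a),
      cmp (h j 1 a) η z ^ 2) atTop (𝓝 0) := by
    intro a η
    have hlim : Tendsto (fun j => 2 * D j η a + 2 *
        ((volume (ball (C.c a) (2 * C.r a))).toReal * ⟪M j a, η⟫_ℝ ^ 2)) atTop (𝓝 0) := by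
      have := ((hDt η a).const_mul 2).add ((((hM0 a η).pow 2).const_mul
        (volume (ball (C.c a) (2 * C.r a))).toReal).const_mul 2)
      simpa using this
    refine squeeze_zero (fun j => integral_nonneg fun z => sq_nonneg _) (fun j => ?_) hlim
    exact Vale.Agent.P284.H5.A.sq_split measurableSet_ball (hvt a) (hiR2 j η a) (hiR j η a _)
  -- the final estimate
  have hcf : ∀ a, ContinuousOn (f 1 a) (C.Ω a) := fun a z hz =>
    (hf.smooth 1 a z hz).continuousAt.continuousWithinAt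
  have hif : ∀ a, IntegrableOn (fun z => ‖f 1 a z‖ ^ 2) (ball (C.c a) (2 * C.r a)) :=
    fun a => integrableOn_cball (((hcf a).mono (hc2 a)).norm.pow 2)
  set K₀ : ℝ := ∑ a, K.Lam * ((1 / 2) * (∫ z in ball (C.c a) (2 * C.r a), ‖f 1 a z‖ ^ 2) +
    (1 / 2) * (B / K.lam) + (1 / 2) * (volume (ball (C.c a) (2 * C.r a))).toReal) with hK₀
  have hfin : ∀ s : ℝ, 0 < s → ∃ c : ℕ → ℝ, Tendsto c atTop (𝓝 0) ∧
      ∀ j, |BInt P K (fun a z => ⟪h j 1 a z, f 1 a z⟫_ℝ)| ≤ c j + s * K₀ := by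
    intro s hs
    choose k e he hfe using fun a => exists_fam_cpt (ι := Unit) (fun _ => f 1 a)
      (isCompact_closedBall (C.c a) (2 * C.r a)) (fun _ => (hcf a).mono (hc2 a))
      (pow_pos hs 2)
    refine ⟨fun j => ∑ a, K.Lam * ((2 * s)⁻¹ *
      ∑ i, ∫ z in ball (C.c a) (2 * C.r a), cmp (h j 1 a) (e a i) z ^ 2), ?_, fun j => ?_⟩
    · have : Tendsto (fun j => ∑ a, K.Lam * ((2 * s)⁻¹ *
        ∑ i, ∫ z in ball (C.c a) (2 * C.r a), cmp (h j 1 a) (e a i) z ^ 2)) atTop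
          (𝓝 (∑ a : C.I, K.Lam * ((2 * s)⁻¹ * ∑ _i : Fin (k a), 0))) :=
        tendsto_finsetSum _ fun a _ => ((tendsto_finsetSum _ fun i _ =>
          hR2 a (e a i)).const_mul _).const_mul _
      simpa using this
    · have hI : BD C (fun a z => ⟪h j 1 a z, f 1 a z⟫_ℝ) := BD_inner π (hS j) hf
      have hIa : BD C (fun a z => |⟪h j 1 a z, f 1 a z⟫_ℝ|) :=
        { cont := fun a => (hI.cont a).abs
          compat := fun a b z hz h1 h2 => congrArg abs (hI.compat a b z hz h1 h2) }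
      have h1 : |BInt P K (fun a z => ⟪h j 1 a z, f 1 a z⟫_ℝ)| ≤
          BInt P K (fun a z => |⟪h j 1 a z, f 1 a z⟫_ℝ|) := by
        refine abs_le.2 ⟨?_, BInt_mono P K hI hIa fun a z _ => le_abs_self _⟩
        have h2 := BInt_comb P K hIa hIa (-1) 0
        have h3 := BInt_mono P K (BD_comb hIa hIa (-1) 0) hI fun a z _ => by
          show -1 * |⟪h j 1 a z, f 1 a z⟫_ℝ| + 0 * |⟪h j 1 a z, f 1 a z⟫_ℝ| ≤ ⟪h j 1 a z, f 1 a z⟫_ℝ
          have := neg_abs_le ⟪h j 1 a z, f 1 a z⟫_ℝ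
          linarith
        linarith
      refine h1.trans ((hIa.ge P K fun a z _ => abs_nonneg _).trans ?_)
      rw [hK₀, Finset.mul_sum, ← Finset.sum_add_distrib]
      refine Finset.sum_le_sum fun a _ => ?_
      have hW2 : C.W a ⊆ ball (C.c a) (2 * C.r a) := ball_subset_ball (by linarith [C.r_pos a])
      have hiI : IntegrableOn (fun z => |⟪h j 1 a z, f 1 a z⟫_ℝ|) (ball (C.c a) (2 * C.r a)) :=
        integrableOn_cball ((hIa.cont a).mono (hc2 a))
      have hsum : IntegrableOn (fun z => ∑ i, cmp (h j 1 a) (e a i) z ^ 2)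
          (ball (C.c a) (2 * C.r a)) := integrable_finsetSum _ fun i _ => hiR2 j (e a i) a
      have i1 : IntegrableOn (fun z => (2 * s)⁻¹ * ∑ i, cmp (h j 1 a) (e a i) z ^ 2)
          (ball (C.c a) (2 * C.r a)) := hsum.const_mul _
      have i2 : IntegrableOn (fun z => s / 2 * ‖f 1 a z‖ ^ 2) (ball (C.c a) (2 * C.r a)) :=
        (hif a).const_mul _
      have i3 : IntegrableOn (fun z => s / 2 * ‖h j 1 a z‖ ^ 2) (ball (C.c a) (2 * C.r a)) :=
        (hiN j a).const_mul _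
      have i12 : IntegrableOn (fun z => (2 * s)⁻¹ * (∑ i, cmp (h j 1 a) (e a i) z ^ 2) +
          s / 2 * ‖f 1 a z‖ ^ 2) (ball (C.c a) (2 * C.r a)) := i1.add i2
      have i123 : IntegrableOn (fun z => (2 * s)⁻¹ * (∑ i, cmp (h j 1 a) (e a i) z ^ 2) +
          s / 2 * ‖f 1 a z‖ ^ 2 + s / 2 * ‖h j 1 a z‖ ^ 2) (ball (C.c a) (2 * C.r a)) :=
        i12.add i3
      calc ∫ z in C.W a, |⟪h j 1 a z, f 1 a z⟫_ℝ| * vol (K.w a) z
          ≤ ∫ z in C.W a, K.Lam * |⟪h j 1 a z, f 1 a z⟫_ℝ| := by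
            refine setIntegral_mono_on ((hIa.int_vol K a).mono_set (Vale.Agent.P284.H913.V.W_sub C a))
              ((hiI.mono_set hW2).const_mul _) measurableSet_ball fun z hz => ?_
            rw [mul_comm]
            exact mul_le_mul_of_nonneg_right
              (K.vol_up a z (hVΩ a (Vale.Agent.P284.H913.V.W_sub C a hz))) (abs_nonneg _)
        _ = K.Lam * ∫ z in C.W a, |⟪h j 1 a z, f 1 a z⟫_ℝ| := integral_const_mul _ _
        _ ≤ K.Lam * ∫ z in ball (C.c a) (2 * C.r a), |⟪h j 1 a z, f 1 a z⟫_ℝ| := by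
            refine mul_le_mul_of_nonneg_left ?_ (hLam a).le
            exact setIntegral_mono_set hiI (Eventually.of_forall fun z => abs_nonneg _)
              (LE.le.eventuallyLE hW2)
        _ ≤ K.Lam * ∫ z in ball (C.c a) (2 * C.r a), (((2 * s)⁻¹ *
              (∑ i, cmp (h j 1 a) (e a i) z ^ 2) + s / 2 * ‖f 1 a z‖ ^ 2 +
              s / 2 * ‖h j 1 a z‖ ^ 2) + s / 2) := by
            refine mul_le_mul_of_nonneg_left ?_ (hLam a).le
            refine setIntegral_mono_on hiI (i123.add (integrableOn_const (hvt a))) measurableSet_ball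
              fun z hz => ?_
            exact inner_approx (he a) (h j 1 a z) (f 1 a z) hs
              (hfe a () z (ball_subset_closedBall hz))
        _ = K.Lam * ((2 * s)⁻¹ * ∑ i, ∫ z in ball (C.c a) (2 * C.r a),
              cmp (h j 1 a) (e a i) z ^ 2) + K.Lam *
              (s / 2 * (∫ z in ball (C.c a) (2 * C.r a), ‖f 1 a z‖ ^ 2) +
              s / 2 * (∫ z in ball (C.c a) (2 * C.r a), ‖h j 1 a z‖ ^ 2) +
              s / 2 * (volume (ball (C.c a) (2 * C.r a))).toReal) := by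
            rw [integral_add i123 (integrableOn_const (hvt a)), integral_add i12 i3,
              integral_add i1 i2, integral_const_mul,
              integral_const_mul, integral_const_mul, setIntegral_const, measureReal_def,
              smul_eq_mul, integral_finsetSum _ fun i _ => hiR2 j (e a i) a]
            ring
        _ ≤ _ := by
            have h6 := mul_le_mul_of_nonneg_left (hNl j a)
              (mul_nonneg (hLam a).le (by positivity : 0 ≤ s / 2))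
            linarith
  rw [Metric.tendsto_atTop]
  intro ε hε
  have hK0 : 0 < |K₀| + 1 := by positivity
  obtain ⟨c, hc, hcb⟩ := hfin (ε / 2 / (|K₀| + 1)) (by positivity)
  obtain ⟨N, hN⟩ := Metric.tendsto_atTop.1 hc (ε / 2) (by positivity)
  refine ⟨N, fun j hj => ?_⟩
  have h1 := hN j hj
  rw [Real.dist_eq, sub_zero] at h1 ⊢
  have h2 := hcb j
  have h3 : ε / 2 / (|K₀| + 1) * K₀ ≤ ε / 2 := by
    rw [div_mul_eq_mul_div, div_le_iff₀ hK0]
    exact mul_le_mul_of_nonneg_left ((le_abs_self _).trans (by linarith)) (by positivity)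
  have h4 := le_abs_self (c j)
  linarith

end Vale.Agent.P284.H10.T4
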