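import Vale.Agent.P284.H10.S4k
import Vale.Agent.P284.H913.TubeD
import Vale.Agent.P284.H409.SpecA

/-!
# P284 (helper10), theorem A, row AU: unitarity
-/

open scoped Manifold ContDiff Topology ComplexConjugate ENNReal
open Filter Set Metric MeasureTheory

noncomputable section

namespace Vale.Agent.P284.H10

open Vale.Agent.P272.K Vale.Agent.P284.H894 Vale.Agent.P284.H894.W Vale.Agent.P284.H894.G
  Vale.Agent.P284.H894.V Vale.Agent.P284.H409.A Vale.Agent.P284.H913.Tube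

/-- (i) the pluriharmonic function with periods `log |χ|` -/
def PsiStmt : Prop :=
  ∀ (n : ℕ) (X : Type) [TopologicalSpace X] [ChartedSpace (Cm n) X] [IsManifold 𝓘(ℂ, Cm n) ω X]
    (w : Chart n X → Cm n → Matrix (Fin n) (Fin n) ℂ), IsKahler w →
    ∀ (E Γ : Type) [TopologicalSpace E] [ConnectedSpace E] [Group Γ] [MulAction Γ E]
      (p : E → X), IsGalois Γ p →
    ∀ (G K : Subgroup Γ) (N : ℕ) (F : E → Cm N) (c : Γ → Cm N), Alb p w G K F c →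
    ∀ G₁ : Subgroup Γ, G₁.FiniteIndex → G₁ ≤ G → ∀ χ : Γ → ℂ,
    (∀ g ∈ G₁, χ g ≠ 0) → (∀ g ∈ G₁, ∀ h ∈ G₁, χ (g * h) = χ g * χ h) →
    ∃ lam : Cm N →ₗ[ℝ] ℝ, (∀ g ∈ G₁, Real.log ‖χ g‖ = lam (c g)) ∧
      ∃ B, IsPHB p w (fun y => lam (F y)) B

/-- (ii) the fibre derivatives tend to `0` -/
def VdStmt : Prop :=
  ∀ (n : ℕ) (X : Type) [TopologicalSpace X] [ChartedSpace (Cm n) X] [IsManifold 𝓘(ℂ, Cm n) ω X]
    (w : Chart n X → Cm n → Matrix (Fin n) (Fin n) ℂ), IsKahler w →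
    ∀ (E : Type) [TopologicalSpace E] (p : E → X), IsCoveringMap p →
    ∀ (N : ℕ) (F : E → Cm N) (B : ℝ), HolB p w F B → ∀ lam : Cm N →ₗ[ℝ] ℝ, lam ≠ 0 →
    ∀ (u : ℕ → E → ℂ) (y : E), Reg (n := n) p F y →
    (∃ (e : Chart n X) (O : Set E) (ρ : ℝ) (ψe : Cm n → ℝ) (h : ℕ → Cm n → ℂ),
        At e (p y) ∧ IsOpen O ∧ y ∈ O ∧ 0 < ρ ∧ (∀ y' ∈ O, At e (p y')) ∧
        (∀ y' ∈ O, (fun y => lam (F y)) y' = ψe (e (p y'))) ∧
        (∀ j, ∀ y' ∈ O, u j y' = h j (e (p y'))) ∧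
        (∀ z ∈ ball (e (p y)) ρ, ContDiffAt ℝ ∞ ψe z) ∧
        (∀ j, ∀ z ∈ ball (e (p y)) ρ, ContDiffAt ℝ ∞ (h j) z) ∧
        Tendsto (fun j => ∫⁻ z in ball (e (p y)) ρ,
          ENNReal.ofReal (W1 (w e) ψe (h j) z + W2 (w e) ψe (h j) z)) atTop (𝓝 0)) →
    VD (n := n) p F u y

theorem uniStmt_of (hpsi : PsiStmt) (hvd : VdStmt) : UniStmt := by
  intro hE hR hS hL n X _ _ _ _ _ _ w hw Φ hΦ E Γ _ _ _ _ p hp G K N F c hA
    G₁ hfi hle χ f hne hmul hf hg k hk hck hχk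
  obtain ⟨g₀, hg₀, hg₀1⟩ := hg
  obtain ⟨B₀, hB₀⟩ := hA.hol
  obtain ⟨lam, hlam, B, hψ⟩ := hpsi n X w hw E Γ p hp G K N F c hA G₁ hfi hle χ hne hmul
  have hlog : Real.log ‖χ g₀‖ ≠ 0 :=
    Real.log_ne_zero_of_pos_of_ne_one (norm_pos_iff.2 (hne g₀ hg₀)) hg₀1
  have hlam0 : lam ≠ 0 := by
    rintro rfl
    exact hlog (by rw [hlam g₀ hg₀]; rfl)
  obtain ⟨Φl, hΦl, hpΦ⟩ := hL n X E p hp.cov hp.surj Φ hΦ.holo.continuous
  have hψe : ∀ g ∈ G₁, ∀ y, lam (F (g • y)) = lam (F y) + Real.log ‖χ g‖ := by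
    intro g hg y
    rw [hA.equiv g (hle hg), map_add, hlam g hg]
  obtain ⟨u, hu1, hu2⟩ := hE n X w hw E Γ p hp G₁ hfi χ f (fun y => lam (F y)) B hne hmul hf hψ hψe
    ⟨g₀ • Φl 0, Φl 0, by
      show lam (F (g₀ • Φl 0)) ≠ lam (F (Φl 0))
      rw [hψe g₀ hg₀]
      simpa using hlog⟩
  obtain ⟨P, hP, ζ, hζr, -, hζs⟩ := hR n X w hw Φ hΦ E Γ p hp G K N F c hA Φl hΦl hpΦ
  obtain ⟨T, hT, hTi, hTS⟩ := hS n X w hw Φ hΦ.holo E Γ p hp G K N F c hA Φl hΦl hpΦ P hP ⟨ζ, hζs⟩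
  obtain ⟨x, hx⟩ : ∃ x, F x ∉ T := by
    by_contra hcon
    push Not at hcon
    have h1 : ContDiffAt ℂ ω (fun ζ => F (Φl ζ)) ζ := by
      have h2 : (fun ζ => F (Φl ζ)) = fun ζ i => MvPolynomial.eval ζ (P i) := by
        funext ζ i
        exact hP ζ i
      rw [h2, contDiffAt_pi]
      intro i
      exact (AnalyticOnNhd.eval_mvPolynomial (𝕜 := ℂ) (P i) ζ (mem_univ ζ)).contDiffAt
    have h2 := (h1.hasStrictFDerivAt (by simp)).map_nhds_eq_of_surj (LinearMap.range_eq_top.2 hζs)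
    have h3 : T ∈ map (fun ζ => F (Φl ζ)) (𝓝 ζ) := mem_map.2 (univ_mem' fun ζ' => hcon _)
    rw [h2] at h3
    have h4 := mem_interior_iff_mem_nhds.2 h3
    rw [hTi] at h4
    exact h4
  obtain ⟨hreg, S, hSK, hSfi, hSst, -, -⟩ := hTS x hx
  have hxV : x ∈ connectedComponentIn (F ⁻¹' {F x}) x := mem_connectedComponentIn rfl
  have key : ∀ s ∈ S, s ∈ G₁ → χ s = 1 → f s = 0 := by
    intro s hs hs1 hχs
    have hVF : ∀ y ∈ connectedComponentIn (F ⁻¹' {F x}) x, F y = F x := fun y hy =>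
      connectedComponentIn_subset (F ⁻¹' {F x}) x hy
    let T' : E ≃ₜ E :=
      { toFun := fun y => s • y
        invFun := fun y => s⁻¹ • y
        left_inv := fun y => inv_smul_smul s y
        right_inv := fun y => smul_inv_smul s y
        continuous_toFun := hp.cont s
        continuous_invFun := hp.cont s⁻¹ }
    refine tube hp.cov (V := connectedComponentIn (F ⁻¹' {F x}) x)
      isPreconnected_connectedComponentIn (y₀ := F x) hVF
      (fun y hy => hvd n X w hw E p hp.cov N F B₀ hB₀ lam hlam0 u y (hreg y (hVF y hy)) (hu2 y))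
      T' (fun y => p_smul' hp s y) (fun y => K_smul hA (hSK hs) y) (fun j y => ?_) hxV
      (hSst s hs x hxV)
    show u j (s • y) = u j y + f s
    rw [hu1 j s hs1 y, hχs, one_mul]
  have hkK : k ∈ K := (hA.mem k).2 ⟨hle hk, hck⟩
  obtain ⟨m, hm0, -, hm⟩ := Subgroup.exists_pow_mem_of_index_ne_zero hSfi.index_ne_zero
    (⟨k, hkK⟩ : K)
  have hm' : k ^ m ∈ S := by
    rw [Subgroup.mem_subgroupOf] at hm
    simpa using hm
  have h1 : χ 1 = 1 := by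
    have h2 := hmul k hk 1 G₁.one_mem
    rw [mul_one, hχk, one_mul] at h2
    exact h2.symm
  have h2 : f 1 = 0 := by
    have h3 := hf 1 G₁.one_mem 1 G₁.one_mem
    rw [mul_one, h1, one_mul] at h3
    simpa using h3
  have h3 : ∀ m : ℕ, χ (k ^ m) = 1 ∧ f (k ^ m) = m * f k := by
    intro m
    induction m with
    | zero => simp [h1, h2]
    | succ m ih =>
      have h4 := hmul k hk (k ^ m) (G₁.pow_mem hk m)
      have h5 := hf k hk (k ^ m) (G₁.pow_mem hk m)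
      rw [← pow_succ'] at h4 h5
      refine ⟨by rw [h4, hχk, ih.1, one_mul], ?_⟩
      rw [h5, hχk, ih.2]
      push_cast
      ring
  have h4 := key (k ^ m) hm' (G₁.pow_mem hk m) (h3 m).1
  rw [(h3 m).2] at h4
  rcases mul_eq_zero.1 h4 with h5 | h5
  · exact absurd h5 (by exact_mod_cast hm0.ne')
  · exact h5

end Vale.Agent.P284.H10
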